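import Crest.Agent.X212.Kh11.Fib2

/-!
# X212 / H: fibre lemmas, part 3: contractible sets and weak equivalences (helper11)
-/

set_option autoImplicit false

open Finset

namespace Crest.Agent.X212.Kh11

variable {α β γ : Type*} [PartialOrder α] [PartialOrder β] [PartialOrder γ]

/-- `H^1(A; G) = 0` for every abelian group -/
def H1z (A : Finset α) : Prop :=
  ∀ (G : Type) [AddCommGroup G] (z : α → α → G), Coc A z → Ex A z

/-- contractible, as far as `π₀`, `χ`, `H¹` can see -/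
structure Ctr (A : Finset α) : Prop where
  ne : A.Nonempty
  cn : Cn A
  chi : chi A = 1
  h1 : H1z A

lemma ctr_cone {A : Finset α} {m : α} (hm : m ∈ A) (h : ∀ x ∈ A, x ≤ m ∨ m ≤ x) : Ctr A :=
  ⟨⟨m, hm⟩, cn_cone hm h, chi_cone hm h, fun _ _ _ hz => ex_cone hm h hz⟩

lemma ctr_max {A : Finset α} {m : α} (hm : m ∈ A) (h : ∀ x ∈ A, x ≤ m) : Ctr A :=
  ctr_cone hm (fun x hx => Or.inl (h x hx))

lemma ctr_min {A : Finset α} {m : α} (hm : m ∈ A) (h : ∀ x ∈ A, m ≤ x) : Ctr A :=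
  ctr_cone hm (fun x hx => Or.inr (h x hx))

lemma h1z_dual {A : Finset α} (h : H1z A) : H1z (α := αᵒᵈ) A := by
  intro G _ z hz
  have h1 : Coc (α := α) A (fun x y => -z y x) := (coc_dual (α := αᵒᵈ) (A := A) (z := z)).2 hz
  exact (ex_dual (α := αᵒᵈ) (A := A) (z := z)).1 (h G _ h1)

lemma Ctr.dual {A : Finset α} (h : Ctr A) : Ctr (α := αᵒᵈ) A :=
  ⟨h.ne, cn_dual.2 h.cn, (chi_dual A).trans h.chi, h1z_dual h.h1⟩

open Classical in
/-- weak equivalence of finite posets -/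
structure WE (A : Finset α) (B : Finset β) (f : α → β) : Prop where
  maps : ∀ x ∈ A, f x ∈ B
  mono : ∀ x ∈ A, ∀ y ∈ A, x ≤ y → f x ≤ f y
  surj : ∀ y ∈ B, ∃ x ∈ A, Rch B (f x) y
  inj : ∀ x ∈ A, ∀ x' ∈ A, Rch B (f x) (f x') → Rch A x x'
  chi : ∀ C, Low B C → Upp B C → chi (A.filter (fun x => f x ∈ C)) = chi C
  ex : ∀ (G : Type) [AddCommGroup G] (z : β → β → G), Coc B z →
    Ex A (fun x y => z (f x) (f y)) → Ex B z
  onto : ∀ (G : Type) [AddCommGroup G] (z : α → α → G), Coc A z →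
    ∃ w : β → β → G, Coc B w ∧ Ex A (fun x y => z x y - w (f x) (f y))

variable {A : Finset α} {B : Finset β} {f : α → β}

open Classical in
theorem WE.of_le (hm : ∀ x ∈ A, f x ∈ B) (hf : ∀ x ∈ A, ∀ y ∈ A, x ≤ y → f x ≤ f y)
    (h : ∀ y ∈ B, Ctr (A.filter (fun x => f x ≤ y))) : WE A B f := by
  have h0 : ∀ y ∈ B, ∃ x ∈ A, f x ≤ y := fun y hy => by
    obtain ⟨x, hx⟩ := (h y hy).ne
    exact ⟨x, (mem_filter.1 hx).1, (mem_filter.1 hx).2⟩
  have h1 := fun y hy => (h y hy).cn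
  refine ⟨hm, hf, fun y hy => ?_, fun x hx x' hx' hr => ?_, fun C hC _ => ?_,
    fun G _ z hz he => ex_of_comap hm hf h0 h1 hz he, fun G _ z hz => ?_⟩
  · obtain ⟨x, hx, hle⟩ := h0 y hy
    exact ⟨x, hx, Rch.of_le (hm x hx) hy hle⟩
  · exact rch_fib h0 h1 (hm x hx) hr hx hx' le_rfl le_rfl
  · exact chi_fib hm hf (fun y hy => (h y hy).chi) hC
  · exact exists_comap hm hf h0 h1 (fun y hy => (h y hy).h1 G z (hz.mono (filter_subset _ _)))

theorem WE.dual (h : WE A B f) : WE (α := αᵒᵈ) (β := βᵒᵈ) A B f := by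
  refine ⟨h.maps, fun x hx y hy hle => h.mono y hy x hx hle, fun y hy => ?_,
    fun x hx x' hx' hr => rch_dual.2 (h.inj x hx x' hx' (rch_dual.1 hr)), fun C h1 h2 => ?_,
    fun G _ z hz he => ?_, fun G _ z hz => ?_⟩
  · obtain ⟨x, hx, hr⟩ := h.surj y hy
    exact ⟨x, hx, rch_dual.2 hr⟩
  · exact ((chi_dual (α := α) _).trans (h.chi C h2 h1)).trans (chi_dual (α := β) C).symm
  · refine (ex_dual (α := βᵒᵈ) (A := B) (z := z)).1 (h.ex G _
      ((coc_dual (α := βᵒᵈ) (A := B) (z := z)).2 hz) ?_)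
    exact (ex_dual (α := αᵒᵈ) (A := A) (z := fun x y => z (f x) (f y))).2 he
  · obtain ⟨w, hw, he⟩ := h.onto G _ ((coc_dual (α := αᵒᵈ) (A := A) (z := z)).2 hz)
    refine ⟨fun x y => -w y x, (coc_dual (α := β) (A := B) (z := w)).2 hw, ?_⟩
    refine ((ex_dual (α := α) (A := A) (z := _)).2 he).congr (α := αᵒᵈ) ?_
    intro x _ y _ _
    simp only [neg_sub, sub_neg_eq_add]
    exact add_comm _ _

open Classical in
theorem WE.of_ge (hm : ∀ x ∈ A, f x ∈ B) (hf : ∀ x ∈ A, ∀ y ∈ A, x ≤ y → f x ≤ f y)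
    (h : ∀ y ∈ B, Ctr (A.filter (fun x => y ≤ f x))) : WE A B f :=
  (WE.of_le (α := αᵒᵈ) (β := βᵒᵈ) (A := A) (B := B) (f := f) hm
    (fun x hx y hy hle => hf y hy x hx hle) (fun y hy => (h y hy).dual)).dual

lemma low_self (A : Finset α) : Low A A := ⟨Subset.rfl, fun _ _ _ hy _ => hy⟩
lemma upp_self (A : Finset α) : Upp A A := ⟨Subset.rfl, fun _ _ _ hy _ => hy⟩

open Classical in
lemma WE.low (h : WE A B f) {C : Finset β} (hC : Low B C) :
    Low A (A.filter (fun x => f x ∈ C)) :=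
  ⟨filter_subset _ _, fun x hx y hy hle => mem_filter.2 ⟨hy, hC.2 _ (mem_filter.1 hx).2 _
    (h.maps y hy) (h.mono y hy x (mem_filter.1 hx).1 hle)⟩⟩

open Classical in
lemma WE.upp (h : WE A B f) {C : Finset β} (hC : Upp B C) :
    Upp A (A.filter (fun x => f x ∈ C)) :=
  ⟨filter_subset _ _, fun x hx y hy hle => mem_filter.2 ⟨hy, hC.2 _ (mem_filter.1 hx).2 _
    (h.maps y hy) (h.mono x (mem_filter.1 hx).1 y hy hle)⟩⟩

theorem WE.chi_eq (h : WE A B f) : Kh11.chi A = Kh11.chi B := by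
  classical
  have := h.chi B (low_self B) (upp_self B)
  rwa [filter_true_of_mem (fun x hx => h.maps x hx)] at this

theorem WE.rch_iff (h : WE A B f) {x x' : α} (hx : x ∈ A) (hx' : x' ∈ A) :
    Rch A x x' ↔ Rch B (f x) (f x') :=
  ⟨fun hr => hr.map h.maps h.mono, h.inj x hx x' hx'⟩

open Classical in
theorem WE.cmp_eq (h : WE A B f) {x : α} (hx : x ∈ A) :
    cmp A x = A.filter (fun t => f t ∈ cmp B (f x)) := by
  ext t
  simp only [mem_cmp, mem_filter]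
  exact ⟨fun a => ⟨a.1, h.maps t a.1, (h.rch_iff hx a.1).1 a.2⟩,
    fun a => ⟨a.1, (h.rch_iff hx a.1).2 a.2.2⟩⟩

theorem WE.chi_cmp (h : WE A B f) {x : α} (hx : x ∈ A) :
    Kh11.chi (cmp A x) = Kh11.chi (cmp B (f x)) := by
  rw [h.cmp_eq hx]
  exact h.chi _ (cmp_low _ _) (cmp_upp _ _)

theorem WE.cn_iff (h : WE A B f) : Cn A ↔ Cn B := by
  constructor
  · intro hc y hy y' hy'
    obtain ⟨x, hx, a⟩ := h.surj y hy
    obtain ⟨x', hx', a'⟩ := h.surj y' hy'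
    exact (a.symm.trans ((hc x hx x' hx').map h.maps h.mono)).trans a'
  · exact fun hc x hx x' hx' => h.inj x hx x' hx' (hc _ (h.maps x hx) _ (h.maps x' hx'))

theorem WE.ne_iff (h : WE A B f) : A.Nonempty ↔ B.Nonempty :=
  ⟨fun ⟨x, hx⟩ => ⟨f x, h.maps x hx⟩, fun ⟨y, hy⟩ => let ⟨x, hx, _⟩ := h.surj y hy; ⟨x, hx⟩⟩

theorem WE.h1z_iff (h : WE A B f) : H1z A ↔ H1z B := by
  constructor
  · exact fun hc G _ z hz => h.ex G z hz (hc G _ (hz.comap h.maps h.mono))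
  · intro hc G _ z hz
    obtain ⟨w, hw, he⟩ := h.onto G z hz
    refine (he.add ((hc G w hw).comap h.maps h.mono)).congr ?_
    intro x _ y _ _
    abel

theorem WE.ctr_iff (h : WE A B f) : Ctr A ↔ Ctr B :=
  ⟨fun c => ⟨h.ne_iff.1 c.ne, h.cn_iff.1 c.cn, h.chi_eq ▸ c.chi, h.h1z_iff.1 c.h1⟩,
   fun c => ⟨h.ne_iff.2 c.ne, h.cn_iff.2 c.cn, h.chi_eq.symm ▸ c.chi, h.h1z_iff.2 c.h1⟩⟩

theorem WE.comp {C : Finset γ} {g : β → γ} (h : WE A B f) (h' : WE B C g) :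
    WE A C (fun x => g (f x)) := by
  classical
  refine ⟨fun x hx => h'.maps _ (h.maps x hx), fun x hx y hy hle =>
    h'.mono _ (h.maps x hx) _ (h.maps y hy) (h.mono x hx y hy hle), fun t ht => ?_,
    fun x hx x' hx' hr => h.inj x hx x' hx' (h'.inj _ (h.maps x hx) _ (h.maps x' hx') hr),
    fun D h1 h2 => ?_, fun G _ z hz he => h'.ex G z hz (h.ex G _ (hz.comap h'.maps h'.mono) he),
    fun G _ z hz => ?_⟩
  · obtain ⟨y, hy, a⟩ := h'.surj t ht
    obtain ⟨x, hx, b⟩ := h.surj y hy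
    exact ⟨x, hx, (b.map h'.maps h'.mono).trans a⟩
  · rw [← h'.chi D h1 h2, ← h.chi _ (h'.low h1) (h'.upp h2)]
    congr 1
    ext x
    simp only [mem_filter]
    exact ⟨fun a => ⟨a.1, h.maps x a.1, a.2⟩, fun a => ⟨a.1, a.2.2⟩⟩
  · obtain ⟨w, hw, he⟩ := h.onto G z hz
    obtain ⟨v, hv, he'⟩ := h'.onto G w hw
    refine ⟨v, hv, (he.add (he'.comap h.maps h.mono)).congr ?_⟩
    intro x _ y _ _
    abel

theorem WE.congr {g : α → β} (h : WE A B f) (e : ∀ x ∈ A, g x = f x) : WE A B g := by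
  classical
  refine ⟨fun x hx => e x hx ▸ h.maps x hx, fun x hx y hy hle => ?_, fun y hy => ?_,
    fun x hx x' hx' hr => h.inj x hx x' hx' (by rwa [e x hx, e x' hx'] at hr), fun C h1 h2 => ?_,
    fun G _ z hz he => h.ex G z hz (he.congr fun x hx y hy _ => by rw [e x hx, e y hy]),
    fun G _ z hz => ?_⟩
  · rw [e x hx, e y hy]; exact h.mono x hx y hy hle
  · obtain ⟨x, hx, a⟩ := h.surj y hy
    exact ⟨x, hx, by rwa [e x hx]⟩
  · rw [← h.chi C h1 h2]
    congr 1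
    exact filter_congr (fun x hx => by rw [e x hx])
  · obtain ⟨w, hw, he⟩ := h.onto G z hz
    exact ⟨w, hw, he.congr fun x hx y hy _ => by rw [e x hx, e y hy]⟩

open Classical in
/-- a weak equivalence restricts to a union of components -/
theorem WE.restr (h : WE A B f) {C : Finset β} (h1 : Low B C) (h2 : Upp B C) :
    WE (A.filter (fun x => f x ∈ C)) C f := by
  have l1 := h.low h1
  have l2 := h.upp h2
  refine ⟨fun x hx => (mem_filter.1 hx).2, fun x hx y hy hle =>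
    h.mono x (l1.1 hx) y (l1.1 hy) hle, fun y hy => ?_, fun x hx x' hx' hr => ?_,
    fun D d1 d2 => ?_, fun G _ z hz he => ?_, fun G _ z hz => ?_⟩
  · obtain ⟨x, hx, a⟩ := h.surj y (h1.1 hy)
    have b := Rch.in_clopen h1 h2 hy a.symm
    exact ⟨x, mem_filter.2 ⟨hx, b.mem hy⟩, b.symm⟩
  · exact Rch.in_clopen l1 l2 hx (h.inj x (l1.1 hx) x' (l1.1 hx') (hr.mono h1.1))
  · rw [← h.chi D ⟨d1.1.trans h1.1, fun x hx y hy hle =>
        d1.2 x hx y (h1.2 x (d1.1 hx) y hy hle) hle⟩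
      ⟨d1.1.trans h1.1, fun x hx y hy hle => d2.2 x hx y (h2.2 x (d1.1 hx) y hy hle) hle⟩]
    congr 1
    ext x
    simp only [mem_filter]
    exact ⟨fun a => ⟨a.1.1, a.2⟩, fun a => ⟨⟨a.1, d1.1 a.2⟩, a.2⟩⟩
  · have hc : Coc B (fun x y => if x ∈ C then z x y else 0) := by
      intro x hx y hy t ht a b
      by_cases hxC : x ∈ C
      · have hyC := h2.2 x hxC y hy a
        simp only [hxC, hyC, if_true]
        exact hz x hxC y hyC t (h2.2 y hyC t ht b) a b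
      · have hyC : y ∉ C := fun c => hxC (h1.2 y c x hx a)
        simp [hxC, hyC]
    obtain ⟨a, ha⟩ := he
    have := h.ex G _ hc ⟨fun x => if f x ∈ C then a x else 0, fun x hx y hy hle => by
      by_cases hxC : f x ∈ C
      · have hyC := h2.2 _ hxC _ (h.maps y hy) (h.mono x hx y hy hle)
        simp only [hxC, hyC, if_true]
        exact ha x (mem_filter.2 ⟨hx, hxC⟩) y (mem_filter.2 ⟨hy, hyC⟩) hle
      · have hyC : f y ∉ C := fun c => hxC (h1.2 _ c _ (h.maps x hx) (h.mono x hx y hy hle))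
        simp [hxC, hyC]⟩
    exact (this.mono h1.1).congr (fun x hx y _ _ => by simp [hx])
  · have hc : Coc A (fun x y => if f x ∈ C then z x y else 0) := by
      intro x hx y hy t ht a b
      by_cases hxC : f x ∈ C
      · have hx' : x ∈ A.filter (fun x => f x ∈ C) := mem_filter.2 ⟨hx, hxC⟩
        have hy' := l2.2 x hx' y hy a
        simp only [hxC, (mem_filter.1 hy').2, if_true]
        exact hz x hx' y hy' t (l2.2 y hy' t ht b) a b
      · have hyC : f y ∉ C := fun c => hxC (h1.2 _ c _ (h.maps x hx) (h.mono x hx y hy a))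
        simp [hxC, hyC]
    obtain ⟨w, hw, he⟩ := h.onto G _ hc
    exact ⟨w, hw.mono h1.1, (he.mono l1.1).congr (fun x hx y _ _ => by
      simp [(mem_filter.1 hx).2])⟩

theorem WE.cmp (h : WE A B f) {x : α} (hx : x ∈ A) : WE (cmp A x) (cmp B (f x)) f := by
  rw [h.cmp_eq hx]
  exact h.restr (cmp_low _ _) (cmp_upp _ _)

section Retr

variable {D : Finset α} {r : α → α}

/-- an interior operator: the inclusion is a weak equivalence -/
theorem we_incl_of_int (hD : D ⊆ A) (h1 : ∀ x ∈ A, r x ∈ D ∧ r x ≤ x)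
    (h2 : ∀ x ∈ A, ∀ b ∈ D, b ≤ x → b ≤ r x) : WE D A (fun x => x) := by
  classical
  refine WE.of_le (fun x hx => hD hx) (fun _ _ _ _ h => h) (fun y hy => ?_)
  exact ctr_max (m := r y) (mem_filter.2 (h1 y hy)) (fun x hx =>
    h2 y hy x (mem_filter.1 hx).1 (mem_filter.1 hx).2)

/-- a closure operator: the inclusion is a weak equivalence -/
theorem we_incl_of_clo (hD : D ⊆ A) (h1 : ∀ x ∈ A, r x ∈ D ∧ x ≤ r x)
    (h2 : ∀ x ∈ A, ∀ b ∈ D, x ≤ b → r x ≤ b) : WE D A (fun x => x) := by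
  classical
  refine WE.of_ge (fun x hx => hD hx) (fun _ _ _ _ h => h) (fun y hy => ?_)
  exact ctr_min (m := r y) (mem_filter.2 (h1 y hy)) (fun x hx =>
    h2 y hy x (mem_filter.1 hx).1 (mem_filter.1 hx).2)

end Retr

/-- a map with a lower adjoint on the sets -/
theorem we_of_adj {g : β → α} (hm : ∀ x ∈ A, f x ∈ B)
    (hf : ∀ x ∈ A, ∀ y ∈ A, x ≤ y → f x ≤ f y) (hg : ∀ y ∈ B, g y ∈ A)
    (h : ∀ x ∈ A, ∀ y ∈ B, y ≤ f x ↔ g y ≤ x) : WE A B f := by
  classical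
  refine WE.of_ge hm hf (fun y hy => ctr_min (m := g y)
    (mem_filter.2 ⟨hg y hy, (h _ (hg y hy) y hy).2 le_rfl⟩) (fun x hx => ?_))
  exact (h x (mem_filter.1 hx).1 y hy).1 (mem_filter.1 hx).2

/-- a map with an upper adjoint on the sets -/
theorem we_of_adj' {g : β → α} (hm : ∀ x ∈ A, f x ∈ B)
    (hf : ∀ x ∈ A, ∀ y ∈ A, x ≤ y → f x ≤ f y) (hg : ∀ y ∈ B, g y ∈ A)
    (h : ∀ x ∈ A, ∀ y ∈ B, f x ≤ y ↔ x ≤ g y) : WE A B f := by
  classical
  refine WE.of_le hm hf (fun y hy => ctr_max (m := g y)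
    (mem_filter.2 ⟨hg y hy, (h _ (hg y hy) y hy).2 le_rfl⟩) (fun x hx => ?_))
  exact (h x (mem_filter.1 hx).1 y hy).1 (mem_filter.1 hx).2

end Crest.Agent.X212.Kh11
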