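import Crest.Agent.X212.Kh11.Beat
import Crest.Agent.X212.Hp13.Sd

/-!
# X212 / Kh11 (helper11): REF, level sets under refinement

`Rf f A z B w`: `f` is a cell like map, `B = f ⁻¹ A`, `w = pb f z` on the star of `B`.  The map
`Rf.map : Lv B w → Lv A z` is a weak equivalence over every convex part of `LA A z`, keeps `chiC`,
`LB`, `Tch`, `NoCl`, `IsDisc`, `IsSph`, `Sf`.
-/

set_option autoImplicit false
set_option linter.unusedSectionVars false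

open Finset Classical

noncomputable section

namespace Crest.Agent.X212.Kh11

open Hp13 (Ch Cm CocOn ExOn Conn IsCmp eu pb Lv LA LB Mt Dom Dp IsCoc Mono EqD Tch NoCl chiC
  IsDisc IsSph Sf Desc St)

variable {P Q : Type} [PartialOrder P] [Fintype P] [PartialOrder Q] [Fintype Q]

section lv

variable {A : Set P} {z : P → P → ℤ}

theorem dom_self {G : Type} [AddCommGroup G] {z : P → P → G} (hz : Hp13.Coc A z) {c : Ch P}
    (h : Dom A c) {x : P} (hx : x ∈ c.1) : z x x = 0 :=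
  let ⟨_, ha, h⟩ := h; hz.self ha (h x hx)

theorem lv_ext {p q : Lv A z} (h1 : p.1.1 = q.1.1) (h2 : p.1.2 = q.1.2) : p = q :=
  Subtype.ext (Prod.ext h1 h2)

theorem lv_le' (hz : Hp13.Coc A z) {p q : Lv A z} :
    Lv.le p q ↔ p.1.1 ≤ q.1.1 ∧ q.1.2 = p.1.2 + z q.1.1.bot p.1.1.bot := by
  constructor
  · rintro (rfl | ⟨h1, h2⟩)
    · exact ⟨le_rfl, by rw [dom_self hz p.2.1 p.1.1.bot_mem, add_zero]⟩
    · exact ⟨h1.le, h2⟩
  · rintro ⟨h1, h2⟩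
    rcases h1.eq_or_lt with e | e
    · refine Or.inl (lv_ext e ?_)
      rw [h2, ← e, dom_self hz p.2.1 p.1.1.bot_mem, add_zero]
    · exact Or.inr ⟨e, h2⟩

theorem lv_le [hz : IsCoc A z] {p q : Lv A z} :
    p ≤ q ↔ p.1.1 ≤ q.1.1 ∧ q.1.2 = p.1.2 + z q.1.1.bot p.1.1.bot := lv_le' hz.coc

theorem lv_le_def [IsCoc A z] {p q : Lv A z} : Lv.le p q ↔ p ≤ q := Iff.rfl

theorem lv_le_ch [IsCoc A z] {p q : Lv A z} (h : p ≤ q) : p.1.1 ≤ q.1.1 := (lv_le.1 h).1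

/-- two faces of one cell are compared by their chains -/
theorem lv_le_of_le [hz : IsCoc A z] {p q r : Lv A z} (hp : p ≤ r) (hq : q ≤ r)
    (h : p.1.1 ≤ q.1.1) : p ≤ q := by
  obtain ⟨h1, h2⟩ := lv_le.1 hp
  obtain ⟨h3, h4⟩ := lv_le.1 hq
  refine lv_le.2 ⟨h, ?_⟩
  have := hz.coc.add' r.2.1 r.1.1.bot_mem (h3 q.1.1.bot_mem) (h1 p.1.1.bot_mem)
    (Ch.bot_anti h3) (Ch.bot_anti h)
  omega

theorem lv_eq_of_le [IsCoc A z] {p q r : Lv A z} (hp : p ≤ r) (hq : q ≤ r)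
    (h : p.1.1 = q.1.1) : p = q :=
  le_antisymm (lv_le_of_le hp hq h.le) (lv_le_of_le hq hp h.ge)

/-- the cell above `p` on a larger chain -/
def lvUp [hz : IsCoc A z] (hm : Mono A z) (p : Lv A z) (d : Ch P) (hd : Dom A d)
    (h : p.1.1 ≤ d) : Lv A z :=
  ⟨(d, p.1.2 + z d.bot p.1.1.bot), hd,
    add_nonneg p.2.2.1 (hm _ _ (hd.dp d.bot_mem (h p.1.1.bot_mem) (Ch.bot_anti h))), by
      have h1 := hz.coc.add' hd d.bot_mem (h p.1.1.bot_mem) (h p.1.1.top_mem) (Ch.bot_anti h)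
        p.1.1.bot_le_top
      have h2 := hz.coc.add' hd d.bot_mem (h p.1.1.top_mem) d.top_mem
        (Ch.bot_le (h p.1.1.top_mem)) (Ch.top_mono h)
      have h3 := hm _ _ (hd.dp (h p.1.1.top_mem) d.top_mem (Ch.top_mono h))
      have h4 := p.2.2.2
      show _ < z d.bot d.top
      omega⟩

theorem le_lvUp [IsCoc A z] (hm : Mono A z) (p : Lv A z) (d : Ch P) (hd : Dom A d)
    (h : p.1.1 ≤ d) : p ≤ lvUp hm p d hd h := lv_le.2 ⟨h, rfl⟩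

@[simp] theorem lvUp_ch [IsCoc A z] (hm : Mono A z) (p : Lv A z) (d : Ch P) (hd : Dom A d)
    (h : p.1.1 ≤ d) : (lvUp hm p d hd h).1.1 = d := rfl

theorem lvUp_le [hz : IsCoc A z] (hm : Mono A z) {p q : Lv A z} (hpq : p ≤ q) (d : Ch P)
    (hd : Dom A d) (h : p.1.1 ≤ d) (h' : d ≤ q.1.1) : lvUp hm p d hd h ≤ q := by
  obtain ⟨h1, h2⟩ := lv_le.1 hpq
  refine lv_le.2 ⟨h', ?_⟩
  have := hz.coc.add' q.2.1 q.1.1.bot_mem (h' d.bot_mem) (h1 p.1.1.bot_mem) (Ch.bot_anti h')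
    (Ch.bot_anti h)
  show q.1.2 = p.1.2 + z d.bot p.1.1.bot + z q.1.1.bot d.bot
  omega

theorem eq_lvUp [IsCoc A z] (hm : Mono A z) {p q : Lv A z} (hpq : p ≤ q) :
    q = lvUp hm p q.1.1 q.2.1 (lv_le_ch hpq) := lv_ext rfl (lv_le.1 hpq).2

theorem upper_LA [IsCoc A z] : IsUpperSet (LA A z) := fun _ _ h hp => Mt.mono hp (lv_le_ch h)

theorem upper_LB [IsCoc A z] : IsUpperSet (LB A z) := fun _ _ h hp =>
  ⟨upper_LA h hp.1, let ⟨q, h1, h2⟩ := hp.2; ⟨q, h1, le_trans (lv_le_def.1 h2) h⟩⟩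

theorem tch_iff {C : Set (Lv A z)} (hC : C ⊆ LA A z) : Tch A z C ↔ ∃ p ∈ C, p ∈ LB A z :=
  ⟨fun ⟨p, hp, h⟩ => ⟨p, hp, hC hp, h⟩, fun ⟨p, hp, h⟩ => ⟨p, hp, h.2⟩⟩

theorem Clo.upper {E C : Set P} (h : Clo E C) (hE : IsUpperSet E) : IsUpperSet C :=
  fun a _ hle ha => h.2 a ha _ (hE hle (h.1 ha)) (Or.inl hle)

theorem upper_cmp [IsCoc A z] {C : Set (Lv A z)} (h : IsCmp (LA A z) C) : IsUpperSet C :=
  (clo_cmp h).upper upper_LA

end lv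

/-- `(B, w)` refines `(A, z)` along `f` -/
structure Rf (f : Q → P) (A : Set P) (z : P → P → ℤ) (B : Set Q) (w : Q → Q → ℤ) : Prop where
  ce : CE f
  pre : B = f ⁻¹' A
  eq : EqD B w (pb f z)

theorem CE.rf {f : Q → P} (h : CE f) (A : Set P) (z : P → P → ℤ) :
    Rf f A z (f ⁻¹' A) (pb f z) := ⟨h, rfl, EqD.rfl⟩

theorem _root_.Crest.Agent.X212.Hp13.Desc.rf {s t : St} {f : t.P → s.P} (h : Desc s t f)
    (z : s.P → s.P → ℤ) : Rf f s.A z t.A (pb f z) := ⟨h.ce, h.A_eq, EqD.rfl⟩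

theorem rf_congr {A : Set P} {z w : P → P → ℤ} (h : EqD A w z) : Rf id A z A w :=
  ⟨CE.refl, rfl, h⟩

namespace Rf

variable {f : Q → P} {A : Set P} {z : P → P → ℤ} {B : Set Q} {w : Q → Q → ℤ}

/-- the image chain -/
def im (h : Rf f A z B w) (d : Ch Q) : Ch P := Ch.img f h.ce.mono d

theorem mt (h : Rf f A z B w) {d : Ch Q} : Mt A (h.im d) ↔ Mt B d :=
  (Hp13.mt_img h.ce.mono).trans (by rw [h.pre])

theorem dom (h : Rf f A z B w) {d : Ch Q} (hd : Dom B d) : Dom A (h.im d) :=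
  Dom.img h.ce.mono (h.pre ▸ hd)

theorem im_bot (h : Rf f A z B w) (d : Ch Q) : (h.im d).bot = f d.bot := Ch.bot_img _ d
theorem im_top (h : Rf f A z B w) (d : Ch Q) : (h.im d).top = f d.top := Ch.top_img _ d
theorem im_mono (h : Rf f A z B w) : Monotone h.im := Ch.img_mono h.ce.mono

theorem coc (h : Rf f A z B w) (hz : Hp13.Coc A z) : Hp13.Coc B w :=
  Hp13.Coc.congr (h.pre ▸ hz.pb h.ce.mono) h.eq

theorem isCoc (h : Rf f A z B w) [hz : IsCoc A z] : IsCoc B w := ⟨h.coc hz.coc⟩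

theorem mono (h : Rf f A z B w) (hz : Mono A z) : Mono B w :=
  Mono.congr (h.pre ▸ hz.pb h.ce.mono) h.eq

theorem val (h : Rf f A z B w) {d : Ch Q} (hd : Dom B d) {x y : Q} (hx : x ∈ d.1) (hy : y ∈ d.1)
    (hxy : x ≤ y) : w x y = z (f x) (f y) := h.eq x y (hd.dp hx hy hxy)

/-- the map of cells -/
def map (h : Rf f A z B w) (p : Lv B w) : Lv A z :=
  ⟨(h.im p.1.1, p.1.2), h.dom p.2.1, p.2.2.1, by
    show _ < z (h.im p.1.1).bot (h.im p.1.1).top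
    rw [h.im_bot, h.im_top, ← h.val p.2.1 p.1.1.bot_mem p.1.1.top_mem p.1.1.bot_le_top]
    exact p.2.2.2⟩

@[simp] theorem map_ch (h : Rf f A z B w) (p : Lv B w) : (h.map p).1.1 = h.im p.1.1 := rfl
@[simp] theorem map_lv (h : Rf f A z B w) (p : Lv B w) : (h.map p).1.2 = p.1.2 := rfl

/-- the cell over a given cell on a given chain -/
def lift (h : Rf f A z B w) (q : Lv A z) (d : Ch Q) (hd : Dom B d) (e : h.im d = q.1.1) : Lv B w :=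
  ⟨(d, q.1.2), hd, q.2.2.1, by
    show _ < w d.bot d.top
    rw [h.val hd d.bot_mem d.top_mem d.bot_le_top, ← h.im_bot, ← h.im_top, e]
    exact q.2.2.2⟩

theorem map_lift (h : Rf f A z B w) (q : Lv A z) (d : Ch Q) (hd : Dom B d) (e : h.im d = q.1.1) :
    h.map (h.lift q d hd e) = q := lv_ext e rfl

theorem pre_LA (h : Rf f A z B w) : h.map ⁻¹' LA A z = LA B w := Set.ext fun _ => h.mt

theorem map_LA (h : Rf f A z B w) {p : Lv B w} : h.map p ∈ LA A z ↔ p ∈ LA B w := h.mt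

theorem surj (h : Rf f A z B w) {q : Lv A z} (hq : q ∈ LA A z) : ∃ p, h.map p = q :=
  let ⟨d, hd⟩ := h.ce.lift q.1.1
  ⟨h.lift q d (h.mt.1 (show Mt A (h.im d) from (show h.im d = q.1.1 from hd) ▸ hq)).dom hd, h.map_lift _ _ _ _⟩

theorem chiC_pre (h : Rf f A z B w) {C : Set (Lv A z)} (hC : C ⊆ LA A z) :
    chiC (h.map ⁻¹' C) = chiC C := by
  unfold chiC
  rw [← sum_fiberwise_of_maps_to (s := univ.filter (· ∈ h.map ⁻¹' C)) (t := univ.filter (· ∈ C))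
    (g := h.map) (fun p hp => by simpa using hp)]
  refine sum_congr rfl fun q hq => ?_
  have hq' : q ∈ C := (mem_filter.1 hq).2
  rw [← h.ce.acyc.fib h.ce.mono q.1.1]
  refine sum_bij (fun p _ => p.1.1) (fun p hp => ?_) (fun p hp p' hp' e => ?_) (fun d hd => ?_)
    (fun _ _ => rfl)
  · exact mem_filter.2 ⟨mem_univ _, congrArg (fun t : Lv A z => t.1.1) (mem_filter.1 hp).2⟩
  · refine lv_ext e ?_
    rw [← h.map_lv p, ← h.map_lv p', (mem_filter.1 hp).2, (mem_filter.1 hp').2]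
  · have e : h.im d = q.1.1 := (mem_filter.1 hd).2
    have hd' : Dom B d := (h.mt.1 (show Mt A (h.im d) from e ▸ hC hq')).dom
    refine ⟨h.lift q d hd' e, mem_filter.2 ⟨mem_filter.2 ⟨mem_univ _, ?_⟩, h.map_lift _ _ _ _⟩, rfl⟩
    show h.map _ ∈ C
    rwa [h.map_lift]

variable [IsCoc A z] [IsCoc B w]

theorem map_le_iff (h : Rf f A z B w) {p q : Lv B w} (hc : p.1.1 ≤ q.1.1) :
    h.map p ≤ h.map q ↔ p ≤ q := by
  rw [lv_le, lv_le, map_ch, map_ch, map_lv, map_lv, h.im_bot, h.im_bot,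
    h.val q.2.1 q.1.1.bot_mem (hc p.1.1.bot_mem) (Ch.bot_anti hc)]
  exact ⟨fun a => ⟨hc, a.2⟩, fun a => ⟨h.im_mono hc, a.2⟩⟩

theorem map_mono (h : Rf f A z B w) : Monotone h.map := fun _ _ hle =>
  (h.map_le_iff (lv_le_ch hle)).2 hle

/-- faces lift -/
theorem face (h : Rf f A z B w) {p : Lv B w} {q : Lv A z} (hq : q ≤ h.map p) :
    ∃ p', p' ≤ p ∧ h.map p' = q := by
  have h1 : q.1.1 ≤ h.im p.1.1 := lv_le_ch hq
  obtain ⟨a, ha, ea⟩ := Ch.mem_img.1 (h1 q.1.1.top_mem)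
  let d : Ch Q := p.1.1.sub (p.1.1.1.filter (f · ∈ q.1.1.1))
    ⟨a, mem_filter.2 ⟨ha, ea ▸ q.1.1.top_mem⟩⟩ (filter_subset _ _)
  have hd : d ≤ p.1.1 := filter_subset _ _
  have e : h.im d = q.1.1 := by
    ext x
    refine Ch.mem_img.trans ⟨fun ⟨y, hy, k⟩ => k ▸ (mem_filter.1 hy).2, fun hx => ?_⟩
    obtain ⟨y, hy, k⟩ := Ch.mem_img.1 (h1 hx)
    exact ⟨y, mem_filter.2 ⟨hy, k ▸ hx⟩, k⟩
  refine ⟨h.lift q d (p.2.1.mono hd) e, (h.map_le_iff (p := h.lift q d _ e) hd).1 ?_,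
    h.map_lift _ _ _ _⟩
  rwa [h.map_lift]

theorem map_LB (h : Rf f A z B w) {p : Lv B w} : h.map p ∈ LB A z ↔ p ∈ LB B w := by
  refine and_congr h.map_LA ⟨fun ⟨q, h1, h2⟩ => ?_, fun ⟨q, h1, h2⟩ =>
    ⟨h.map q, fun k => h1 (h.map_LA.1 k), h.map_mono h2⟩⟩
  obtain ⟨p', h3, rfl⟩ := h.face (lv_le_def.1 h2)
  exact ⟨p', fun k => h1 (h.map_LA.2 k), h3⟩

theorem pre_LB (h : Rf f A z B w) : h.map ⁻¹' LB A z = LB B w := Set.ext fun _ => h.map_LB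

theorem pre_sub (h : Rf f A z B w) {C : Set (Lv A z)} (hC : C ⊆ LA A z) :
    h.map ⁻¹' C ⊆ LA B w := fun _ hp => h.map_LA.1 (hC hp)

theorem tch_pre (h : Rf f A z B w) {C : Set (Lv A z)} (hC : C ⊆ LA A z) :
    Tch B w (h.map ⁻¹' C) ↔ Tch A z C := by
  rw [tch_iff hC, tch_iff (h.pre_sub hC)]
  refine ⟨fun ⟨p, h1, h2⟩ => ⟨_, h1, h.map_LB.2 h2⟩, fun ⟨q, h1, h2⟩ => ?_⟩
  obtain ⟨p, rfl⟩ := h.surj h2.1
  exact ⟨p, h1, h.map_LB.1 h2⟩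

/-- REF: weak equivalence over every convex family of interior cells -/
theorem ws (h : Rf f A z B w) (hm : Mono A z) {V : Set (Lv A z)} (hV : V ⊆ LA A z)
    (hc : V.OrdConnected) : WS (h.map ⁻¹' V) V h.map := by
  refine WS.of_le (fun _ hp => hp) (fun _ _ _ _ hle => h.map_mono hle) (fun q hq => ?_)
  have h1 := h.ce.upper (e := q.1.1) (F := {c | ∃ p ∈ V, p ≤ q ∧ p.1.1 = c}) ⟨q, hq, le_rfl, rfl⟩
    (by
      rintro _ ⟨p, hp, hpq, rfl⟩ d h1 h2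
      exact ⟨lvUp hm p d (q.2.1.mono h2) h1,
        hc.out hp hq ⟨le_lvUp _ _ _ _ _, lvUp_le hm hpq _ _ _ h2⟩, lvUp_le hm hpq _ _ _ h2, rfl⟩)
  refine (WS.of_iso (f := fun p : Lv B w => p.1.1) (fun p hp => ?_) (fun d hd => ?_)
    (fun p hp p' hp' => ?_)).ctr_iff.2 h1
  · exact ⟨⟨_, hp.1, hp.2, rfl⟩, lv_le_ch hp.2⟩
  · obtain ⟨⟨p, hp, hpq, e⟩, -⟩ := hd
    have hd' : Dom B d := (h.mt.1 (show Mt A (h.im d) from (show p.1.1 = h.im d from e) ▸ hV hp)).dom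
    refine ⟨h.lift p d hd' e.symm, ⟨?_, ?_⟩, rfl⟩
    · show h.map _ ∈ V
      rwa [h.map_lift]
    · rwa [h.map_lift]
  · exact ⟨fun k => (h.map_le_iff k).1 (lv_le_of_le hp.2 hp'.2 (h.im_mono k)), lv_le_ch⟩

theorem ws_LA (h : Rf f A z B w) (hm : Mono A z) : WS (LA B w) (LA A z) h.map :=
  h.pre_LA ▸ h.ws hm subset_rfl upper_LA.ordConnected

theorem ws_LB (h : Rf f A z B w) (hm : Mono A z) : WS (LB B w) (LB A z) h.map :=
  h.pre_LB ▸ h.ws hm (fun _ k => k.1) upper_LB.ordConnected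

theorem cmp_pre (h : Rf f A z B w) (hm : Mono A z) {C : Set (Lv A z)} (hC : IsCmp (LA A z) C) :
    IsCmp (LA B w) (h.map ⁻¹' C) := by
  convert (h.ws_LA hm).isCmp_pre hC using 1
  exact Set.ext fun p => ⟨fun k => ⟨h.pre_sub hC.sub k, k⟩, fun k => k.2⟩

theorem cmp_ex (h : Rf f A z B w) (hm : Mono A z) {D : Set (Lv B w)} (hD : IsCmp (LA B w) D) :
    ∃ C, IsCmp (LA A z) C ∧ D = h.map ⁻¹' C := by
  obtain ⟨C, hC, e⟩ := (h.ws_LA hm).isCmp_ex hD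
  exact ⟨C, hC, e.trans (Set.ext fun p => ⟨fun k => k.2, fun k => ⟨h.pre_sub hC.sub k, k⟩⟩)⟩

theorem noCl (h : Rf f A z B w) (hm : Mono A z) : NoCl B w ↔ NoCl A z := by
  refine ⟨fun k C hC => (h.tch_pre hC.sub).1 (k _ (h.cmp_pre hm hC)), fun k D hD => ?_⟩
  obtain ⟨C, hC, rfl⟩ := h.cmp_ex hm hD
  exact (h.tch_pre hC.sub).2 (k C hC)

theorem disc_pre (h : Rf f A z B w) (hm : Mono A z) {C : Set (Lv A z)} (hC : IsDisc A z C) :
    IsDisc B w (h.map ⁻¹' C) :=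
  ⟨h.cmp_pre hm hC.1, (h.tch_pre hC.1.sub).2 hC.2.1, (h.chiC_pre hC.1.sub).trans hC.2.2⟩

theorem disc_ex (h : Rf f A z B w) (hm : Mono A z) {D : Set (Lv B w)} (hD : IsDisc B w D) :
    ∃ C, IsDisc A z C ∧ D = h.map ⁻¹' C := by
  obtain ⟨C, hC, rfl⟩ := h.cmp_ex hm hD.1
  exact ⟨C, ⟨hC, (h.tch_pre hC.sub).1 hD.2.1, (h.chiC_pre hC.sub).symm.trans hD.2.2⟩, rfl⟩

theorem sph_pre (h : Rf f A z B w) (hm : Mono A z) {C : Set (Lv A z)} (hC : IsSph A z C) :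
    IsSph B w (h.map ⁻¹' C) :=
  ⟨h.cmp_pre hm hC.1, fun k => hC.2.1 ((h.tch_pre hC.1.sub).1 k),
    (h.chiC_pre hC.1.sub).symm ▸ hC.2.2⟩

theorem sph_ex (h : Rf f A z B w) (hm : Mono A z) {D : Set (Lv B w)} (hD : IsSph B w D) :
    ∃ C, IsSph A z C ∧ D = h.map ⁻¹' C := by
  obtain ⟨C, hC, rfl⟩ := h.cmp_ex hm hD.1
  exact ⟨C, ⟨hC, fun k => hD.2.1 ((h.tch_pre hC.sub).2 k), h.chiC_pre hC.sub ▸ hD.2.2⟩, rfl⟩

omit [IsCoc A z] [IsCoc B w] in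
theorem sf (h : Rf f A z B w) (hz : Sf A z) : Sf B w := by
  obtain ⟨hm, i, hn⟩ := hz
  have := h.isCoc
  exact ⟨h.mono hm, this, (h.noCl hm).2 hn⟩

end Rf

theorem sf_congr {A : Set P} {z w : P → P → ℤ} (hz : Sf A z) (h : EqD A w z) : Sf A w :=
  (rf_congr h).sf hz

theorem _root_.Crest.Agent.X212.Hp13.Desc.sf {s t : St} {f : t.P → s.P} (h : Desc s t f)
    {z : s.P → s.P → ℤ} (hz : Sf s.A z) : Sf t.A (pb f z) := (h.rf z).sf hz

end Crest.Agent.X212.Kh11
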