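import Crest.Agent.X212.Kh11.Bas

/-!
# X212 / Kh11 (helper11): P1, levels: everything goes up along `Tw`
-/

set_option autoImplicit false
set_option linter.unusedSectionVars false

open Finset Classical

noncomputable section

namespace Crest.Agent.X212.Hk

open Hp13
open Alg36 (Om Esc mix Clo)
open Kh11 (WS CE)

variable {P R : Type} [PartialOrder P] [Fintype P] [PartialOrder R]
  {X Y G H K A B Z N X' U V E C : Set P} {w w' u ζ ζ' : P → P → ℤ} {car : P → R}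
  {t t' : St} {f : t.P → P}

namespace Tw

theorem refl (P : Type) [PartialOrder P] [Fintype P] : Tw P (lv0 P) id := Desc.refl

theorem step (h : Tw P t f) : Tw P t.sd (f ∘ Ch.top) := Desc.step h

theorem one (P : Type) [PartialOrder P] [Fintype P] : Tw P (lv0 P).sd Ch.top := (refl P).step
theorem two (P : Type) [PartialOrder P] [Fintype P] : Tw P (lv0 P).sd.sd t2 := (one P).step
theorem three (P : Type) [PartialOrder P] [Fintype P] : Tw P (lv0 P).sd.sd.sd t3 := (two P).step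

theorem eq (h : Tw P t f) : t = lv0 t.P := by
  have e : t.A = Set.univ := Desc.A_eq h
  cases t; dsimp only at e; subst e; rfl

/-- induction on the level -/
theorem ind {M : (t : St) → (t.P → P) → Prop} (h0 : M (lv0 P) id)
    (h1 : ∀ t f, Tw P t f → M t f → M t.sd (f ∘ Ch.top)) (h : Tw P t f) : M t f :=
  Desc.rec (motive := fun t f _ => M t f) h0 (fun k ih => h1 _ _ k ih) h

/-- a level of a region -/
theorem desc (h : Tw P t f) (X : Set P) : Desc ⟨P, X⟩ ⟨t.P, f ⁻¹' X⟩ f := Desc.at h X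

theorem desc' {s : St} {f : t.P → s.P} (h : Tw s.P t f) : Desc s ⟨t.P, f ⁻¹' s.A⟩ f := h.desc s.A

theorem of_desc {s : St} {f : t.P → s.P} (h : Desc s t f) : Tw s.P (lv0 t.P) f := Desc.at h Set.univ

theorem trans {g : t'.P → t.P} (h : Tw P t f) (h' : Tw t.P t' g) : Tw P t' (f ∘ g) := by
  have e : t.A = Set.univ := Desc.A_eq h
  cases t; dsimp only at e; subst e; exact Desc.trans h h'

/-- two levels have a common refinement -/
theorem dir {f' : t'.P → P} (h : Tw P t f) (h' : Tw P t' f') : ∃ (v : St) (g : v.P → t.P)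
    (g' : v.P → t'.P), Tw t.P v g ∧ Tw t'.P v g' ∧ f ∘ g = f' ∘ g' := by
  obtain ⟨v, g, g', h1, h2, e⟩ := Desc.common h h'
  exact ⟨lv0 v.P, g, g', of_desc h1, of_desc h2, e⟩

theorem mono (h : Tw P t f) : Monotone f := Desc.mono h
theorem surj (h : Tw P t f) : Function.Surjective f := Desc.surj h
theorem ce (h : Tw P t f) : CE f := Desc.ce h
theorem ws (h : Tw P t f) (E : Set P) : WS (f ⁻¹' E) E f := h.ce.ws_pre E
theorem up (h : Tw P t f) {a : t.P} {o : P} (l : f a ≤ o) : ∃ p, a ≤ p ∧ f p = o :=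
  Sup43.desc_up h l
theorem eu (h : Tw P t f) (E : Set P) : eu (f ⁻¹' E) = eu E := (h.ws E).eu_eq
theorem ee (h : Tw P t f) (E : Set P) : ee (f ⁻¹' E) = ee E := Desc.ee h E
theorem ctr (h : Tw P t f) : Ctr (f ⁻¹' E) ↔ Ctr E := (h.ws E).ctr_iff
theorem conn (h : Tw P t f) : Conn (f ⁻¹' E) ↔ Conn E := (h.ws E).conn_iff
theorem ne (h : Tw P t f) : (f ⁻¹' E).Nonempty ↔ E.Nonempty := (h.ws E).ne_iff
theorem chi (h : Tw P t f) (X : Set P) (w : P → P → ℤ) : chi (f ⁻¹' X) (pb f w) = chi X w :=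
  (h.desc X).chi w
theorem upper (h : Tw P t f) (k : IsUpperSet X) : IsUpperSet (f ⁻¹' X) := k.preimage h.mono
theorem lower (h : Tw P t f) (k : IsLowerSet X) : IsLowerSet (f ⁻¹' X) := k.preimage h.mono
theorem sub_iff (h : Tw P t f) : f ⁻¹' A ⊆ f ⁻¹' B ↔ A ⊆ B := h.surj.preimage_subset_preimage_iff

theorem cl (h : Tw P t f) (X : Set P) : cl (f ⁻¹' X) = f ⁻¹' cl X := Set.ext fun _ =>
  ⟨fun ⟨_, k, l⟩ => ⟨_, k, h.mono l⟩, fun ⟨_, k, l⟩ =>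
    let ⟨p, h1, h2⟩ := h.up l; ⟨p, show f p ∈ X from h2 ▸ k, h1⟩⟩

theorem om (h : Tw P t f) (X : Set P) : Om (f ⁻¹' X) = f ⁻¹' Om X := Set.ext fun x =>
  and_congr_right fun _ => Set.ext_iff.1 (h.cl X) x

theorem exOn (h : Tw P t f) {Γ : Type} [AddCommGroup Γ] {z : P → P → Γ} (hz : CocOn E z) :
    ExOn (f ⁻¹' E) (pb f z) ↔ ExOn E z := ⟨(h.ws E).ex hz, fun k => exOn_pb k h.mono⟩

theorem onto (h : Tw P t f) {Γ : Type} [AddCommGroup Γ] {z : t.P → t.P → Γ}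
    (hz : CocOn (f ⁻¹' E) z) : ∃ w, CocOn E w ∧ ExOn (f ⁻¹' E) (z - pb f w) := (h.ws E).onto hz

theorem isCmp (h : Tw P t f) (k : IsCmp E C) : IsCmp (f ⁻¹' E) (f ⁻¹' C) := by
  convert (h.ws E).isCmp_pre k using 1
  exact Set.ext fun _ => ⟨fun j => ⟨k.sub j, j⟩, And.right⟩

theorem isCmp_ex (h : Tw P t f) {D : Set t.P} (k : IsCmp (f ⁻¹' E) D) :
    ∃ C, IsCmp E C ∧ D = f ⁻¹' C :=
  let ⟨C, h1, h2⟩ := (h.ws E).isCmp_ex k
  ⟨C, h1, h2.trans (Set.ext fun _ => ⟨And.right, fun j => ⟨h1.sub j, j⟩⟩)⟩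

theorem ws_up (h : Tw P t f) (x : t.P) (E : Set P) :
    WS {y | x ≤ y ∧ f y ∈ E} {e | e ∈ E ∧ f x ≤ e} f := by
  refine h.ind (M := fun t f => ∀ x : t.P, WS {y | x ≤ y ∧ f y ∈ E} {e | e ∈ E ∧ f x ≤ e} f)
    (fun x => WS.of_iso (fun _ k => k.symm) (fun y k => ⟨y, k.symm, rfl⟩) fun _ _ _ _ => Iff.rfl)
    (fun t f _ ih x => ?_) x
  have := Alg36.ws_up x (f ⁻¹' E)
  rw [show {e | e ∈ f ⁻¹' E ∧ x.top ≤ e} = {y | x.top ≤ y ∧ f y ∈ E} from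
    Set.ext fun _ => and_comm] at this
  exact this.comp (ih x.top)

/-- the map on chains -/
def im (h : Tw P t f) : Ch t.P → Ch P := Ch.img f h.mono

theorem im_top (h : Tw P t f) (c : Ch t.P) : (h.im c).top = f c.top := Ch.top_img _ c
theorem im_bot (h : Tw P t f) (c : Ch t.P) : (h.im c).bot = f c.bot := Ch.bot_img _ c
theorem im_mono (h : Tw P t f) : Monotone h.im := Ch.img_mono h.mono
theorem im_surj (h : Tw P t f) : Function.Surjective h.im := h.ce.lift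
theorem ws_im (h : Tw P t f) {S : Set (Ch P)} (k : S.OrdConnected) : WS (h.im ⁻¹' S) S h.im :=
  h.ce.ws k

theorem ca (h : Tw P t f) (X : Set P) (w : P → P → ℤ) :
    CA (f ⁻¹' X) (pb f w) = h.im ⁻¹' CA X w :=
  Set.ext fun c => by simp only [CA, Set.mem_preimage, Set.mem_ofPred_eq, im_top, im_bot, pb]

theorem cv (h : Tw P t f) (H : Set P) (w : P → P → ℤ) :
    Cv (f ⁻¹' H) (pb f w) = h.im ⁻¹' Cv H w := Set.ext fun c => by
  simp only [Cv, Set.mem_preimage, Set.mem_ofPred_eq, im_top, im_bot, pb]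
  exact and_congr_left fun _ => ⟨fun k x hx => let ⟨a, h1, h2⟩ := Ch.mem_img.1 hx; h2 ▸ k a h1,
    fun k x hx => k _ (Ch.mem_img.2 ⟨x, hx, rfl⟩)⟩

theorem mix (h : Tw P t f) (B : Set P) : mix (f ⁻¹' B) = h.im ⁻¹' mix B :=
  Set.ext fun _ => and_congr (mt_img h.mono).symm (mt_img (A := Bᶜ) h.mono).symm

theorem flat (h : Tw P t f) {Γ : Type} [AddCommGroup Γ] {z : P → P → Γ} :
    Flat (f ⁻¹' K) (pb f z) ↔ Flat K z :=
  ⟨fun k x hx y hy l => by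
    obtain ⟨a, rfl⟩ := h.surj x
    obtain ⟨p, h1, rfl⟩ := h.up l
    exact k a hx p hy h1, fun k => k.pb h.mono⟩

end Tw

theorem ncmp_ws {Q : Type} [PartialOrder Q] [Fintype Q] {g : Q → P} {D : Set Q} (h : WS D E g) :
    ncmp D = ncmp E := by
  refine (Set.ncard_congr (fun C _ => {x | x ∈ D ∧ g x ∈ C}) (fun _ k => h.isCmp_pre k)
    (fun C C' k k' e => ?_) fun C k => ?_).symm
  · obtain ⟨x, hx⟩ := (h.isCmp_pre k).ne
    have hx' : x ∈ {x | x ∈ D ∧ g x ∈ C'} := e ▸ hx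
    exact (IsCmp.eq k hx.2).trans (IsCmp.eq k' hx'.2).symm
  · obtain ⟨C', h1, h2⟩ := h.isCmp_ex k
    exact ⟨C', h1, h2.symm⟩

theorem Tw.ncmp (h : Tw P t f) (E : Set P) : ncmp (f ⁻¹' E) = ncmp E := ncmp_ws (h.ws E)

theorem S1.pre (k : S1 X w) (h : Tw P t f) : S1 (f ⁻¹' X) (pb f w) := by
  refine ⟨?_, ?_, ?_⟩ <;> rw [h.cl]
  exacts [cocOn_pb k.coc h.mono, fun _ _ hy l => k.nn _ _ hy (h.mono l),
    fun _ _ hy l => k.le1 _ _ hy (h.mono l)]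

theorem Bd.pre (k : Bd X G) (h : Tw P t f) : Bd (f ⁻¹' X) (f ⁻¹' G) := by
  refine ⟨h.lower k.low, ?_, ?_⟩ <;> rw [h.om]
  exacts [fun _ j => k.sub j, fun _ hx _ hy l => k.clo _ hx _ hy (h.mono l)]

theorem On.pre (k : On X G w) (h : Tw P t f) : On (f ⁻¹' X) (f ⁻¹' G) (pb f w) := by
  unfold On; rw [h.om]; exact Flat.pb k h.mono

theorem Fro.pre (k : Fro G Z w) (h : Tw P t f) : Fro (f ⁻¹' G) (f ⁻¹' Z) (pb f w) :=
  k.imp (fun e => e.pb h.mono) fun e => e.pb h.mono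

theorem TD.pre (k : TD X w) (hX : IsUpperSet X) (h : Tw P t f) : TD (f ⁻¹' X) (pb f w) :=
  ⟨k.toS1.pre h, by rw [h.ca]; exact (h.ws_im (k.ca_up hX).ordConnected).conn_iff.2 k.conn,
    (h.chi X w).trans k.chi, by rw [h.om, h.cv]; exact k.ne.preimage h.im_surj⟩

theorem SP.pre (k : SP X w) (hX : IsUpperSet X) (h : Tw P t f) : SP (f ⁻¹' X) (pb f w) :=
  ⟨k.toS1.pre h, by rw [h.om]; exact k.flat.pb h.mono,
    by rw [h.ca]; exact (h.ws_im (k.ca_up hX).ordConnected).conn_iff.2 k.conn,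
    (h.chi X w).trans k.chi⟩

theorem mix_up : IsUpperSet (mix B) := fun _ _ l k => Alg36.mix_upper k l

theorem Bal.pre (k : Bal Y B) (h : Tw P t f) : Bal (f ⁻¹' Y) (f ⁻¹' B) :=
  ⟨h.upper k.up, fun _ j => k.sub j,
    by rw [h.mix]; exact (h.ws_im mix_up.ordConnected).conn_iff.2 k.conn, (h.eu B).trans k.eu⟩

theorem mf_pre {d : ℕ} (k : Mf d X) (h : Tw P t f) : Mf d (f ⁻¹' X) := Alg36.Mf.desc k (h.desc X)

theorem Rg.pre (k : Rg X) (h : Tw P t f) : Rg (f ⁻¹' X) :=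
  ⟨h.upper k.up, mf_pre k.mf h, Alg36.Nice.desc' k.up.ordConnected k.nice (h.desc X)⟩

theorem Amb.pre (k : Amb Y) (h : Tw P t f) : Amb (f ⁻¹' Y) :=
  ⟨k.toRg.pre h, Alg36.Bnd.desc k.up.ordConnected k.nice k.bnd (h.desc Y),
    Alg36.Bnd.desc k.up.ordConnected k.nice k.bnd2 (h.desc Y), Alg36.Esc.desc' k.esc (h.desc Y)⟩

theorem Sub.pre (k : Sub Y X) (h : Tw P t f) : Sub (f ⁻¹' Y) (f ⁻¹' X) :=
  ⟨k.toRg.pre h, k.amb.pre h, fun _ j => k.sub j⟩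

theorem mf_sub_eq {d : ℕ} {Q : Type} [PartialOrder Q] {S S' T : Set Q} (e : S = S')
    {i : Fintype S} {i' : Fintype S'} (k : @Mf S _ i d (Subtype.val ⁻¹' T)) :
    @Mf S' _ i' d (Subtype.val ⁻¹' T) := by
  subst e; rwa [Subsingleton.elim i' i]

theorem mf_sub_pre {d : ℕ} (k : Mf d (Subtype.val ⁻¹' A : Set H)) (hH : IsLowerSet H)
    (h : Tw P t f) : Mf d (Subtype.val ⁻¹' (f ⁻¹' A) : Set (f ⁻¹' H)) :=
  h.ind (M := fun t f => Mf d (Subtype.val ⁻¹' (f ⁻¹' A) : Set (f ⁻¹' H))) (mf_sub_eq rfl k)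
    fun _ f h ih => mf_sub_eq (S := Cq (f ⁻¹' H))
      (Set.ext fun _ => all_low (hH.preimage (Desc.mono h))) (mf_cq ih)

theorem MfIn.pre (k : MfIn H A) (hH : IsLowerSet H) (h : Tw P t f) : MfIn (f ⁻¹' H) (f ⁻¹' A) := by
  have := mf_sub_pre k hH h
  unfold MfIn
  convert this

theorem Bds.pre (k : Bds G A w) (h : Tw P t f) : Bds (f ⁻¹' G) (f ⁻¹' A) (pb f w) :=
  let ⟨Z, h1, h2, h3, h4⟩ := k
  ⟨f ⁻¹' Z, fun _ j => h1 j, fun _ j => h2 j, h.ctr.2 h3, h4.pre h⟩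

theorem Ines.pre (k : Ines G w) (h : Tw P t f) : Ines (f ⁻¹' G) (pb f w) :=
  let ⟨Z, h1, h3, h4⟩ := k; ⟨f ⁻¹' Z, fun _ j => h1 j, h.ctr.2 h3, h4.pre h⟩

theorem INC.pre (k : INC X G) (h : Tw P t f) : INC (f ⁻¹' X) (f ⁻¹' G) :=
  fun t' g h' => k t' (f ∘ g) (h.trans h')

theorem INC.zero (k : INC X G) (h : TD X w) (h' : On X G w) : Ines G w := k _ _ (Tw.refl P) w h h'

theorem NB.pre (k : NB Y G) (h : Tw P t f) : NB (f ⁻¹' Y) (f ⁻¹' G) :=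
  fun t' g h' => k t' (f ∘ g) (h.trans h')

theorem NB.zero (k : NB Y G) (h : Bal Y B) : ¬ G ⊆ B := k _ _ (Tw.refl P) B h

theorem NB.mono (k : NB Y G) (h : G ⊆ H) : NB Y H :=
  fun t f h' B j l => k t f h' B j ((Set.preimage_mono h).trans l)

theorem IcP.pre (k : IcP H Y) (h : Tw P t f) : IcP (f ⁻¹' H) (f ⁻¹' Y) :=
  fun t' g h' => k t' (f ∘ g) (h.trans h')

theorem IC.pre (k : IC H X) (h : Tw P t f) : IC (f ⁻¹' H) (f ⁻¹' X) := fun t' g h' w h1 h2 h3 => by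
  rw [h.om] at h2
  rw [h.cl]
  exact k t' (f ∘ g) (h.trans h') w h1 h2 h3

theorem TV.pre (k : TV car X G) (h : Tw P t f) : TV (car ∘ f) (f ⁻¹' X) (f ⁻¹' G) :=
  fun T hT x hx j => by
    have e := (h.ws_up x (X ∩ car ⁻¹' T)).ctr_iff.2 (by
      convert k T hT _ hx j using 1
      exact Set.ext fun _ => ⟨fun l => ⟨l.1.1, l.2, l.1.2⟩, fun l => ⟨⟨l.1, l.2.2⟩, l.2.1⟩⟩)
    convert e using 1
    exact Set.ext fun _ => ⟨fun l => ⟨l.2.1, l.1, l.2.2⟩, fun l => ⟨l.2.1, l.1, l.2.2⟩⟩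

theorem Two.pre (k : Two car Y X G X') (h : Tw P t f) :
    Two (car ∘ f) (f ⁻¹' Y) (f ⁻¹' X) (f ⁻¹' G) (f ⁻¹' X') :=
  ⟨k.mono.comp h.mono, h.upper k.up, h.upper k.up', fun _ j => k.sub j, fun _ j => k.sub' j,
    fun _ j => k.cov _ j, k.dj.preimage f, k.dg.preimage f, k.bd.pre h, k.tv.pre h, k.tv'.pre h⟩

theorem Mem.pre (k : Mem car Y U G V) (h : Tw P t f) :
    Mem (car ∘ f) (f ⁻¹' Y) (f ⁻¹' U) (f ⁻¹' G) (f ⁻¹' V) :=
  ⟨k.two.pre h, fun _ j => k.sub j, h.conn.2 k.conn, h.ne.2 k.ne,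
    by rw [h.om]; exact fun _ j => k.om j, k.inc.pre h, k.inc'.pre h, k.nb.pre h⟩

theorem NP.pre {G' V' : Set P} (k : NP U G G' V') (hG : G' ⊆ U → G ⊆ V') (h : Tw P t f) :
    NP (f ⁻¹' U) (f ⁻¹' G) (f ⁻¹' G') (f ⁻¹' V') := fun j => by
  have j' := h.sub_iff.1 j
  obtain ⟨ζ, h1, h2⟩ := k j'
  refine ⟨pb f ζ, cocOn_pb h1 h.mono, ?_⟩
  rwa [h.exOn (cocOn_mono h1 fun _ l => ⟨Or.inr l, Or.inl (hG j' l)⟩),
    h.exOn (cocOn_mono h1 fun _ l => ⟨Or.inl (j' l), Or.inr l⟩)]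

theorem Opn.pre (k : Opn X G N) (h : Tw P t f) : Opn (f ⁻¹' X) (f ⁻¹' G) (f ⁻¹' N) :=
  ⟨fun _ j => k.sub j, by rw [h.cl]; exact fun _ hx _ hy l => k.up _ hx _ hy (h.mono l)⟩

theorem Bl.pre (k : Bl X G N) (hX : IsUpperSet X) (h : Tw P t f) :
    Bl (f ⁻¹' X) (f ⁻¹' G) (f ⁻¹' N) := ⟨k.toOpn.pre h, h.ctr.2 k.ctr, k.td.pre hX h⟩

theorem QQ.pre (k : QQ Y X) (hX : X ⊆ Y) (h : Tw P t f) : QQ (f ⁻¹' Y) (f ⁻¹' X) := by
  have s1 : Om X ⊆ cl Y \ X := fun _ j => ⟨cl_mono hX j.2, j.1⟩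
  have s2 : Om Y ⊆ cl Y \ X := fun _ j => ⟨j.2, fun l => j.1 (hX l)⟩
  refine ⟨?_, ?_⟩ <;> rw [h.om, h.cl]
  · intro a ha
    obtain ⟨a', h1, h2⟩ := h.onto ha
    obtain ⟨b, h3, h4⟩ := k.q1 a' h1
    exact ⟨pb f b, cocOn_pb h3 h.mono, by simpa [pb_sub] using exOn_sub (exOn_pb h4 h.mono) h2⟩
  · rw [h.om]
    intro b hb e
    obtain ⟨b', h1, h2⟩ := h.onto (E := cl Y \ X) hb
    have e1 := (exOn_iff_of_sub (exOn_mono h2 (Set.preimage_mono s2))).1 e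
    exact (exOn_iff_of_sub (exOn_mono h2 (Set.preimage_mono s1))).2
      (exOn_pb (k.q2 b' h1 ((h.exOn (cocOn_mono h1 s2)).1 e1)) h.mono)

theorem PR.pre (k : PR car Y C) (h : Tw P t f) : PR (car ∘ f) (f ⁻¹' Y) (f ⁻¹' C) :=
  ⟨k.amb.pre h, h.conn.2 k.conn, h.ne.2 k.ne, by rw [h.om, h.cl]; exact k.two.pre h,
    k.qq.pre k.two.sub h⟩

/-! ### `DD` -/

theorem DD.up (h : Tw P t f) (k : DD (f ⁻¹' X) (pb f ζ)) : DD X ζ := by
  obtain ⟨t', g, h', n, w, a, h1, h2⟩ := k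
  rw [h.cl] at h2
  exact ⟨t', f ∘ g, h.trans h', n, w, a, h1, h2⟩

theorem DD.pre (k : DD X ζ) (hX : IsUpperSet X) (h : Tw P t f) : DD (f ⁻¹' X) (pb f ζ) := by
  obtain ⟨t', f', h', n, w, a, h1, h2⟩ := k
  obtain ⟨v, g, g', k1, k2, e⟩ := h.dir h'
  refine ⟨v, g, k1, n, fun i => pb g' (w i), a, fun i => ?_, ?_⟩
  · rw [← Set.preimage_comp, e]; exact (h1 i).pre (h'.upper hX) k2
  · rw [h.cl, ← Set.preimage_comp, ← pb_comp, e]
    have := exOn_pb h2 k2.mono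
    rwa [pb_sub, pb_sum] at this

theorem DD.congr (k : DD X ζ) (e : ExOn (cl X) (ζ' - ζ)) : DD X ζ' := by
  obtain ⟨t, f, h, n, w, a, h1, h2⟩ := k
  exact ⟨t, f, h, n, w, a, h1, by simpa [pb_sub] using exOn_add (exOn_pb e h.mono) h2⟩

theorem DD.of_ex (e : ExOn (cl X) ζ) : DD X ζ :=
  ⟨_, _, Tw.refl P, 0, Fin.elim0, Fin.elim0, fun i => i.elim0, by
    rw [Fin.sum_univ_zero, sub_zero]; exact e⟩

/-- one more disc -/
theorem DD.add (k : DD X ζ) (hX : IsUpperSet X) (hw : TD X w) (n : ℤ) : DD X (ζ + n • w) := by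
  obtain ⟨t, f, h, m, v, a, h1, h2⟩ := k
  refine ⟨t, f, h, m + 1, Fin.cons (pb f w) v, Fin.cons n a,
    fun i => Fin.cases (hw.pre hX h) h1 i, ?_⟩
  rw [Fin.sum_univ_succ]
  convert h2 using 1
  change pb f ζ + n • pb f w - (n • pb f w + ∑ i, a i • v i) = _
  abel

theorem DD.add' (k : DD X ζ) (k' : DD X ζ') (hX : IsUpperSet X) : DD X (ζ + ζ') := by
  obtain ⟨t, f, h, m, v, a, h1, h2⟩ := k'
  refine DD.up h ?_
  have key : ∀ s : Finset (Fin m), DD (f ⁻¹' X) (pb f ζ + ∑ i ∈ s, a i • v i) := fun s => by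
    induction s using Finset.induction_on with
    | empty => simpa using k.pre hX h
    | insert i s hi ih =>
      rw [sum_insert hi, add_comm (a i • v i), ← add_assoc]; exact ih.add (h.upper hX) (h1 i) _
  exact (key univ).congr (by rw [h.cl]; simpa [pb_add] using h2)

theorem ADD.pre (k : ADD X) (hX : IsUpperSet X) (h : Tw P t f) : ADD (f ⁻¹' X) := fun ζ hζ => by
  rw [h.cl] at hζ
  obtain ⟨w, h1, h2⟩ := h.onto hζ
  exact ((k w h1).pre hX h).congr (by rwa [h.cl])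

/-! ### `Tr` -/

theorem Tr.mono {w' : t.P → t.P → ℤ} (k : Tr X A w t f w') (h : A ⊆ B) : Tr X B w t f w' :=
  { k with flat := fun K h1 h2 => k.flat K h1 (h2.mono_right h) }

theorem Tr.refl (h : TD X w) (A : Set P) : Tr X A w (lv0 P) id w :=
  ⟨Tw.refl P, h, fun _ _ _ k => k, fun _ _ _ k => k, Or.inl (by
    change ExOn _ (w - w); rw [sub_self]; exact exOn_zero)⟩

theorem Tr.on {w' : t.P → t.P → ℤ} (k : Tr X A w t f w') (hX : IsUpperSet X) (hG : Bd X G)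
    (hA : Disjoint (Om X \ G) A) (h : On X G w) : On (f ⁻¹' X) (f ⁻¹' G) w' := by
  unfold On; rw [k.tw.om]
  exact (k.flat _ (hG.low_diff hX) hA (Flat.mono h fun _ j => j.1)).mono fun _ j => ⟨j, j.1.2⟩

/-- `hA`: the first move keeps `On` (true for `A ⊆ X`; for `SL` use `Tr.trans'`) -/
theorem Tr.trans' {w' : t.P → t.P → ℤ} {g : t'.P → t.P} {w'' : t'.P → t'.P → ℤ}
    (k : Tr X A w t f w') (k' : Tr (f ⁻¹' X) (f ⁻¹' A) w' t' g w'')
    (hA : ∀ G, Bd X G → On X G w → On (f ⁻¹' X) (f ⁻¹' G) w') : Tr X A w t' (f ∘ g) w'' := by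
  refine ⟨k.tw.trans k'.tw, k'.td, fun K h1 h2 h3 => ?_, fun G h1 h2 h3 =>
    k.ines G h1 h2 (k'.ines _ (h1.pre k.tw) (hA G h1 h2) h3), ?_⟩
  · have := k'.flat _ (k.tw.lower h1) (h2.preimage f) (by rw [k.tw.cl]; exact k.flat K h1 h2 h3)
    rwa [k.tw.cl] at this
  · have e := k'.drv
    rw [k.tw.cl] at e
    rcases k.drv with a | a <;> have a := exOn_pb a k'.tw.mono <;> rcases e with e | e
    · refine Or.inl (exOn_congr (exOn_add e a) fun x _ y _ _ => ?_)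
      simp only [Pi.sub_apply, Pi.add_apply, pb, Function.comp]; ring
    · refine Or.inr (exOn_congr (exOn_sub e a) fun x _ y _ _ => ?_)
      simp only [Pi.sub_apply, Pi.add_apply, pb, Function.comp]; ring
    · refine Or.inr (exOn_congr (exOn_add e a) fun x _ y _ _ => ?_)
      simp only [Pi.sub_apply, Pi.add_apply, pb, Function.comp]; ring
    · refine Or.inl (exOn_congr (exOn_sub e a) fun x _ y _ _ => ?_)
      simp only [Pi.sub_apply, Pi.add_apply, pb, Function.comp]; ring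

theorem Tr.trans {w' : t.P → t.P → ℤ} {g : t'.P → t.P} {w'' : t'.P → t'.P → ℤ}
    (k : Tr X A w t f w') (k' : Tr (f ⁻¹' X) (f ⁻¹' A) w' t' g w'') (hX : IsUpperSet X)
    (hA : A ⊆ X) : Tr X A w t' (f ∘ g) w'' :=
  k.trans' k' fun _ h1 => k.on hX h1 (Set.disjoint_left.2 fun _ j l => j.1.1 (hA l))

theorem NoCap.mono (k : NoCap H A w) (h : B ⊆ A) : NoCap H B w := fun Z =>
  ⟨fun j => (k Z).1 { j with sub := fun _ l => ⟨(j.sub l).1, h (j.sub l).2⟩ },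
    fun j => (k Z).2 { j with sub := fun _ l => ⟨(j.sub l).1, h (j.sub l).2⟩ }⟩

end Crest.Agent.X212.Hk
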