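import Crest.Agent.X212.Kh11.Defs
import Crest.Agent.X212.Cut21.Pos

/-!
# X212 / Kh11 (helper11): P1 = Haken finiteness.  The leaves (namespace `X212.Hk`)

Recipes are in the docstrings.  A leaf may use the others as hypotheses (no cycles: the order of
this file) and the lemmas of `Kh11/Bas*`.
-/

set_option autoImplicit false
set_option linter.unusedSectionVars false

open Finset Classical

noncomputable section

namespace Crest.Agent.X212.Hk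

open Hp13
open Alg36 (Om Esc mix Clo)
open Kh11 (WS)

/-! ### tools -/

/-- BRG.  `Lv X w ≃o {c // c ∈ mx w, top c ∈ cl X}` (level `0` only), then `Sf30.mf_LA`,
`chiC_eq_eu`, `conn_mix2`, `ctr_of_eu`, `Nice.rch`.  `Cv (cl X) w ≃ CA X w` by `Nice` (`WS.of_ge`). -/
def BrgStmt : Prop := ∀ (P : Type) [PartialOrder P] [Fintype P] (X : Set P) (w : P → P → ℤ),
  Rg X → S1 X w →
    MfIn (mx w) (CA X w) ∧ chi X w = eu (CA X w) ∧ WS (CA X w) (Cv (cl X) w) id ∧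
    (TD X w → Sf X w ∧ Conn (Cv (Om X) w) ∧ Ctr (CA X w)) ∧
    (Sf X w → Conn (Cv (Om X) w) → (Cv (Om X) w).Nonempty → Conn (CA X w))

/-- `A` and `B` are both lower or both upper in their union -/
def Cvr {P : Type} [PartialOrder P] (A B : Set P) : Prop :=
  ((∀ x ∈ A ∪ B, ∀ y ∈ A, x ≤ y → x ∈ A) ∧ ∀ x ∈ A ∪ B, ∀ y ∈ B, x ≤ y → x ∈ B) ∨
  ((∀ x ∈ A, ∀ y ∈ A ∪ B, x ≤ y → y ∈ A) ∧ ∀ x ∈ B, ∀ y ∈ A ∪ B, x ≤ y → y ∈ B)

/-- GLU (Mayer-Vietoris by hand: every chain of `A ∪ B` lies in `A` or in `B`). -/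
def GluStmt : Prop := ∀ (P : Type) [PartialOrder P] [Fintype P] (A B : Set P), Cvr A B →
  eu (A ∪ B) = eu A + eu B - eu (A ∩ B) ∧ (Ctr A → Ctr B → Ctr (A ∩ B) → Ctr (A ∪ B)) ∧
  (Conn (A ∪ B) → Conn (A ∩ B) → (A ∩ B).Nonempty → Conn A) ∧
  ∀ (G : Type) [AddCommGroup G],
    (∀ ζ : P → P → G, CocOn (A ∪ B) ζ → ExOn A ζ → ExOn B ζ → Conn (A ∩ B) → ExOn (A ∪ B) ζ) ∧
    ∀ a b : P → P → G, CocOn A a → CocOn B b → EqE (A ∩ B) a b →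
      ∃ c, CocOn (A ∪ B) c ∧ EqE A c a ∧ EqE B c b

/-- DX, exchange of a disc.  `H₁ ⊆ Z` or `H₁ ∩ Z = ∅`; take `Z ∩ K ∪ H₂` or `Z`. -/
def DxStmt : Prop := ∀ (P : Type) [PartialOrder P] [Fintype P] (K H₁ H₂ : Set P)
  (w₁ w₂ : P → P → ℤ), IsLowerSet K → IsLowerSet H₁ → IsLowerSet H₂ → Ctr H₁ → Ctr H₂ →
    K ∩ H₁ = K ∩ H₂ → Conn (K ∩ H₁) → (K ∩ H₁).Nonempty → EqE K w₁ w₂ → Flat H₁ w₁ → Flat H₂ w₂ →
    Ines (K ∪ H₁) w₁ → Ines (K ∪ H₂) w₂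

/-- EXT, extension by zero across `Λ`. -/
def ExtStmt : Prop := ∀ (P : Type) [PartialOrder P] [Fintype P] (X X' Λ : Set P),
  IsUpperSet X → IsUpperSet X' → X' ⊆ X → IsLowerSet Λ → Om X' ∩ X ⊆ Λ →
  (∀ y ∈ cl X', ∀ v ∈ cl X, y ≤ v → v ∉ cl X' → y ∈ Λ) →
    (∀ (G : Type) [AddCommGroup G] (w : P → P → G), CocOn (cl X') w → Flat (Λ ∩ cl X') w →
      CocOn (cl X) (ext X' w)) ∧
    ∀ w : P → P → ℤ, Flat (Λ ∩ cl X') w → (S1 X' w → S1 X (ext X' w)) ∧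
      (S1 X' w → CA X (ext X' w) = CA X' w ∧ chi X (ext X' w) = chi X' w) ∧
      (TD X' w → TD X (ext X' w)) ∧ (SP X' w → SP X (ext X' w))

/-- NM.  (1) `Sf30.mf2_of` in the subtype, or `Om X ≃ mix X`; (2) `cb (ind b)` is linear in `b`,
`∑ {sg c | x ∈ c, Mt X c}` by `Mf.dual_sum` and `Nice`; (3) the sum of all triangles is a cycle
mod 2; (4) two components of `mix W` give a 2-cycle mod 2 of the complex of `Mt W` that does not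
bound, but `b₂ = 0` by `eu = 1`, `H¹ = 0`, `noCyc`. -/
def NmStmt : Prop := ∀ (P : Type) [PartialOrder P] [Fintype P],
  (∀ X : Set P, Rg X → MfIn (Om X) Set.univ ∧ WS X (cl X) id ∧ (Conn (Om X) ↔ Conn (mix X)) ∧
    eu (Om X) = 2 * eu X ∧ ∀ b ⊆ Om X, chi X (cb (ind b)) = -ee b) ∧
  (∀ G Z : Set P, MfIn G Set.univ → Z ⊆ G → Ctr Z → ∃ x ∈ Z, ∃ y ∈ G, y ∉ Z ∧ Cm x y) ∧
  ∀ W : Set P, Mf 3 W → IsUpperSet W → Ctr W → Conn (mix W)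

/-- ENC.  `w = cb g` by `Bnd`; a connected level set has one level, so `g ∈ {0,1}` or `{0,-1}`. -/
def EncStmt : Prop := ∀ (P : Type) [PartialOrder P] [Fintype P] (Y : Set P) (w : P → P → ℤ),
  Amb Y → SP Y w → (∃ B, Bal Y B ∧ EqE (cl Y) w (cb (ind B))) ∨
    ∃ L, IsLowerSet L ∧ L ⊆ Y ∧ EqE (cl Y) w (-cb (ind L)) ∧
      Bal (Ch.top ⁻¹' Y) (Ch.bot ⁻¹' L : Set (Ch P))

/-- REV.  `C ↦ top C` is a `WS` (closure operator `e ↦ {x ∈ e | bot c ≤ x}` on the fibres). -/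
def RevStmt : Prop := ∀ (P : Type) [PartialOrder P] [Fintype P] (X : Set P) (w : P → P → ℤ),
  IsUpperSet X → S1 X w →
    S1 (Ch.top ⁻¹' X) (rev w) ∧ chi (Ch.top ⁻¹' X) (rev w) = chi X w ∧
    WS (CA (Ch.top ⁻¹' X) (rev w)) (CA X w) Ch.top ∧
    (∀ K, IsLowerSet K → K ⊆ cl X → WS (Cv (Ch.top ⁻¹' K) (rev w)) (Cv K w) Ch.top) ∧
    (TD X w → Tr X ∅ w (lv0 P).sd Ch.top (rev w)) ∧ (SP X w → SP (Ch.top ⁻¹' X) (rev w)) ∧
    (∀ G Z : Set P, IsLowerSet G → Z ⊆ G →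
      (Ctr (Ch.top ⁻¹' G ∩ Ch.bot ⁻¹' Z : Set (Ch P)) ↔ Ctr Z)) ∧
    ∀ H A Z, IsLowerSet H → IsUpperSet A → A ⊆ X →
      (CapH H A w Z → CapL (Ch.top ⁻¹' H) (Ch.top ⁻¹' A) (rev w) (Ch.top ⁻¹' H ∩ Ch.bot ⁻¹' Z)) ∧
      (CapL H A w Z → CapH (Ch.top ⁻¹' H) (Ch.top ⁻¹' A) (rev w) (Ch.top ⁻¹' H ∩ Ch.bot ⁻¹' Z))

/-! ### innermost discs -/

/-- INN.  `Sf30.inn_circ` in the poset `mx w` for the colouring `Cv H w`, rest; a component of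
`Cv H w` has `eu = 0` (every edge lies in two triangles of `H`, every triangle has two edges). -/
def InnStmt : Prop := ∀ (P : Type) [PartialOrder P] [Fintype P] (X H : Set P) (w : P → P → ℤ),
  Rg X → IsLowerSet H → MfIn H X → TD X w ∨ SP X w → Flat (H ∩ Om X) w → ¬ Flat (H ∩ cl X) w →
    ∃ D, Inn H X w D

/-- CAP.  `w = cb g` on `Z₀`; if it is flat `Z₀` is the cap, else colour by the parity of `g` and
use `Sf30.inn_disc` in the poset `H` (all curves are `Circ` since jumps are `≤ 1`). -/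
def CapStmt : Prop := ∀ (P : Type) [PartialOrder P] [Fintype P] (X H : Set P) (w u : P → P → ℤ),
  IsUpperSet X → IsLowerSet H → MfIn H X → S1 X w → Bds H X u → ¬ Flat H u →
    (∀ x ∈ H, ∀ y ∈ H, x ≤ y → u x y = 0 ∨ (u x y = 1 ∧ w x y = 1)) → ¬ NoCap H X w

/-- CIRC: a closed curve in a disc.  Work one level up on `Mt (H ∩ X)` with the potential read at
`bot`, `inn_disc`, and come back by `bot`. -/
def CircStmt : Prop := ∀ (P : Type) [PartialOrder P] [Fintype P] (X H : Set P) (w : P → P → ℤ)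
  (κ : Set (Ch P)), IsUpperSet X → IsLowerSet H → MfIn H X → Ctr (H ∩ X) →
    (∃ x ∈ H, ∃ y ∈ H ∩ X, x ∉ X ∧ x ≤ y) → S1 X w → κ.Nonempty → Clo (Cv (H ∩ cl X) w) κ →
    (∀ c ∈ κ, c.top ∈ X) → ¬ NoCap H X w

/-- PC: a piece is a disc.  Cocycle identity by `Nice U` (two cells over a common face). -/
def PcStmt : Prop := ∀ (P : Type) [PartialOrder P] [Fintype P] (X U : Set P) (w : P → P → ℤ)
  (D : Set (Ch P)), Rg U → IsUpperSet X → S1 X w → IsCmp (CA (X ∩ U) w) D →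
    (∀ c ∈ D, ∀ e, e ≤ c → 0 < w e.bot e.top → ∀ u ∈ U, e.top ≤ u → u ∈ X) →
    S1 U (pc w D) ∧ CA U (pc w D) = D ∧
      (eu D = 1 → (∃ c ∈ D, ∃ e, e ≤ c ∧ 0 < w e.bot e.top ∧ e.top ∉ U) → TD U (pc w D))

/-- IC for members (PC on the side of `D`), for discs (CIRC), and the output form (INN, CAP). -/
def IcStmt : Prop := ∀ (P : Type) [PartialOrder P] [Fintype P],
  (∀ (R : Type) [PartialOrder R] (car : P → R) (Y U G V : Set P), Amb Y → Mem car Y U G V →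
    IcP G Y) ∧
  (∀ X H : Set P, IsUpperSet X → IsLowerSet H → MfIn H X → Ctr (H ∩ X) →
    (∃ x ∈ H, ∃ y ∈ H ∩ X, x ∉ X ∧ x ≤ y) → IC H X) ∧
  ∀ Y X H : Set P, Sub Y X → IsLowerSet H → MfIn H Y → Disjoint (H ∩ Y) (Om X) → IcP H Y → IC H X

/-! ### moving discs and spheres -/

/-- SL.  One component `Δ` of `Λ` at a time, induction on `ncmp (Cv Δ w)`.  `w = cb g` on `Δ`; the
components of the levels of `g` form a tree (`H¹ = 0`); take a leaf `b` (one curve `κ`), make it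
upper and `w` vertical by `rev`, pass to `w - cb (ind b)`: `chi` grows by `ee b = 1 - eu (Δ \ b) ≥ 0`;
`ee b = 1` gives `Ines`. -/
def SlStmt : Prop := ∀ (P : Type) [PartialOrder P] [Fintype P] (Y X G Λ : Set P) (w : P → P → ℤ),
  Sub Y X → Bd X G → IsLowerSet Λ → Λ ⊆ G → (∀ D, IsCmp Λ D → Ctr D) → TD X w → On X G w →
    Ines G w ∨ ∃ t f w', Tr X Λ w t f w' ∧ Flat (f ⁻¹' Λ) w'

/-- TRA-D.  Induction on `ncmp (Cv (H ∩ cl X) w)`.  By `rev` (once or twice) the cap `Z` is a `CapH`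
and `w` is vertical over it; `w - cb (ind Z)` is `S1` with `chi = 3`, `Low.sg`, drop `Cls`
(`cnt`, `Sat.sf`, `Sat.chi`); the sphere is exact by `ExtStmt` and `Bnd ℤ Y`. -/
def TraDStmt : Prop := ∀ (P : Type) [PartialOrder P] [Fintype P] (Y X A H : Set P)
  (w : P → P → ℤ), Sub Y X → IsUpperSet A → A ⊆ X → IsLowerSet H → MfIn H A → TD X w →
    ∃ t f w', Tr X (H ∩ A) w t f w' ∧ NoCap (f ⁻¹' H) (f ⁻¹' A) w'

/-- SW-S: `B \ Z` is upper, `eu = 2`, its `mix` has two components (`side`), both spheres. -/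
def SwsStmt : Prop := ∀ (P : Type) [PartialOrder P] [Fintype P] (Y A H B Z : Set P),
  Amb Y → A ⊆ Y → IsLowerSet H → MfIn H A → Bal Y B → CapH H A (cb (ind B)) Z →
    ∃ B₁ B₂, Bal Y B₁ ∧ Bal Y B₂ ∧ Disjoint B₁ B₂ ∧ B₁ ∪ B₂ = B \ Z

/-- TRA-S.  `CapH`: `SwsStmt`.  `CapL`: first pass to `(bot ∘ bot) ⁻¹' B` (`rev` twice: vertical over
`H`), then to `top ⁻¹' B ∪ bot ⁻¹' Z`, and take the outer sphere (ENC). -/
def TraSStmt : Prop := ∀ (P : Type) [PartialOrder P] [Fintype P] (Y A H B K₀ : Set P),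
  Amb Y → IsUpperSet A → A ⊆ Y → IsLowerSet H → MfIn H A → Bal Y B → IsLowerSet K₀ → Conn K₀ →
    Disjoint K₀ (H ∩ A) → K₀ ⊆ B → ∃ t f B', Tw P t f ∧ Bal (f ⁻¹' Y) B' ∧ f ⁻¹' K₀ ⊆ B' ∧
      NoCap (f ⁻¹' H) (f ⁻¹' A) (cb (ind B'))

/-! ### moving surfaces -/

/-- MV-W: homotopy types. -/
def MvWStmt : Prop := ∀ (P : Type) [PartialOrder P] [Fintype P] (K N : Set P), IsLowerSet K →
  (∀ x ∈ N, ∀ y ∈ K, x ≤ y → y ∈ N) →
    WS (mvK K N) (K \ N) (fun c => c.bot.bot) ∧ WS (mvH K N) (K ∩ N) t2 ∧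
    WS (mvK K N ∩ mvH K N) (Cv K (cb (ind N))) Ch.top

/-- MV-1: structure.  The star of `c` is a product (faces of `bot c` off `N` or in `N`: a cone;
chains over `top c`: `Nice`, `TV`); at `bot c` mixed, `t2 c ∈ G ∩ Y` the star in `mvY` is a union of
two upper sets (`GluStmt`). -/
def Mv1Stmt : Prop := ∀ (P : Type) [PartialOrder P] [Fintype P] (X G N : Set P),
  Rg X → Bd X G → Opn X G N →
    Rg (mvX X N) ∧ Bd (mvX X N) (mvG X G N) ∧ cl (mvX X N) = mvK (cl X) N ∧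
    Om (mvX X N) = mvG X G N ∪ t2 ⁻¹' (Om X \ G) ∧
    (Amb X → (∀ n ∈ N, ∃ m ∈ Om X, Rch N n m) → Amb (mvX X N)) ∧
    ∀ (R : Type) [PartialOrder R] (car : P → R) (Y X' : Set P), IsUpperSet Y →
      Two car Y X G X' → Two (car ∘ t2) (t2 ⁻¹' Y) (mvX X N) (mvG X G N) (mvY Y X' N)

/-- MV-2: cohomology. `t2 ⁻¹' G = mvK ∪ mvH`, `mvG = mvK ∪ mvD`. -/
def Mv2Stmt : Prop := ∀ (P : Type) [PartialOrder P] [Fintype P] (X G N : Set P),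
  Rg X → Bd X G →
    (Bl X G N → Ctr (mvD X N) ∧ Ctr (mvH G N) ∧ mvK G N ∩ mvD X N = mvK G N ∩ mvH G N ∧
      Conn (mvK G N ∩ mvH G N) ∧ (mvK G N ∩ mvH G N).Nonempty ∧ Scr X N ∧
      (Conn G → Conn (mvG X G N)) ∧ (Esc X X → ∀ n ∈ N, ∃ m ∈ G, Rch N n m) ∧
      ∀ (A : Type) [AddCommGroup A],
        (∀ (ζ : P → P → A) ζ', CocOn G ζ → CocOn (mvG X G N) ζ' → ExOn (mvK G N) (ζ' - pb t2 ζ) →
          (ExOn G ζ ↔ ExOn (mvG X G N) ζ')) ∧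
        ∀ (W : Set P) (ζ : P → P → A), G ⊆ W → Disjoint W X → CocOn W ζ →
          ∃ ζ', CocOn (t2 ⁻¹' W ∪ mvS X N) ζ' ∧ ExOn (t2 ⁻¹' W) (ζ' - pb t2 ζ)) ∧
    ∀ Y, X ⊆ Y → Opn X (Om X) N → Scr X N → QQ Y X → QQ (t2 ⁻¹' Y) (mvX X N)

/-- MV-3: incompressibility.  (1) SL off `mvD`, EXT, DX.  (2) SL off `mvD`, TRA-D and IC for the
disc `mvH G N`, the disc lies in `X'`, DX.  (3) TRA-S and CIRC for `mvH G N` in `mvY`. -/
def Mv3Stmt : Prop := ∀ (P : Type) [PartialOrder P] [Fintype P] (Y X G N : Set P),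
  Sub Y X → Bd X G → Bl X G N → (INC X G → INC (mvX X N) (mvG X G N)) ∧
    ∀ (R : Type) [PartialOrder R] (car : P → R) (X' : Set P), Two car Y X G X' → G ⊆ Y →
      (INC X' G → INC (mvY Y X' N) (mvG X G N)) ∧
      (Conn G → NB Y G → NB (t2 ⁻¹' Y) (mvG X G N))

/-- FAM: one member is moved. -/
def FamStmt : Prop := ∀ (P : Type) [PartialOrder P] [Fintype P] (R : Type) [PartialOrder R]
  (car : P → R) (Y : Set P) (k : ℕ) (U G V : Fin k → Set P) (i : Fin k) (X N : Set P),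
  Amb Y → Fm car Y k U G V → X = U i ∨ X = V i → Bl X (G i) N → (∀ j, j ≠ i → Disjoint N (G j)) →
    ∃ U' V', Fm (car ∘ t2) (t2 ⁻¹' Y) k U'
      (fun j => if j = i then mvG X (G i) N else t2 ⁻¹' G j) V'

/-- BALL.  `rev` once (`Z` lower) or twice (`Z` upper): `w = cb (ind Z)` on `G`, vertical;
`w - cb (ind Z)` is a sphere (`NmStmt`), EXT, ENC; `G` is outside by `NB`; `N = B ∪ Z`. -/
def BallStmt : Prop := ∀ (P : Type) [PartialOrder P] [Fintype P] (R : Type) [PartialOrder R]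
  (car : P → R) (Y X G X' Z : Set P) (w : P → P → ℤ), Amb Y → Two car Y X G X' → G ⊆ Y → Conn G →
    NB Y G → TD X w → On X G w → Z ⊆ G → Ctr Z → Fro G Z w →
    ∃ t f N, Tw P t f ∧ Bl (f ⁻¹' X) (f ⁻¹' G) N ∧
      (∀ K, IsLowerSet K → Flat (K ∩ cl X) w → Flat (f ⁻¹' (K ∩ cl X)) (cb (ind N))) ∧
      (∀ K, IsLowerSet K → (Z ∩ K).Nonempty → (N ∩ f ⁻¹' (G ∩ K)).Nonempty) ∧
      ∀ K, IsLowerSet K → K ⊆ X → Conn K → Flat K w → NB Y K → Disjoint N (f ⁻¹' K)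

/-- NBH.  `chi = -2 ee (N ∩ X) - ee (N ∩ G) = 1`; `mix (N ∩ X)` is connected (`NmStmt`), it is `CA`
and the chains that start in `N ∩ G`. -/
def NbhStmt : Prop := ∀ (P : Type) [PartialOrder P] [Fintype P] (X G B : Set P),
  Rg X → Bd X G → IsLowerSet B → B ⊆ X ∪ G → Ctr B → Ctr (B ∩ G) →
    Bl (Ch.top ⁻¹' X) (Ch.top ⁻¹' G) {c : Ch P | Mt B c ∧ c.top ∈ cl X}

/-! ### cutting along a disc -/

/-- TC-1 -/
def Tc1Stmt : Prop := ∀ (P : Type) [PartialOrder P] [Fintype P] (X : Set P) (w : P → P → ℤ),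
  Rg X → TD X w →
    Opn (Ch.top ⁻¹' X) (Om (Ch.top ⁻¹' X)) (Cv (cl X) w) ∧ Rg (tcut X w) ∧
    (Amb X → Amb (tcut X w)) ∧ eu (tcut X w) = eu X + 1 ∧ Scr (Ch.top ⁻¹' X) (Cv (cl X) w) ∧
    Ctr (slab X w) ∧ mvD (Ch.top ⁻¹' X) (Cv (cl X) w) = scar X w 0 ∪ scar X w 1 ∧
    Om (tcut X w) ⊆ t3 ⁻¹' Om X ∪ (scar X w 0 ∪ scar X w 1) ∧
    (∀ K, IsLowerSet K → Flat (K ∩ cl X) w → Disjoint (t3 ⁻¹' K) (slab X w) ∧
      t3 ⁻¹' (K ∩ X) ⊆ tcut X w ∧ t3 ⁻¹' (K ∩ Om X) ⊆ Om (tcut X w)) ∧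
    ∀ b, b = 0 ∨ b = 1 → IsLowerSet (scar X w b) ∧ Ctr (scar X w b) ∧ scar X w b ⊆ Om (tcut X w) ∧
      MfIn (scar X w b) (t3 ⁻¹' X) ∧ Ctr (scar X w b ∩ t3 ⁻¹' X) ∧
      Conn (scar X w b ∩ t3 ⁻¹' Om X) ∧ ∃ x ∈ scar X w b, ∃ y ∈ scar X w b ∩ t3 ⁻¹' X,
        x ∉ t3 ⁻¹' X ∧ x ≤ y

/-- TC-2.  `w3 w = rev (rev (pb top w))`; `t3 ⁻¹' cl X = cl (tcut) ∪ slab`. -/
def Tc2Stmt : Prop := ∀ (P : Type) [PartialOrder P] [Fintype P] (X : Set P) (w : P → P → ℤ),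
  Rg X → TD X w →
    Tr X ∅ w (lv0 P).sd.sd.sd t3 (w3 w) ∧ ExOn (t3 ⁻¹' cl X) (w3 w - pb t3 w) ∧
    Flat (cl (tcut X w)) (w3 w) ∧
    (∀ ζ, CocOn (t3 ⁻¹' cl X) ζ → ExOn (cl (tcut X w)) ζ →
      ∃ a : ℤ, ExOn (t3 ⁻¹' cl X) (ζ - a • w3 w)) ∧
    ∀ (G : Type) [AddCommGroup G] (ζ : _ → _ → G), CocOn (cl (tcut X w)) ζ →
      ∃ ζ', CocOn (t3 ⁻¹' cl X) ζ' ∧ ExOn (cl (tcut X w)) (ζ' - ζ)

/-- TC-3: components.  (3): `Om C` is a sphere, `Om C \ scar b` is a disc. -/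
def Tc3Stmt : Prop := ∀ (P : Type) [PartialOrder P] [Fintype P] (X : Set P) (w : P → P → ℤ),
  Rg X → TD X w →
    (Conn X → ∃ C₀ C₁, IsCmp (tcut X w) C₀ ∧ IsCmp (tcut X w) C₁ ∧ C₀ ∪ C₁ = tcut X w ∧
      scar X w 0 ⊆ Om C₀ ∧ scar X w 1 ⊆ Om C₁) ∧
    (¬ ExOn (cl X) w → ncmp (tcut X w) ≤ ncmp X) ∧
    ∀ G C b, b = 0 ∨ b = 1 → Bd X G → Conn G → On X G w → IsCmp (tcut X w) C → 1 ≤ eu C →
      scar X w b ⊆ Om C → Disjoint (scar X w (1 - b)) (Om C) → Om C ⊆ t3 ⁻¹' G ∪ scar X w b →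
      Ines G w

/-- DEG.  `a ↦ b|mix N` (`q1`, a linear section) is injective on `H¹(Om C; ℤ/2)`: if `b` is exact
on `mix N`, cut it off (one level up, upper cover `Mt N`, `Mt Nᶜ`) and use `q2`.  So
`2 eu N = eu (mix N) ≤ 2 - b₁ (mix N) ≤ 2 - b₁ (Om C) ≤ eu (Om C) = 2 eu C`. -/
def DegStmt : Prop := ∀ (P : Type) [PartialOrder P] [Fintype P] (Y C N : Set P),
  Sub Y C → C.Nonempty → QQ Y C → cl C ⊆ N → N ⊆ Y → Conn (mix N) → eu N ≤ eu C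

/-- OUT.  A ball around `Om C` contains `C` (`mix` is connected): DEG.  A disc `w` outside: let `V₀`
be the component of `Y \ cl C` at `Om C`, `V''` the component of `tcut V₀ w` at `Om Y`, `N` the
complement of `V''` in the component of `Y`; `eu N - eu C = eu V'' - eu V₀`; DEG, TC-3. -/
def OutStmt : Prop := ∀ (P : Type) [PartialOrder P] [Fintype P] (R : Type) [PartialOrder R]
  (car : P → R) (Y C : Set P), Amb Y → PR car Y C → Om C ⊆ Y → eu C ≤ 0 →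
    INC (Y \ cl C) (Om C) ∧ NB Y (Om C)

/-- DD.  (1) EXT.  (2) induction on the number of discs, for all levels: SL off the scars (an
inessential disc is exact by `Bnd`), EXT; start TC-2.  (3) a class extends (TC-2); a disc `u` of
`X` is put in position `NoCap` for the scars (TRA-D), no `Circ` by CIRC, `Sf30.tree` in `mx u` for
the colouring `CA (tcut) u`, rest; `u` is the sum of its pieces (PC). -/
def DdStmt : Prop := ∀ (P : Type) [PartialOrder P] [Fintype P] (Y X : Set P), Sub Y X → Amb X →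
  (∀ ζ, CocOn (cl X) ζ → (∀ C, IsCmp X C → DD C ζ) → DD X ζ) ∧
  ∀ w, TD X w → (∀ ζ, CocOn (t3 ⁻¹' cl X) ζ → DD (tcut X w) ζ → DD (t3 ⁻¹' X) ζ) ∧
    (ADD X → ADD (tcut X w))

/-- HBS.  State: level, `X ⊆ Y`, `Amb X`, `ADD X`, a lower `Λ ⊆ Om X` with `Ctr` components and
`Om X ⊆ Om Y ∪ Λ`, disjoint discs of `Y` flat on `cl X` that span the classes exact on `cl X`.
Step: a disc of `X` that is not exact, SL off `Λ`, `tcut`, new disc `ext (w3 w)`.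
Measure `ncmp X - eu X`. -/
def HbsStmt : Prop := ∀ (P : Type) [PartialOrder P] [Fintype P] (Y : Set P), Amb Y → ADD Y → HBY Y

/-- PUSH.  Induction over the set `O` of cells of `Om Y` not yet treated (upper in `Om Y`):
level `f`, `Om C ∩ f ⁻¹' Om Y ⊆ f ⁻¹' O`, `Om C ∩ f ⁻¹' {x}` empty or `Ctr` for `x ∈ O`.  For `x`
minimal it is a lower set `κ`; NBH, MV-1,2,3 with `G = Om C`. -/
def PushStmt : Prop := ∀ (P : Type) [PartialOrder P] [Fintype P] (R : Type) [PartialOrder R]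
  (car : P → R) (Y C F : Set P) (ζ : P → P → ℤ), Amb Y → PR car Y C → INC C (Om C) →
    IsLowerSet F → F ⊆ Y → Disjoint F (Om C) → CocOn (cl C) ζ → ¬ ExOn (Om C) ζ →
    ∃ t f C', Tw P t f ∧ PR (car ∘ f) (f ⁻¹' Y) C' ∧ INC C' (Om C') ∧ Om C' ⊆ f ⁻¹' Y ∧
      C' ⊆ f ⁻¹' C ∧ Disjoint (f ⁻¹' F) (Om C') ∧ ¬ ExOn (Om C') (pb f ζ)

/-- BIRTH.  State `PR car Y C`, `¬ DD C ζ`, family off `Om C`; measure `1 - eu C`.  An essential
disc is made flat on the members (TRA-D, IC), `tcut`, a component with `¬ DD` (DD, TC-3).  At the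
end PUSH, OUT. -/
def BirthStmt : Prop := ∀ (P : Type) [PartialOrder P] [Fintype P] (R : Type) [PartialOrder R]
  (car : P → R) (Y : Set P) (k : ℕ) (U G V : Fin k → Set P) (ζ : P → P → ℤ), Amb Y →
    Monotone car → Fm car Y k U G V → CocOn (cl Y) ζ → ¬ DD Y ζ → (∀ j, ExOn (G j) ζ) →
    ∃ t f, Tw P t f ∧ ∃ U' G' V', Fm (car ∘ f) (f ⁻¹' Y) (k + 1) U' G' V'

/-! ### the cut -/

/-- what is known about a cut -/
structure CutH (t s' : St) (z : t.P → t.P → ℤ) (π : s'.P → t.P) : Prop where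
  st : Cut21.Stt t
  st' : Cut21.Stt s'
  sf : Sf t.A z
  jk : Cut21.JK t.A z
  lc : Cut21.LC t.A z
  max : Max t z
  cov : Ind26.Cov t s' z π

/-- RSL.  `π : Yo s'.A ≃ Yo t.A \ HS`.  For `x ∈ HS ∩ Y` the sets `{y ≥ x | z x y = 1}` (`LC`)
and `{y ≥ x, y ∉ HS | z x y = 0}` (`Thick s'`) are `Ctr`; `HS ∩ Y` lifts to the sheet
`Fr s'.A ∩ π ⁻¹' Y` of `Om (Yo s'.A)` (`NmStmt`).  `IcP`: as `IncL`/`IncU`, `swap_low`, `swap_up` against `Max`; `bot` maps the level set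
of `z` to `HS`. -/
def RslStmt : Prop := ∀ t s' z π, CutH t s' z π →
  MfIn (HS (Yo t.A) z) (Yo t.A) ∧ IcP (HS (Yo t.A) z) (Yo t.A) ∧
    ∀ x ∈ HS (Yo t.A) z, ∃ o, o ∉ Yo t.A ∧ Rch (HS (Yo t.A) z) x o

/-- E1.  `U = π '' U'`, `G = π '' G'`, `V = Y \ (U ∪ G)`; `π` is an isomorphism `cl U' ≃ cl U`; a
disc of `V` or a ball is moved off `HS` (TRA, IC, RSL) and lifted; levels by `Cov.desc`. -/
def E1Stmt : Prop := ∀ t s' z π, CutH t s' z π → ∀ (R : Type) [PartialOrder R] (car : t.P → R)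
  (k : ℕ) (U G V : Fin k → Set s'.P), Monotone car → Fm (car ∘ π) (Yo s'.A) k U G V →
    ∃ U' G' V', Fm car (Yo t.A) k U' G' V' ∧ ∀ j, Flat (G' j) z

/-! ### Kneser-Haken -/

/-- a family over the simplices of `P` -/
structure KH {P : Type} [PartialOrder P] [Fintype P] (Y : Set P) (t : St) (f : t.P → Ch P) (k : ℕ)
    (U G V : Fin k → Set t.P) : Prop where
  amb : Amb Y
  tw : Tw (Ch P) t f
  fm : Fm f (f ⁻¹' (Ch.top ⁻¹' Y)) k U G V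

/-- NF-0: simplices and skeleta. -/
def Nf0Stmt : Prop := ∀ (P : Type) [PartialOrder P] [Fintype P] (Y : Set P) t f, Amb Y →
  Tw (Ch P) t f →
    (∀ σ : Ch P, Ctr {x | f x ≤ σ} ∧ Ctr (f ⁻¹' {σ}) ∧
      (∀ n, σ.1.card = n + 1 → Mf n (Subtype.val ⁻¹' (f ⁻¹' {σ}) : Set {x | f x ≤ σ})) ∧
      (σ.top ∈ Y → Bal (f ⁻¹' (Ch.top ⁻¹' Y)) {x | σ ≤ f x}) ∧
      (σ.1.card = 1 → ∃ v, f ⁻¹' {σ} = {v} ∧ IsMin v)) ∧
    (∀ m : t.P → t.P → ZMod 2, CocOn (Sk f 3 ∩ f ⁻¹' (Ch.top ⁻¹' cl Y)) m →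
      ExOn (f ⁻¹' (Ch.top ⁻¹' Om Y)) m → ExOn (Sk f 3 ∩ f ⁻¹' (Ch.top ⁻¹' cl Y)) m) ∧
    ∀ k U G V, KH Y t f k U G V → N1 f (⋃ j, G j) → ∀ i, Conn (G i ∩ Sk f 3) ∧
      (G i ∩ Sk f 3).Nonempty ∧ (G i ∩ Sk f 2).Nonempty ∧ Disjoint (G i) (Sk f 1) ∧
      ∀ ζ : t.P → t.P → ℤ, CocOn (G i) ζ → ExOn (G i ∩ Sk f 3) ζ → ExOn (G i) ζ

/-- N1, no change of level.  Let `D₀` be a component of `F ∩ τ` with `eu ≤ 0`.  Induction on the
balls `B ⊆ τ` such that `D₀` is a component of `F ∩ B` and every point of `F ∩ τ \ B` is joined in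
`F \ B` to `∂τ`.  INN for `cb (ind B)`, PC, `INC` give `Z`; if `Z ⊆ τ`: CAP, no `CapL`, SW-S. -/
def N1Stmt : Prop := ∀ (P : Type) [PartialOrder P] [Fintype P] (Y : Set P) t f k U G V,
  KH Y t f k U G V → N1 f (⋃ j, G j) ∨
    ∃ i X u Z, (X = U i ∨ X = V i) ∧ Red (Sk f 3) G i X u Z

/-- RED-1.  BALL, FAM; if `cb (ind N)` is flat on `T ∩ cl X` then
`mvG ∩ t2 ⁻¹' T = t2 ⁻¹' ((G \ N) ∩ T)`. -/
def Red1Stmt : Prop := ∀ (P : Type) [PartialOrder P] [Fintype P] (Y : Set P) t f k U G V i X u Z,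
  KH Y t f k U G V → X = U i ∨ X = V i → Red (Sk f 3) G i X u Z →
    ∃ t' f' U' G' V', KH Y t' f' k U' G' V' ∧
      ncmp ((⋃ j, G' j) ∩ Sk f' 2) ≤ ncmp ((⋃ j, G j) ∩ Sk f 2) ∧
      ncmp ((⋃ j, G' j) ∩ Sk f' 3) < ncmp ((⋃ j, G j) ∩ Sk f 3)

/-- RED-2.  If `α` misses the edges then `G i` lies in the star of `σ` (NF-0, `NB`).  Else `α` is
an arc, `α` and `ρ ∪ α` are `Ctr`; NBH, FAM; `cb (ind N)` is flat on `Sk 2`. -/
def Red2Stmt : Prop := ∀ (P : Type) [PartialOrder P] [Fintype P] (Y : Set P) t f k U G V σ ρ α,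
  KH Y t f k U G V → N1 f (⋃ j, G j) → Leaf f (⋃ j, G j) σ ρ α →
    ∃ t' f' U' G' V', KH Y t' f' k U' G' V' ∧
      ncmp ((⋃ j, G' j) ∩ Sk f' 2) < ncmp ((⋃ j, G j) ∩ Sk f 2)

/-- COUNT (recipe in note KH-COUNT). -/
def CountStmt : Prop := ∀ (P : Type) [PartialOrder P] [Fintype P] (Y : Set P) t f k U G V,
  KH Y t f k U G V → N1 f (⋃ j, G j) → N2 f (⋃ j, G j) → k ≤ Fintype.card (Ch P) ^ 2

end Crest.Agent.X212.Hk
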