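import Crest.Agent.X212.Kh11.Leaf
import Crest.Agent.X212.Hp13.Tst
import Crest.Agent.X212.Sf30.P2Bas

/-!
# X212 / Kh11 (helper11): P1, basic lemmas and levels
-/

set_option autoImplicit false
set_option linter.unusedSectionVars false

open Finset Classical

noncomputable section

namespace Crest.Agent.X212.Hk

open Hp13
open Alg36 (Om Esc mix Clo)
open Kh11 (WS CE)

section basic

variable {P R : Type} [PartialOrder P] [PartialOrder R] {X Y G H K A B Z N : Set P}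
  {w w' u : P → P → ℤ} {x y : P}

theorem sub_cl : X ⊆ cl X := fun x h => ⟨x, h, le_rfl⟩
theorem om_sub_cl : Om X ⊆ cl X := fun _ h => h.2
theorem mem_cl : x ∈ cl X ↔ x ∈ X ∨ x ∈ Om X :=
  ⟨fun h => (Classical.em (x ∈ X)).imp id fun k => ⟨k, h⟩, fun h => h.elim (fun k => sub_cl k) fun k => k.2⟩
theorem cl_eq : cl X = X ∪ Om X := Set.ext fun _ => mem_cl
theorem mem_om : x ∈ Om X ↔ x ∉ X ∧ x ∈ cl X := Iff.rfl
theorem cl_low : IsLowerSet (cl X) := fun _ _ l ⟨a, h, k⟩ => ⟨a, h, l.trans k⟩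
theorem cl_mono (h : X ⊆ Y) : cl X ⊆ cl Y := fun _ ⟨a, k, l⟩ => ⟨a, h k, l⟩
theorem cl_sub (h : X ⊆ K) (hK : IsLowerSet K) : cl X ⊆ K := fun _ ⟨_, k, l⟩ => hK l (h k)
theorem om_low (h : IsUpperSet X) : IsLowerSet (Om X) :=
  fun _ _ l k => ⟨fun j => k.1 (h l j), cl_low l k.2⟩
theorem om_disj : Disjoint X (Om X) := Set.disjoint_left.2 fun _ h k => k.1 h

theorem dp_iff (h : IsUpperSet X) : Dp X x y ↔ x ≤ y ∧ y ∈ cl X :=
  ⟨fun k => ⟨k.le, Sup43.dp_up h k⟩, fun ⟨l, a, ha, k⟩ => ⟨l, a, ha, Or.inr (l.trans k), Or.inr k⟩⟩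

theorem dom_iff' (h : IsUpperSet X) {c : Ch P} : Dom X c ↔ c.top ∈ cl X :=
  ⟨fun k => ((dp_iff h).1 k.bt).2, fun ⟨a, k, l⟩ => ⟨a, k, fun _ j => Or.inr ((Ch.le_top j).trans l)⟩⟩

theorem mt_iff (h : IsUpperSet X) {c : Ch P} : Mt X c ↔ c.top ∈ X :=
  ⟨fun ⟨_, k, l⟩ => h (Ch.le_top k) l, fun k => ⟨_, c.top_mem, k⟩⟩

theorem mt_low (h : IsLowerSet X) {c : Ch P} : Mt X c ↔ c.bot ∈ X :=
  ⟨fun ⟨_, k, l⟩ => h (Ch.bot_le k) l, fun k => ⟨_, c.bot_mem, k⟩⟩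

theorem all_low (h : IsLowerSet K) {c : Ch P} : (∀ x ∈ c.1, x ∈ K) ↔ c.top ∈ K :=
  ⟨fun k => k _ c.top_mem, fun k _ l => h (Ch.le_top l) k⟩

theorem all_up (h : IsUpperSet K) {c : Ch P} : (∀ x ∈ c.1, x ∈ K) ↔ c.bot ∈ K :=
  ⟨fun k => k _ c.bot_mem, fun k _ l => h (Ch.bot_le l) k⟩

theorem mem_cv (h : IsLowerSet H) {c : Ch P} : c ∈ Cv H w ↔ c.top ∈ H ∧ 0 < w c.bot c.top :=
  and_congr_left fun _ => all_low h

section grp
variable {Γ : Type} [AddCommGroup Γ] {z z' z'' : P → P → Γ}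

theorem coc_iff (h : IsUpperSet X) : Coc X z ↔ CocOn (cl X) z :=
  ⟨fun k x _ y _ v ⟨a, ha, l⟩ h1 h2 => k a ha x y v h1 h2 (Or.inr ((h1.trans h2).trans l))
    (Or.inr (h2.trans l)) (Or.inr l), fun k a ha x y v h1 h2 _ _ c =>
    have hv : v ∈ cl X := c.elim (fun l => sub_cl (h l ha)) fun l => ⟨a, ha, l⟩
    k x (cl_low (h1.trans h2) hv) y (cl_low h2 hv) v hv h1 h2⟩

theorem eqD_iff (h : IsUpperSet X) : EqD X z z' ↔ EqE (cl X) z z' :=
  ⟨fun k x _ y hy l => k x y ((dp_iff h).2 ⟨l, hy⟩), fun k x y hp =>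
    k x (cl_low hp.le ((dp_iff h).1 hp).2) y ((dp_iff h).1 hp).2 hp.le⟩

theorem cl0_iff (h : IsUpperSet X) : Cl0 X z ↔ Flat (Om X) z :=
  ⟨fun k x hx y hy l => k x y ((dp_iff h).2 ⟨l, hy.2⟩) hx.1 hy.1, fun k x y hp hx hy =>
    k x ⟨hx, cl_low hp.le ((dp_iff h).1 hp).2⟩ y ⟨hy, ((dp_iff h).1 hp).2⟩ hp.le⟩

theorem EqE.rfl : EqE K z z := fun _ _ _ _ _ => Eq.refl _
theorem EqE.symm (h : EqE K z z') : EqE K z' z := fun x hx y hy l => (h x hx y hy l).symm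
theorem EqE.trans (h : EqE K z z') (h' : EqE K z' z'') : EqE K z z'' :=
  fun x hx y hy l => (h x hx y hy l).trans (h' x hx y hy l)
theorem EqE.mono (h : EqE K z z') (k : H ⊆ K) : EqE H z z' := fun x hx y hy => h x (k hx) y (k hy)
theorem Flat.mono (h : Flat K z) (k : H ⊆ K) : Flat H z := fun x hx y hy => h x (k hx) y (k hy)
theorem Flat.congr (h : Flat K z) (e : EqE K z' z) : Flat K z' :=
  fun x hx y hy l => (e x hx y hy l).trans (h x hx y hy l)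
theorem Flat.exOn (h : Flat K z) : ExOn K z := ⟨0, fun x hx y hy l => by simpa using h x hx y hy l⟩
theorem cocOn_cb (g : P → Γ) : CocOn K (cb g) := fun _ _ _ _ _ _ _ _ => by simp [cb]
theorem exOn_cb (g : P → Γ) : ExOn K (cb g) := ⟨g, fun _ _ _ _ _ => Eq.refl _⟩
theorem exOn_iff : ExOn K z ↔ ∃ g, EqE K z (cb g) := Iff.rfl
theorem cocOn_mono (h : CocOn K z) (k : H ⊆ K) : CocOn H z :=
  fun x hx y hy v hv => h x (k hx) y (k hy) v (k hv)
theorem exOn_mono (h : ExOn K z) (k : H ⊆ K) : ExOn H z :=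
  let ⟨g, e⟩ := h; ⟨g, fun x hx y hy => e x (k hx) y (k hy)⟩
theorem cocOn_congr (h : CocOn K z) (e : EqE K z' z) : CocOn K z' := fun x hx y hy v hv h1 h2 => by
  rw [e x hx v hv (h1.trans h2), e x hx y hy h1, e y hy v hv h2]; exact h x hx y hy v hv h1 h2
theorem exOn_congr (h : ExOn K z) (e : EqE K z' z) : ExOn K z' :=
  let ⟨g, k⟩ := h; ⟨g, EqE.trans e k⟩
theorem cocOn_add (h : CocOn K z) (h' : CocOn K z') : CocOn K (z + z') :=
  fun x hx y hy v hv h1 h2 => by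
    simp only [Pi.add_apply, h x hx y hy v hv h1 h2, h' x hx y hy v hv h1 h2]; abel
theorem cocOn_neg (h : CocOn K z) : CocOn K (-z) := fun x hx y hy v hv h1 h2 => by
  simp only [Pi.neg_apply, h x hx y hy v hv h1 h2]; abel
theorem cocOn_sub (h : CocOn K z) (h' : CocOn K z') : CocOn K (z - z') := by
  rw [sub_eq_add_neg]; exact cocOn_add h (cocOn_neg h')
theorem cocOn_zsmul (h : CocOn K z) (n : ℤ) : CocOn K (n • z) := fun x hx y hy v hv h1 h2 => by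
  simp only [Pi.smul_apply, h x hx y hy v hv h1 h2, smul_add]
theorem cocOn_zero : CocOn K (0 : P → P → Γ) := fun _ _ _ _ _ _ _ _ => by simp
theorem cocOn_sum {ι : Type} (s : Finset ι) {v : ι → P → P → Γ} (h : ∀ i ∈ s, CocOn K (v i)) :
    CocOn K (∑ i ∈ s, v i) := sum_induction v (CocOn K) (fun _ _ => cocOn_add) cocOn_zero h
theorem exOn_add (h : ExOn K z) (h' : ExOn K z') : ExOn K (z + z') :=
  let ⟨g, e⟩ := h; let ⟨g', e'⟩ := h'
  ⟨g + g', fun x hx y hy l => by simp only [Pi.add_apply, e x hx y hy l, e' x hx y hy l]; abel⟩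
theorem exOn_neg (h : ExOn K z) : ExOn K (-z) :=
  let ⟨g, e⟩ := h; ⟨-g, fun x hx y hy l => by simp only [Pi.neg_apply, e x hx y hy l]; abel⟩
theorem exOn_sub (h : ExOn K z) (h' : ExOn K z') : ExOn K (z - z') := by
  rw [sub_eq_add_neg]; exact exOn_add h (exOn_neg h')
theorem exOn_zsmul (h : ExOn K z) (n : ℤ) : ExOn K (n • z) :=
  let ⟨g, e⟩ := h; ⟨n • g, fun x hx y hy l => by simp only [Pi.smul_apply, e x hx y hy l, smul_sub]⟩
theorem exOn_zero : ExOn K (0 : P → P → Γ) := Flat.exOn fun _ _ _ _ _ => rfl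
theorem exOn_sum {ι : Type} (s : Finset ι) {v : ι → P → P → Γ} (h : ∀ i ∈ s, ExOn K (v i)) :
    ExOn K (∑ i ∈ s, v i) := sum_induction v (ExOn K) (fun _ _ => exOn_add) exOn_zero h
theorem exOn_iff_of_sub (h : ExOn K (z - z')) : ExOn K z ↔ ExOn K z' :=
  ⟨fun k => by simpa using exOn_sub k h, fun k => by simpa using exOn_add h k⟩
theorem cocOn_self (h : CocOn K z) (hx : x ∈ K) : z x x = 0 := by
  simpa using h x hx x hx x hx le_rfl le_rfl

variable {Q : Type} [PartialOrder Q] {f : Q → P}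

theorem Flat.pb (h : Flat K z) (hf : Monotone f) : Flat (f ⁻¹' K) (pb f z) :=
  fun _ hx _ hy l => h _ hx _ hy (hf l)
theorem EqE.pb (h : EqE K z z') (hf : Monotone f) : EqE (f ⁻¹' K) (pb f z) (pb f z') :=
  fun _ hx _ hy l => h _ hx _ hy (hf l)
theorem cocOn_pb (h : CocOn K z) (hf : Monotone f) : CocOn (f ⁻¹' K) (pb f z) :=
  fun _ hx _ hy _ hv h1 h2 => h _ hx _ hy _ hv (hf h1) (hf h2)
theorem exOn_pb (h : ExOn K z) (hf : Monotone f) : ExOn (f ⁻¹' K) (pb f z) :=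
  let ⟨g, e⟩ := h; ⟨g ∘ f, fun _ hx _ hy l => e _ hx _ hy (hf l)⟩
theorem pb_sub : pb f (z - z') = pb f z - pb f z' := rfl
theorem pb_neg : pb f (-z) = -pb f z := rfl
theorem pb_zsmul (n : ℤ) : pb f (n • z) = n • pb f z := rfl
theorem pb_sum {ι : Type} (s : Finset ι) (v : ι → P → P → Γ) :
    pb f (∑ i ∈ s, v i) = ∑ i ∈ s, pb f (v i) := by
  funext x y; simp only [pb, Finset.sum_apply]
theorem pb_cb_ind (E : Set P) : pb f (cb (ind E)) = cb (ind (f ⁻¹' E)) := rfl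

end grp

theorem cb_ind_eq_zero : cb (ind B) x y = 0 ↔ (x ∈ B ↔ y ∈ B) := by
  by_cases h : x ∈ B <;> by_cases k : y ∈ B <;> simp [cb, ind, h, k]

theorem cb_ind_pos : 0 < cb (ind B) x y ↔ x ∉ B ∧ y ∈ B := by
  by_cases h : x ∈ B <;> by_cases k : y ∈ B <;> simp [cb, ind, h, k]

theorem cb_ind_eq_one : cb (ind B) x y = 1 ↔ x ∉ B ∧ y ∈ B := by
  by_cases h : x ∈ B <;> by_cases k : y ∈ B <;> simp [cb, ind, h, k]

/-- a connected set on which `cb (ind B)` is flat lies in `B` or off `B` -/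
theorem Flat.sub_or (h : Flat K (cb (ind B))) (hc : Conn K) : K ⊆ B ∨ Disjoint K B := by
  by_cases k : ∃ x ∈ K, x ∈ B
  · obtain ⟨x, h1, h2⟩ := k
    exact Or.inl fun y hy => (hc x h1 y hy).ind h2 fun a ha b hb l =>
      cb_ind_eq_zero.1 (h a ha b hb l)
  · exact Or.inr (Set.disjoint_left.2 fun x h1 h2 => k ⟨x, h1, h2⟩)

theorem flat_of_sub (h : K ⊆ B) : Flat K (cb (ind B)) :=
  fun _ hx _ hy _ => cb_ind_eq_zero.2 (iff_of_true (h hx) (h hy))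

theorem flat_of_disj (h : Disjoint K B) : Flat K (cb (ind B)) := fun _ hx _ hy _ =>
  cb_ind_eq_zero.2 (iff_of_false (Set.disjoint_left.1 h hx) (Set.disjoint_left.1 h hy))

namespace S1

theorem z1 (h : S1 X w) (hX : IsUpperSet X) : Pt30.Z1 X w :=
  ⟨(coc_iff hX).2 h.coc, fun x y k => h.nn x y ((dp_iff hX).1 k).2 k.le,
    fun x y k => h.le1 x y ((dp_iff hX).1 k).2 k.le⟩

theorem of_z1 (h : Pt30.Z1 X w) (hX : IsUpperSet X) : S1 X w :=
  ⟨(coc_iff hX).1 h.coc, fun x y k l => h.mono x y ((dp_iff hX).2 ⟨l, k⟩),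
    fun x y k l => h.le x y ((dp_iff hX).2 ⟨l, k⟩)⟩

theorem add (h : S1 X w) {v : P} (hv : v ∈ cl X) (h1 : x ≤ y) (h2 : y ≤ v) :
    w x v = w x y + w y v := h.coc x (cl_low (h1.trans h2) hv) y (cl_low h2 hv) v hv h1 h2

theorem self (h : S1 X w) (hx : x ∈ cl X) : w x x = 0 := cocOn_self h.coc hx

theorem cases (h : S1 X w) (hy : y ∈ cl X) (l : x ≤ y) : w x y = 0 ∨ w x y = 1 := by
  have := h.nn x y hy l; have := h.le1 x y hy l; omega

theorem mono (h : S1 Y w) (k : X ⊆ Y) : S1 X w :=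
  ⟨cocOn_mono h.coc (cl_mono k), fun x y hy => h.nn x y (cl_mono k hy),
    fun x y hy => h.le1 x y (cl_mono k hy)⟩

theorem congr (h : S1 X w) (e : EqE (cl X) w' w) : S1 X w' :=
  ⟨cocOn_congr h.coc e, fun x y hy l => e x (cl_low l hy) y hy l ▸ h.nn x y hy l,
    fun x y hy l => e x (cl_low l hy) y hy l ▸ h.le1 x y hy l⟩

/-- a pair of a chain jumps at most as much as the chain -/
theorem pos (h : S1 X w) {c : Ch P} (hc : c.top ∈ cl X) (hx : x ∈ c.1) (hy : y ∈ c.1) (l : x ≤ y)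
    (k : 0 < w x y) : 0 < w c.bot c.top := by
  have h1 := h.add hc (Ch.bot_le hx) (Ch.le_top hx)
  have h2 := h.add hc l (Ch.le_top hy)
  have h3 := h.nn _ _ (cl_low (Ch.le_top hx) hc) (Ch.bot_le hx)
  have h4 := h.nn _ _ hc (Ch.le_top hy)
  omega

theorem up (h : S1 X w) {c d : Ch P} (hd : d.top ∈ cl X) (l : c ≤ d) (k : 0 < w c.bot c.top) :
    0 < w d.bot d.top := h.pos hd (l c.bot_mem) (l c.top_mem) c.bot_le_top k

theorem ca_up (h : S1 X w) (hX : IsUpperSet X) : IsUpperSet (CA X w) := fun _ _ l k =>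
  have := hX (Ch.top_mono l) k.1
  ⟨this, h.up (sub_cl this) l k.2⟩

theorem cv_conv (h : S1 X w) (hH : H ⊆ cl X) : (Cv H w).OrdConnected :=
  ⟨fun _ hc _ hd e he => ⟨fun x hx => hd.1 x (he.2 hx),
    h.up (hH (hd.1 _ (he.2 e.top_mem))) he.1 hc.2⟩⟩

theorem cv_empty (h : S1 X w) (hH : H ⊆ cl X) : Cv H w = ∅ ↔ Flat H w :=
  ⟨fun e x hx y hy l => by_contra fun k => by
    have : Ch.pr x y l ∈ Cv H w := ⟨by simpa using ⟨hx, hy⟩, by
      have := h.nn x y (hH hy) l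
      simp only [Ch.bot_pr, Ch.top_pr]; omega⟩
    rw [e] at this; exact this, fun k => Set.eq_empty_of_forall_notMem fun c hc =>
      hc.2.ne' (k _ (hc.1 _ c.bot_mem) _ (hc.1 _ c.top_mem) c.bot_le_top)⟩

end S1

theorem s1_ind (h : ∀ x ∈ N, ∀ y ∈ cl X, x ≤ y → y ∈ N) : S1 X (cb (ind N)) :=
  ⟨cocOn_cb _, fun x y hy l => by
    by_cases k : x ∈ N
    · simp [cb, ind, k, h x k y hy l]
    · by_cases k' : y ∈ N <;> simp [cb, ind, k, k'], fun x y _ _ => by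
    by_cases k : x ∈ N <;> by_cases k' : y ∈ N <;> simp [cb, ind, k, k']⟩

theorem ca_congr (e : EqE (cl X) w' w) : CA X w' = CA X w := Set.ext fun c =>
  and_congr_right fun k => by rw [e _ (cl_low c.bot_le_top (sub_cl k)) _ (sub_cl k) c.bot_le_top]

theorem cv_congr (e : EqE H w' w) : Cv H w' = Cv H w := Set.ext fun c =>
  and_congr_right fun k => by rw [e _ (k _ c.bot_mem) _ (k _ c.top_mem) c.bot_le_top]

theorem cv_mono (h : H ⊆ K) : Cv H w ⊆ Cv K w := fun _ k => ⟨fun x hx => h (k.1 x hx), k.2⟩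

theorem ca_ind (hB : IsUpperSet B) (h : B ⊆ Y) : CA Y (cb (ind B)) = mix B := Set.ext fun c =>
  ⟨fun k => ⟨⟨_, c.top_mem, (cb_ind_pos.1 k.2).2⟩, _, c.bot_mem, (cb_ind_pos.1 k.2).1⟩, fun k =>
    have := (mt_iff hB).1 k.1
    ⟨h this, cb_ind_pos.2 ⟨(mt_low hB.compl).1 k.2, this⟩⟩⟩

theorem bd_om (h : IsUpperSet X) : Bd X (Om X) := ⟨om_low h, subset_rfl, fun _ _ _ k _ => k⟩

theorem on_om : On X (Om X) w := fun _ h => absurd h.1 h.2

theorem Bd.not (h : Bd X G) (hx : x ∈ G) : x ∉ X := (h.sub hx).1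

theorem Bd.sub_cl (h : Bd X G) : G ⊆ cl X := h.sub.trans om_sub_cl

theorem Bd.low_diff (h : Bd X G) (hX : IsUpperSet X) : IsLowerSet (Om X \ G) :=
  fun _ _ l k => ⟨om_low hX l k.1, fun j => k.2 (h.clo _ j _ k.1 l)⟩

theorem Bd.up (h : Bd X G) (hX : IsUpperSet X) (hx : x ∈ X ∪ G) (hy : y ∈ cl X) (l : x ≤ y) :
    y ∈ X ∪ G := by
  by_cases k : y ∈ X
  · exact Or.inl k
  · exact Or.inr (h.clo x (hx.resolve_left fun j => k (hX l j)) y ⟨k, hy⟩ l)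

theorem On.cv (h : On X G w) (hG : Bd X G) : Cv (Om X) w = Cv G w :=
  Set.Subset.antisymm (fun c k => ⟨(all_low hG.low).2 (by_contra fun j => k.2.ne'
    (h _ ⟨k.1 _ c.bot_mem, fun i => j (hG.clo _ i _ (k.1 _ c.top_mem) c.bot_le_top)⟩ _
      ⟨k.1 _ c.top_mem, j⟩ c.bot_le_top)), k.2⟩) (cv_mono hG.sub)

theorem Fro.congr (h : Fro G Z w) (e : EqE G w' w) : Fro G Z w' := h.imp e.trans e.trans

theorem Fro.exOn (h : Fro G Z w) : ExOn G w :=
  h.elim (exOn_congr (exOn_cb _)) (exOn_congr (exOn_neg (exOn_cb _)))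

theorem Fro.iff (h : Fro G Z w) (hx : x ∈ G) (hy : y ∈ G) (l : x ≤ y) :
    w x y = 0 ↔ (x ∈ Z ↔ y ∈ Z) := by
  rcases h with h | h <;> rw [h x hx y hy l]
  · exact cb_ind_eq_zero
  · exact neg_eq_zero.trans cb_ind_eq_zero

theorem t2_mono : Monotone (t2 : Ch (Ch P) → P) := Ch.top_mono.comp Ch.top_mono
theorem t3_mono : Monotone (t3 : Ch (Ch (Ch P)) → P) := Ch.top_mono.comp t2_mono
theorem le_t2 {c : Ch (Ch P)} (h : x ∈ c.bot.1) : x ≤ t2 c := Ch.le_top (c.bot_le_top h)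

theorem mvX_up (h : IsUpperSet X) : IsUpperSet (mvX X N) :=
  fun _ _ l k => ⟨h (t2_mono l) k.1, fun x hx => k.2 x (Ch.bot_anti l hx)⟩
theorem mvY_up {X' : Set P} (hY : IsUpperSet Y) (h : IsUpperSet X') : IsUpperSet (mvY Y X' N) :=
  fun _ _ l k => k.imp (h (t2_mono l)) fun k =>
    ⟨hY (t2_mono l) k.1, fun x hx => k.2 x (Ch.bot_anti l hx)⟩
theorem mvK_low (h : IsLowerSet G) : IsLowerSet (mvK G N) :=
  fun _ _ l ⟨k, x, h1, h2⟩ => ⟨h (t2_mono l) k, x, Ch.bot_anti l h1, h2⟩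
theorem mvH_low (h : IsLowerSet G) : IsLowerSet (mvH G N) :=
  fun _ _ l ⟨k, x, h1, h2⟩ => ⟨h (t2_mono l) k, x, Ch.bot_anti l h1, h2⟩
theorem mvS_eq : mvS X N = mvH (cl X) N := rfl
theorem mvS_low : IsLowerSet (mvS X N) := mvH_low cl_low
theorem mvD_eq : mvD X N = mvK (cl X) N ∩ mvH (cl X) N :=
  Set.ext fun _ => ⟨fun h => ⟨⟨h.1.1, h.2⟩, h.1⟩, fun h => ⟨h.2, h.1.2⟩⟩
theorem mvD_low : IsLowerSet (mvD X N) := mvD_eq (X := X) ▸ (mvK_low cl_low).inter (mvH_low cl_low)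
theorem mvG_low (h : IsLowerSet G) : IsLowerSet (mvG X G N) := (mvK_low h).union mvD_low
theorem mvK_union_mvH : mvK G N ∪ mvH G N = t2 ⁻¹' G := Set.ext fun c =>
  ⟨fun h => h.elim And.left And.left, fun h => (Classical.em (c.bot.bot ∈ N)).elim
    (fun k => Or.inr ⟨h, _, c.bot.bot_mem, k⟩) fun k => Or.inl ⟨h, _, c.bot.bot_mem, k⟩⟩
theorem mvX_sub : mvX X N ⊆ t2 ⁻¹' X := fun _ h => h.1

theorem hs_low {z : P → P → ℤ} (h : S1 Y z) : IsLowerSet (HS Y z) := fun x x' l ⟨y, h1, h2, h3⟩ =>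
  ⟨y, h1, l.trans h2, by
    have := h.add (sub_cl h1) l h2
    have := h.nn x' x ⟨y, h1, h2⟩ l
    omega⟩

theorem hs_sub {z : P → P → ℤ} : HS Y z ⊆ cl Y := fun _ ⟨y, h1, h2, _⟩ => ⟨y, h1, h2⟩

theorem sk_low {Q : Type} [PartialOrder Q] {f : Q → Ch P} (hf : Monotone f) (n : ℕ) :
    IsLowerSet (Sk f n) := fun _ _ l k => (card_le_card (hf l)).trans k

end basic

section fin

variable {P R : Type} [PartialOrder P] [Fintype P] [PartialOrder R] {X Y G H K A B Z N X' U V : Set P}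
  {w w' u : P → P → ℤ} {x y : P} {car : P → R}

theorem TD.congr (h : TD X w) (hX : IsUpperSet X) (e : EqE (cl X) w' w) : TD X w' :=
  ⟨h.toS1.congr e, ca_congr e ▸ h.conn, (chi_congr ((eqD_iff hX).2 e)).trans h.chi,
    cv_congr (e.mono om_sub_cl) ▸ h.ne⟩

theorem SP.congr (h : SP X w) (hX : IsUpperSet X) (e : EqE (cl X) w' w) : SP X w' :=
  ⟨h.toS1.congr e, h.flat.congr (e.mono om_sub_cl), ca_congr e ▸ h.conn,
    (chi_congr ((eqD_iff hX).2 e)).trans h.chi⟩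

theorem Ines.congr (h : Ines G w) (e : EqE G w' w) : Ines G w' :=
  let ⟨Z, h1, h2, h3⟩ := h; ⟨Z, h1, h2, h3.congr e⟩

theorem Ines.exOn (h : Ines G w) : ExOn G w := let ⟨_, _, _, k⟩ := h; k.exOn

theorem Ines.bds (h : Ines G w) (k : G ⊆ A) : Bds G A w :=
  let ⟨Z, h1, h2, h3⟩ := h; ⟨Z, h1, h1.trans k, h2, h3⟩

theorem Rg.ctr (h : Rg X) (hx : x ∈ cl X) : Ctr {a | a ∈ X ∧ x ≤ a} := by
  by_cases k : x ∈ X
  · exact Kh11.sctr_min (m := x) ⟨k, le_rfl⟩ fun _ h => h.2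
  · have := h.nice (Ch.pt x) ((dom_iff' h.up).2 (by simpa using hx)) (by simpa [mt_pt] using k)
    convert this using 3 with a
    refine and_congr_right fun ha => ?_
    simp only [Ch.pt_val, mem_singleton, forall_eq]
    exact ⟨Or.inr, fun j => j.resolve_left fun l => k (h.up l ha)⟩

theorem rg_of (hX : IsUpperSet X) (hM : Mf 3 X) (h : ∀ x ∈ Om X, Ctr {a | a ∈ X ∧ x ≤ a}) : Rg X :=
  ⟨hX, hM, fun c h1 h2 => by
    have k : c.top ∉ X := fun j => h2 ((mt_iff hX).2 j)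
    convert h c.top ⟨k, (dom_iff' hX).1 h1⟩ using 3 with a
    exact and_congr_right fun ha => ⟨fun j => (j _ c.top_mem).resolve_left fun l => k (hX l ha),
      fun j x hx => Or.inr ((Ch.le_top hx).trans j)⟩⟩

theorem Amb.sub (h : Amb Y) : Sub Y Y := ⟨h.toRg, h, subset_rfl⟩

theorem Sub.of (h : Amb Y) (k : Rg X) (l : X ⊆ Y) : Sub Y X := ⟨k, h, l⟩

theorem MfIn.mono (h : MfIn H A) (k : H ∩ B ⊆ A) : MfIn H B := Mf.mono h fun x hx => k ⟨x.2, hx⟩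

theorem Bal.sp (h : Bal Y B) (hY : Rg Y) : SP Y (cb (ind B)) :=
  ⟨s1_ind fun _ hx _ _ l => h.up l hx, flat_of_disj (Set.disjoint_left.2 fun _ k j => k.1 (h.sub j)),
    (ca_ind h.up h.sub).symm ▸ h.conn, by
      have e := Alg36.Mf.sum_iMt (hY.mf.mono h.sub)
      rw [chi_cb_ind hY.mf h.sub, ee_upper h.up, sum_filter]
      simp only [Alg36.iMt, mul_ite, mul_one, mul_zero, h.eu] at e
      rw [e]; norm_num⟩

theorem TV.comp {R' : Type} [PartialOrder R'] {φ : R → R'} (h : TV car X G) (hφ : Monotone φ) :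
    TV (φ ∘ car) X G := fun T hT => h (φ ⁻¹' T) (hT.preimage hφ)

theorem Two.comp {R' : Type} [PartialOrder R'] {φ : R → R'} (h : Two car Y X G X')
    (hφ : Monotone φ) : Two (φ ∘ car) Y X G X' :=
  { h with mono := hφ.comp h.mono, tv := h.tv.comp hφ, tv' := h.tv'.comp hφ }

theorem Mem.comp {R' : Type} [PartialOrder R'] {φ : R → R'} (h : Mem car Y U G V)
    (hφ : Monotone φ) : Mem (φ ∘ car) Y U G V := { h with two := h.two.comp hφ }

theorem Fm.comp {R' : Type} [PartialOrder R'] {φ : R → R'} {k : ℕ} {U G V : Fin k → Set P}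
    (h : Fm car Y k U G V) (hφ : Monotone φ) : Fm (φ ∘ car) Y k U G V :=
  ⟨fun i => (h.mem i).comp hφ, h.dj, h.np⟩

end fin

end Crest.Agent.X212.Hk
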