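import Crest.Agent.X212.Kh11.Lev
import Crest.Agent.X212.Cut21.Brg

/-!
# X212 / Kh11 (helper11): P1, sides, members, components, cuts
-/

set_option autoImplicit false
set_option linter.unusedSectionVars false

open Finset Classical

noncomputable section

namespace Crest.Agent.X212.Hk

open Hp13
open Alg36 (Om Esc mix Clo)
open Kh11 (WS CE)

variable {P R : Type} [PartialOrder P] [Fintype P] [PartialOrder R]
  {X Y G H K A B Z N X' U V E C : Set P} {w w' u ζ ζ' : P → P → ℤ} {car : P → R} {x y : P}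

/-- a connected set covered by two disjoint upper sets lies in one of them -/
theorem conn_or (hK : Conn K) (hA : IsUpperSet A) (hB : IsUpperSet B) (hd : Disjoint A B)
    (h : K ⊆ A ∪ B) : K ⊆ A ∨ K ⊆ B := by
  by_cases k : ∃ x ∈ K, x ∈ A
  · obtain ⟨x, h1, h2⟩ := k
    exact Or.inl fun y hy => (hK x h1 y hy).ind h2 fun a ha b _ l => ⟨hA l, fun j =>
      (h ha).resolve_right fun i => Set.disjoint_left.1 hd j (hB l i)⟩
  · exact Or.inr fun x hx => (h hx).resolve_left fun j => k ⟨x, hx, j⟩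

/-- a nonempty upper part of `Y` has a boundary -/
theorem esc_om (hE : Esc Y Y) (hY : IsUpperSet Y) (hU : IsUpperSet U) (hx : x ∈ U) (h : U ⊆ Y) :
    ∃ a, Rch U x a ∧ ∃ o ∈ Om U, o ≤ a := by
  by_contra k
  obtain ⟨b, -, r, o, ho, c⟩ := hE x (h hx)
  have key : Rch U x b := r.ind (p := Rch U x) Rch.rfl fun a _ a' _ l =>
    ⟨fun j => j.trans (Rch.of_cm (j.mem hx) (hU l (j.mem hx)) (Or.inl l)), fun j =>
      j.trans (Rch.of_cm (j.mem hx) (by_contra fun i => k ⟨a', j, a, ⟨i, a', j.mem hx, l⟩, l⟩)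
        (Or.inr l))⟩
  have l : o ≤ b := c.resolve_left fun l => ho (hY l (h (key.mem hx)))
  exact k ⟨b, key, o, ⟨fun j => ho (h j), b, key.mem hx, l⟩, l⟩

theorem Amb.exCl (h : Amb Y) (hz : CocOn (cl Y) ζ) (e : ExOn (Om Y) ζ) : ExOn (cl Y) ζ := by
  obtain ⟨g, e⟩ := e
  obtain ⟨g', -, k⟩ := Alg36.Bnd.eqD_cb h.bnd ((coc_iff h.up).2 hz) (g := g) fun x y hp hx hy =>
    have j := ((dp_iff h.up).1 hp).2
    e x ⟨hx, cl_low hp.le j⟩ y ⟨hy, j⟩ hp.le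
  exact ⟨g', (eqD_iff h.up).1 k⟩

theorem Rg.ws (h : Rg X) : WS X (cl X) id :=
  WS.of_ge (fun _ k => sub_cl k) (fun _ _ _ _ l => l) fun _ k => h.ctr k

theorem Rg.exCl (h : Rg X) {Γ : Type} [AddCommGroup Γ] {z : P → P → Γ} (hz : CocOn (cl X) z)
    (e : ExOn X z) : ExOn (cl X) z := h.ws.ex hz e

theorem Bd.mfIn (h : Bd X G) (k : MfIn (Om X) Set.univ) : MfIn G Set.univ :=
  Mf.emb (f := fun x : G => (⟨x.1, h.sub x.2⟩ : Om X)) (fun _ _ => Iff.rfl)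
    (A := Subtype.val ⁻¹' Set.univ) (fun _ _ => Set.mem_univ _) (fun b _ x c => ⟨⟨x.1, c.elim (h.clo _ b.2 _ x.2) fun l => h.low l b.2⟩, rfl⟩) k

/-! ### the two sides -/

namespace Two

theorem ng (k : Two car Y X G X') : Disjoint X G := Set.disjoint_left.2 fun _ h j => k.bd.not j h

theorem ncl (k : Two car Y X G X') (hx : x ∈ X') : x ∉ cl X :=
  fun ⟨_, h, l⟩ => Set.disjoint_left.1 k.dj h (k.up' l hx)

theorem ncl' (k : Two car Y X G X') (hx : x ∈ X) : x ∉ cl X' :=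
  fun ⟨_, h, l⟩ => Set.disjoint_left.1 k.dj (k.up l hx) h

theorem om_sub (k : Two car Y X G X') (hx : x ∈ Om X) (hy : x ∈ Y) : x ∈ G :=
  ((k.cov x hy).resolve_left hx.1).resolve_right fun j => k.ncl j hx.2

theorem ctr (k : Two car Y X G X') (hx : x ∈ G ∩ Y) : Ctr {a | a ∈ X ∧ x ≤ a} := by
  simpa using k.tv Set.univ isLowerSet_univ x hx trivial

theorem ctr' (k : Two car Y X G X') (hx : x ∈ G ∩ Y) : Ctr {a | a ∈ X' ∧ x ≤ a} := by
  simpa using k.tv' Set.univ isLowerSet_univ x hx trivial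

theorem bd' (k : Two car Y X G X') (hY : IsUpperSet Y) (hG : G ⊆ Y) : Bd X' G :=
  ⟨k.bd.low, fun _ hx => ⟨fun j => Set.disjoint_left.1 k.dg j hx,
    let ⟨a, h⟩ := (k.ctr' ⟨hx, hG hx⟩).ne; ⟨a, h⟩⟩, fun _ hx y hy l =>
    ((k.cov y (hY l (hG hx))).resolve_left fun j => k.ncl' j hy.2).resolve_right hy.1⟩

theorem symm (k : Two car Y X G X') (hY : IsUpperSet Y) (hG : G ⊆ Y) : Two car Y X' G X :=
  ⟨k.mono, k.up', k.up, k.sub', k.sub, fun y hy => (k.cov y hy).elim (Or.inr ∘ Or.inr)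
    fun j => j.elim (Or.inr ∘ Or.inl) Or.inl, k.dj.symm, k.ng, k.bd' hY hG, k.tv', k.tv⟩

/-- a connected set off `G` lies on one side -/
theorem side (k : Two car Y X G X') (hK : Conn K) (h : K ⊆ Y) (hd : Disjoint K G) :
    K ⊆ X ∨ K ⊆ X' := conn_or hK k.up k.up' k.dj fun y hy =>
  (k.cov y (h hy)).imp id fun j => j.resolve_left (Set.disjoint_left.1 hd hy)

theorem rg (k : Two car Y X G X') (hY : Rg Y) (hG : G ⊆ Y) : Rg X := by
  refine rg_of k.up (hY.mf.mono k.sub) fun x hx => ?_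
  by_cases j : x ∈ G
  · exact k.ctr ⟨j, hG j⟩
  have c := hY.ctr (cl_mono k.sub hx.2)
  obtain ⟨a, h1, h2⟩ := hx.2
  have := (k.side c.conn (fun _ i => i.1) (Set.disjoint_left.2 fun _ i l =>
    j (k.bd.low i.2 l))).resolve_right fun i => Set.disjoint_left.1 k.dj h1 (i ⟨k.sub h1, h2⟩)
  convert c using 3 with a
  exact and_congr_left fun l => ⟨fun i => k.sub i, fun i => this ⟨i, l⟩⟩

theorem rg' (k : Two car Y X G X') (hY : Rg Y) (hG : G ⊆ Y) : Rg X' := (k.symm hY.up hG).rg hY hG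

theorem sb (k : Two car Y X G X') (hY : Amb Y) (hG : G ⊆ Y) : Sub Y X :=
  ⟨k.rg hY.toRg hG, hY, k.sub⟩

theorem sb' (k : Two car Y X G X') (hY : Amb Y) (hG : G ⊆ Y) : Sub Y X' :=
  ⟨k.rg' hY.toRg hG, hY, k.sub'⟩

theorem eq' (k : Two car Y X G X') : X' = Y \ cl X := Set.ext fun y =>
  ⟨fun j => ⟨k.sub' j, k.ncl j⟩, fun j => ((k.cov y j.1).resolve_left fun i => j.2 (sub_cl i)).resolve_left
    fun i => j.2 (k.bd.sub_cl i)⟩

end Two

/-! ### unions of components -/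

section clo

theorem clo_up (h : Clo X C) (hX : IsUpperSet X) : IsUpperSet C :=
  fun _ _ l k => h.cl _ k _ (hX l (h.sub k)) (Or.inl l)

/-- over a point of `cl C` everything of `X` is in `C` -/
theorem clo_mem (h : Clo X C) (hX : Rg X) (hx : x ∈ cl C) (hy : y ∈ X) (l : x ≤ y) : y ∈ C :=
  let ⟨a, h1, h2⟩ := hx
  h.rch h1 (((hX.ctr (cl_mono h.sub hx)).conn a ⟨h.sub h1, h2⟩ y ⟨hy, l⟩).mono fun _ j => j.1)

theorem clo_om (h : Clo X C) (hX : Rg X) : Om C ⊆ Om X :=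
  fun _ k => ⟨fun j => k.1 (clo_mem h hX k.2 j le_rfl), cl_mono h.sub k.2⟩

theorem clo_cl (h : Clo X C) (hX : Rg X) (hx : x ∈ cl C) (hy : y ∈ cl X) (l : x ≤ y) : y ∈ cl C :=
  let ⟨a, h1, h2⟩ := hy; ⟨a, clo_mem h hX hx h1 (l.trans h2), h2⟩

theorem clo_bd (h : Clo X C) (hX : Rg X) : Bd X (Om C) :=
  ⟨om_low (clo_up h hX.up), clo_om h hX, fun _ hx _ hy l =>
    ⟨fun j => hy.1 (h.sub j), clo_cl h hX hx.2 hy.2 l⟩⟩

theorem clo_disj (h : Clo X C) (hX : Rg X) : Disjoint (cl C) (cl (X \ C)) :=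
  Set.disjoint_left.2 fun _ k ⟨_, h1, h2⟩ => h1.2 (clo_mem h hX k h1.1 h2)

theorem clo_cl_union (h : Clo X C) : cl C ∪ cl (X \ C) = cl X := Set.ext fun _ =>
  ⟨fun k => k.elim (fun j => cl_mono h.sub j) fun j => cl_mono Set.sdiff_subset j,
    fun ⟨a, h1, h2⟩ => (Classical.em (a ∈ C)).imp (fun j => ⟨a, j, h2⟩) fun j => ⟨a, ⟨h1, j⟩, h2⟩⟩

theorem Rg.clo (hX : Rg X) (h : Clo X C) : Rg C :=
  ⟨clo_up h hX.up, hX.mf.mono h.sub, h.nice hX.nice⟩

theorem Amb.clo (hX : Amb X) (h : Clo X C) : Amb C :=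
  ⟨hX.toRg.clo h, h.bnd hX.nice hX.bnd, h.bnd hX.nice hX.bnd2, fun a ha =>
    let ⟨b, _, r, x, hx, c⟩ := hX.esc a (h.sub ha)
    ⟨b, h.rch ha r, h.rch_in ha r, x, fun j => hx (h.sub j), c⟩⟩

theorem Sub.clo (hX : Sub Y X) (h : Clo X C) : Sub Y C :=
  ⟨hX.toRg.clo h, hX.amb, h.sub.trans hX.sub⟩

theorem Two.clo (k : Two car Y X G X') (hY : IsUpperSet Y) (hX : Rg X) (h : Clo X C) :
    Two car Y C (Om C) (Y \ cl C) := by
  have g : ∀ x ∈ Om C ∩ Y, x ∈ G ∩ Y := fun x hx => ⟨k.om_sub (clo_om h hX hx.1) hx.2, hx.2⟩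
  refine ⟨k.mono, clo_up h hX.up, hY.inter cl_low.compl, h.sub.trans k.sub, fun _ j => j.1,
    fun y hy => ?_, Set.disjoint_left.2 fun _ i j => j.2 (sub_cl i),
    Set.disjoint_left.2 fun _ i j => i.2 j.2, bd_om (clo_up h hX.up), fun T hT x hx j => ?_,
    fun T hT x hx j => ?_⟩
  · by_cases j : y ∈ cl C
    exacts [(mem_cl.1 j).imp id Or.inl, Or.inr (Or.inr ⟨hy, j⟩)]
  · convert k.tv T hT x (g x hx) j using 3 with y
    exact and_congr_left fun l => ⟨fun i => h.sub i, fun i => clo_mem h hX hx.1.2 i l.1⟩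
  · convert k.tv' T hT x (g x hx) j using 3 with y
    rw [k.eq']
    exact and_congr_left fun l => and_congr_right fun _ =>
      ⟨fun i j => i (clo_cl h hX hx.1.2 j l.1), fun i j => i (cl_mono h.sub j)⟩

theorem QQ.self (Y : Set P) : QQ Y Y :=
  have e : cl Y \ Y = Om Y := Set.ext fun _ => and_comm
  ⟨fun a ha => ⟨a, e ▸ ha, by rw [sub_self]; exact exOn_zero⟩, fun _ _ k => k⟩

theorem QQ.clo (k : QQ Y X) (hX : Rg X) (h : Clo X C) : QQ Y C := by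
  refine ⟨fun a ha => ?_, fun b hb e => exOn_mono
    (k.q2 b (cocOn_mono hb fun _ j => ⟨j.1, fun i => j.2 (h.sub i)⟩) e) (clo_om h hX)⟩
  have bd := clo_bd h hX
  have hc : CocOn (Om X) fun x y => if y ∈ Om C then a x y else 0 := fun x _ y hy v hv l l' => by
    by_cases j : v ∈ Om C
    · simp only [if_pos j, if_pos (bd.low l' j)]
      exact ha x (bd.low (l.trans l') j) y (bd.low l' j) v j l l'
    · simp only [if_neg j, if_neg fun i => j (bd.clo y i v hv l'), add_zero]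
  obtain ⟨b, h1, g, h2⟩ := k.q1 _ hc
  have h3 : ∀ x y, y ∈ Om X → x ≤ y → b x y - cb g x y = if y ∈ Om C then a x y else 0 :=
    fun x y hy l => by
      have := h2 x (om_low hX.up l hy) y hy l
      simp only [Pi.sub_apply] at this
      rw [cb, ← this]; abel
  refine ⟨fun x y => if y ∈ X then 0 else b x y - cb g x y, fun x hx y hy v hv l l' => ?_,
    Flat.exOn fun x _ y hy l => ?_⟩
  · by_cases j : v ∈ X
    · by_cases i : y ∈ X
      · simp only [if_pos j, if_pos i, add_zero]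
      · simp only [if_pos j, if_neg i, add_zero]
        rw [h3 x y ⟨i, v, j, l'⟩ l, if_neg fun m => hv.2 (clo_mem h hX m.2 j l')]
    · have i : y ∉ X := fun i => j (hX.up l' i)
      simp only [if_neg j, if_neg i]
      exact cocOn_sub h1 (cocOn_cb g) x ⟨hx.1, fun m => i (hX.up l m)⟩ y ⟨hy.1, i⟩ v ⟨hv.1, j⟩ l l'
  · have j := clo_om h hX hy
    simp only [Pi.sub_apply, if_neg j.1, h3 x y j l, if_pos hy, sub_self]

/-- a disc lives in one component -/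
theorem TD.in_cmp (k : TD X w) (hX : Rg X) : ∃ C, IsCmp X C ∧ TD C w ∧ Flat (cl (X \ C)) w := by
  obtain ⟨c, hc⟩ := (Cut21.td_ctr hX k).ne
  have h : Clo X (cmp X c.top) := Alg36.IsCmp.clo (isCmp_cmp hc.1)
  have e : CA (cmp X c.top) w = CA X w := Set.ext fun d => ⟨fun j => ⟨h.sub j.1, j.2⟩, fun j =>
    ⟨⟨j.1, (k.conn c hc d j).map fun _ h1 _ h2 l =>
      Rch.of_cm h1.1 h2.1 (Or.inl (Ch.top_mono l))⟩, j.2⟩⟩
  have m : ∀ x y a, x ≤ y → y ≤ a → a ∈ X → 0 < w x y → a ∈ cmp X c.top := fun x y a l l' ha p => by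
    have : Ch.pr x a (l.trans l') ∈ CA X w := ⟨by simpa using ha, by
      have := k.add (sub_cl ha) l l'
      have := k.nn y a (sub_cl ha) l'
      simp only [Ch.bot_pr, Ch.top_pr]; omega⟩
    rw [← e] at this
    simpa using this.1
  refine ⟨_, isCmp_cmp hc.1, ⟨k.toS1.mono h.sub, e ▸ k.conn, ?_, ?_⟩, fun x _ y hy l => ?_⟩
  · rw [Cut21.chi_ca (hX.clo h) (k.toS1.mono h.sub), e, ← Cut21.chi_ca hX k.toS1, k.chi]
  · obtain ⟨d, h1, h2⟩ := k.ne
    obtain ⟨a, h3, h4⟩ := (h1 _ d.top_mem).2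
    exact ⟨d, fun x hx => ⟨fun j => (h1 x hx).1 (h.sub j), a, m _ _ a d.bot_le_top h4 h3 h2,
      (Ch.le_top hx).trans h4⟩, h2⟩
  · obtain ⟨a, h1, h2⟩ := hy
    exact (k.cases ⟨a, h1.1, h2⟩ l).resolve_right fun j => h1.2 (m x y a l h2 h1.1 (by omega))

theorem PR.of_clo (k : Two car Y X G X') (hY : IsUpperSet Y) (hX : Amb X) (q : QQ Y X)
    (h : IsCmp X C) : PR car Y C :=
  ⟨hX.clo (Alg36.IsCmp.clo h), h.conn, h.ne, k.clo hY hX.toRg (Alg36.IsCmp.clo h),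
    q.clo hX.toRg (Alg36.IsCmp.clo h)⟩

/-- the start of the compression process -/
theorem two_self (hY : IsUpperSet Y) (hc : Monotone car) : Two car Y Y (Om Y) ∅ :=
  ⟨hc, hY, isUpperSet_empty, subset_rfl, Set.empty_subset _, fun _ => Or.inl, Set.disjoint_empty _,
    Set.empty_disjoint _, bd_om hY, fun _ _ _ j => absurd j.2 j.1.1, fun _ _ _ j => absurd j.2 j.1.1⟩

theorem PR.start (hY : Amb Y) (hc : Monotone car) (h : IsCmp Y C) : PR car Y C :=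
  PR.of_clo (two_self hY.up hc) hY.up hY (QQ.self Y) h

end clo

/-! ### members -/

namespace Mem

variable {U' G' V' : Set P}

theorem low (k : Mem car Y U G V) : IsLowerSet G := k.two.bd.low

theorem om_eq (k : Mem car Y U G V) : Om U = G := k.om.antisymm k.two.bd.sub

theorem cl_eq (k : Mem car Y U G V) : cl U = U ∪ G := by rw [Hk.cl_eq, k.om_eq]

theorem sb (k : Mem car Y U G V) (hY : Amb Y) : Sub Y U := k.two.sb hY k.sub
theorem sb' (k : Mem car Y U G V) (hY : Amb Y) : Sub Y V := k.two.sb' hY k.sub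
theorem bd' (k : Mem car Y U G V) (hY : IsUpperSet Y) : Bd V G := k.two.bd' hY k.sub

/-- both sides at once -/
theorem side (k : Mem car Y U G V) (hY : Amb Y) (h : X = U ∨ X = V) :
    ∃ X', Two car Y X G X' ∧ Sub Y X ∧ INC X G ∧ INC X' G := by
  rcases h with rfl | rfl
  exacts [⟨V, k.two, k.sb hY, k.inc, k.inc'⟩, ⟨U, k.two.symm hY.up k.sub, k.sb' hY, k.inc', k.inc⟩]

theorem mfIn (k : Mem car Y U G V) (hN : NmStmt) (hY : Rg Y) : MfIn G Set.univ :=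
  k.two.bd.mfIn ((hN P).1 U (k.two.rg hY k.sub)).1

theorem nest (k : Mem car Y U G V) (k' : Mem car Y U' G' V') (hY : Amb Y) (hd : Disjoint G G')
    (h : G' ⊆ U) : G ⊆ V' := by
  refine (k'.two.side k.conn k.sub hd).resolve_left fun j => ?_
  obtain ⟨x, hx⟩ := k.ne
  obtain ⟨a, -, o, ho, -⟩ := esc_om hY.esc hY.up (k.two.up.union k'.two.up) (Or.inr (j hx))
    (Set.union_subset k.two.sub k'.two.sub)
  obtain ⟨b, hb | hb, l⟩ := ho.2
  · exact ho.1 (Or.inr (j (k.om ⟨fun i => ho.1 (Or.inl i), b, hb, l⟩)))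
  · exact ho.1 (Or.inl (h (k'.om ⟨fun i => ho.1 (Or.inr i), b, hb, l⟩)))

theorem connU (k : Mem car Y U G V) (hY : Amb Y) : Conn U := by
  have r := (k.two.rg hY.toRg k.sub).ws
  rw [r.conn_iff, k.cl_eq]
  have key : ∀ x ∈ U ∪ G, ∃ o ∈ G, Rch (U ∪ G) x o := fun x hx => hx.elim (fun j =>
    let ⟨a, h1, o, h2, h3⟩ := esc_om hY.esc hY.up k.two.up j k.two.sub
    ⟨o, k.om h2, (h1.mono Set.subset_union_left).trans
      (Rch.of_cm (Or.inl (h1.mem j)) (Or.inr (k.om h2)) (Or.inr h3))⟩) fun j => ⟨x, j, Rch.rfl⟩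
  intro x hx y hy
  obtain ⟨o, h1, h2⟩ := key x hx
  obtain ⟨o', h3, h4⟩ := key y hy
  exact h2.trans (((k.conn o h1 o' h3).mono Set.subset_union_right).trans h4.symm)

end Mem

section fam

variable {k : ℕ} {U G V : Fin k → Set P} {t : St} {f : t.P → P}

theorem Fm.side (h : Fm car Y k U G V) {i j : Fin k} (e : i ≠ j) : G j ⊆ U i ∨ G j ⊆ V i :=
  (h.mem i).two.side (h.mem j).conn (h.mem j).sub (h.dj j i e.symm)

theorem Fm.nest (h : Fm car Y k U G V) (hY : Amb Y) {i j : Fin k} (e : i ≠ j) (l : G j ⊆ U i) :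
    G i ⊆ V j := (h.mem i).nest (h.mem j) hY (h.dj i j e) l

theorem Fm.pre (h : Fm car Y k U G V) (hY : Amb Y) (hf : Tw P t f) :
    Fm (car ∘ f) (f ⁻¹' Y) k (fun i => f ⁻¹' U i) (fun i => f ⁻¹' G i) fun i => f ⁻¹' V i :=
  ⟨fun i => (h.mem i).pre hf, fun i j e => (h.dj i j e).preimage f,
    fun i j e => (h.np i j e).pre (h.nest hY e) hf⟩

theorem Fm.low (h : Fm car Y k U G V) : IsLowerSet (⋃ j, G j) :=
  isLowerSet_iUnion fun j => (h.mem j).low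

theorem fm_zero (car : P → R) (Y : Set P) : Fm car Y 0 Fin.elim0 Fin.elim0 Fin.elim0 :=
  ⟨fun i => i.elim0, fun i => i.elim0, fun i => i.elim0⟩

end fam

theorem KH.amb' {t : St} {f : t.P → Ch P} {k : ℕ} {U G V : Fin k → Set t.P} (h : KH Y t f k U G V) :
    Amb (f ⁻¹' (Ch.top ⁻¹' Y)) := (h.amb.pre (Tw.one P)).pre h.tw

theorem KH.pre {t t' : St} {f : t.P → Ch P} {k : ℕ} {U G V : Fin k → Set t.P} {g : t'.P → t.P}
    (h : KH Y t f k U G V) (hg : Tw t.P t' g) :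
    KH Y t' (f ∘ g) k (fun i => g ⁻¹' U i) (fun i => g ⁻¹' G i) fun i => g ⁻¹' V i :=
  ⟨h.amb, h.tw.trans hg, h.fm.pre h.amb' hg⟩

/-! ### the outer format and the cut -/

theorem ws_yo (hT : Cut21.Thick A) : WS (Yo A) A id :=
  WS.of_ge (fun _ k => k.1) (fun _ _ _ _ l => l) fun a ha => by
    by_cases k : a ∈ Cut21.Fr A
    · convert hT.inn a k using 3 with b
      exact ⟨fun j => ⟨j.1.1, j.2, j.1.2⟩, fun j => ⟨⟨j.1, j.2.2⟩, j.2.1⟩⟩
    · exact Kh11.sctr_min (m := a) ⟨⟨ha, k⟩, le_rfl⟩ fun _ j => j.2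

theorem amb_yo {s : St} (h : Cut21.Stt s) : Amb (Yo s.A) := by
  have g := Sup43.good_inn h.toGood h.thick
  refine ⟨⟨Sup43.inn_up, g.mf, g.nice⟩, g.bnd, g.bnd2, fun a ha => ?_⟩
  obtain ⟨b, hb, r, x, hx, c⟩ := h.esc a ha.1
  by_cases k : b ∈ Yo s.A
  · exact ⟨b, k, ((ws_yo h.thick).rch_iff ha k).2 r, x, fun j => hx j.1, c⟩
  · obtain ⟨i, h1, h2, h3⟩ := (h.thick.inn b (by_contra fun j => k ⟨hb, j⟩)).ne
    exact ⟨i, ⟨h1, h3⟩, ((ws_yo h.thick).rch_iff ha ⟨h1, h3⟩).2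
      (r.trans (Rch.of_cm hb h1 (Or.inl h2))), b, k, Or.inr h2⟩

section cut

variable {s t s' u u' : St} {z : t.P → t.P → ℤ} {π : s'.P → t.P} {f : u.P → t.P}

theorem jk_desc (k : Cut21.JK t.A z) (h : Desc t u f) : Cut21.JK u.A (pb f z) := fun x y hy l => by
  rw [h.A_eq, (Tw.of_desc h).om] at hy
  exact k _ _ hy (h.mono l)

theorem lc_desc (k : Cut21.LC t.A z) (h : Desc t u f) : Cut21.LC u.A (pb f z) := fun x n h1 h2 => by
  rw [h.A_eq] at h1 h2 ⊢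
  obtain ⟨a, h3, h4, h5⟩ := h2
  have e := ((Tw.of_desc h).ws_up x {a | a ∈ t.A ∧ z (f x) a = n}).ctr_iff.2 (by
    convert k (f x) n h1 ⟨f a, h3, h.mono h4, h5⟩ using 3 with b
    exact ⟨fun j => ⟨j.1.1, j.2, j.1.2⟩, fun j => ⟨⟨j.1, j.2.2⟩, j.2.1⟩⟩)
  convert e using 3 with b
  exact ⟨fun j => ⟨j.2.1, j.1, j.2.2⟩, fun j => ⟨j.2.1, j.1, j.2.2⟩⟩

theorem CutH.of (k : CutH t s' z π) (h : Desc t u f) {g : u'.P → s'.P} (h' : Desc s' u' g)
    {π' : u'.P → u.P} (c : Ind26.Cov u u' (pb f z) π') : CutH u u' (pb f z) π' :=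
  ⟨Alg36.stt_desc k.st h, Alg36.stt_desc k.st' h', h.sf k.sf, jk_desc k.jk h, lc_desc k.lc h,
    k.max.desc h, c⟩

theorem CutH.desc (k : CutH t s' z π) (h : Desc t u f) : ∃ (u' : St) (g : u'.P → s'.P)
    (π' : u'.P → u.P), Desc s' u' g ∧ CutH u u' (pb f z) π' ∧ f ∘ π' = π ∘ g :=
  let ⟨u', g, π', h1, h2, h3⟩ := k.cov.desc h
  ⟨u', g, π', h1, k.of h h1 h2, h3⟩

theorem CutH.lift (k : CutH t s' z π) {g : u'.P → s'.P} (h : Desc s' u' g) : ∃ (u : St)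
    (f : u.P → t.P) (π' : u'.P → u.P), Desc t u f ∧ CutH u u' (pb f z) π' ∧ f ∘ π' = π ∘ g :=
  let ⟨u, f, π', h1, h2, h3⟩ := k.cov.lift h
  ⟨u, f, π', h1, k.of h1 h h2, h3⟩

theorem CutH.amb (k : CutH t s' z π) : Amb (Yo t.A) := amb_yo k.st
theorem CutH.amb' (k : CutH t s' z π) : Amb (Yo s'.A) := amb_yo k.st'

theorem CutH.s1 (k : CutH t s' z π) : S1 (Yo t.A) z :=
  S1.of_z1 ⟨k.sf.coc.mono Sup43.inn_sub, k.sf.mono.mono Sup43.inn_sub, fun x y hp =>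
    let ⟨a, h1, h2⟩ := Sup43.dp_up Sup43.inn_up hp
    k.jk x y ((Classical.em (y ∈ t.A)).imp id fun j => ⟨j, a, h1.1, h2⟩) hp.le⟩ Sup43.inn_up

end cut

end Crest.Agent.X212.Hk
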