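import Crest.Agent.X212.Kh11.Ref
import Crest.Agent.X212.Hp13.Swap
import Crest.Agent.X212.Sf30.Tree2
import Crest.Agent.X212.Sf30.Le
import Crest.Agent.X212.Alg36.Sd3
import Crest.Agent.X212.Alg36.Hp4
import Crest.Agent.X212.Ind26.Cov
import Crest.Agent.X212.Cut21.Cov
import Crest.Agent.X212.Sup43.In

/-!
# X212 / Kh11 (helper11): P1 = Haken finiteness.  Definitions (namespace `X212.Hk`)

All regions are UPPER sets `X` of a finite poset (open cells), `cl X` is the compact manifold,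
`Om X` its boundary.  Surfaces are LOWER sets (subcomplexes).  Discs and spheres are cocycles with
jumps `≤ 1` (`TD`, `SP`, `Bal`).  Levels: `Tw P t f`; sets go up by `f ⁻¹'`, cocycles by `pb f`.
The leaves are in `Kh11/Leaf`.
-/

set_option autoImplicit false
set_option linter.unusedSectionVars false

open Finset Classical

noncomputable section

namespace Crest.Agent.X212.Hk

open Hp13
open Alg36 (Om Esc mix)

/-- `t.P` is an iterated subdivision of `P`, `f` the iterated `top` -/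
def Tw (P : Type) [PartialOrder P] [Fintype P] (t : St) (f : t.P → P) : Prop :=
  Desc ⟨P, Set.univ⟩ t f

/-- level `0` -/
abbrev lv0 (P : Type) [PartialOrder P] [Fintype P] : St := ⟨P, Set.univ⟩

section basic

variable {P R : Type} [PartialOrder P] [PartialOrder R]

/-- `top ∘ top` -/
abbrev t2 : Ch (Ch P) → P := Ch.top ∘ Ch.top

/-- `top ∘ top ∘ top` -/
abbrev t3 : Ch (Ch (Ch P)) → P := Ch.top ∘ Ch.top ∘ Ch.top

/-- closure (`X ∪ Om X`) -/
def cl (X : Set P) : Set P := {x | ∃ a ∈ X, x ≤ a}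

/-- `w` vanishes on `K` -/
def Flat {G : Type} [Zero G] (K : Set P) (w : P → P → G) : Prop :=
  ∀ x ∈ K, ∀ y ∈ K, x ≤ y → w x y = 0

/-- equal on `K` -/
def EqE {G : Type} (K : Set P) (z w : P → P → G) : Prop :=
  ∀ x ∈ K, ∀ y ∈ K, x ≤ y → z x y = w x y

/-- extension by zero -/
def ext {G : Type} [Zero G] (X : Set P) (w : P → P → G) : P → P → G :=
  fun x y => if y ∈ cl X then w x y else 0

/-- the chains that see the jump -/
def mx (w : P → P → ℤ) : Set (Ch P) := {c | 0 < w c.bot c.top}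

/-- the trace of the level set on `H` -/
def Cv (H : Set P) (w : P → P → ℤ) : Set (Ch P) := {c | (∀ x ∈ c.1, x ∈ H) ∧ 0 < w c.bot c.top}

/-- the interior cells of the level set -/
def CA (X : Set P) (w : P → P → ℤ) : Set (Ch P) := {c | c.top ∈ X ∧ 0 < w c.bot c.top}

/-- the part of `w` carried by the cells `D` -/
def pc (w : P → P → ℤ) (D : Set (Ch P)) : P → P → ℤ :=
  fun x y => if 0 < w x y ∧ ∃ c ∈ D, x ∈ c.1 ∧ y ∈ c.1 then 1 else 0

/-- number of components -/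
def ncmp (E : Set P) : ℕ := {C | IsCmp E C}.ncard

/-- an embedded surface: jumps `0` or `1` -/
structure S1 (X : Set P) (w : P → P → ℤ) : Prop where
  coc : CocOn (cl X) w
  nn : ∀ x, ∀ y ∈ cl X, x ≤ y → 0 ≤ w x y
  le1 : ∀ x, ∀ y ∈ cl X, x ≤ y → w x y ≤ 1

/-- `G` is a union of boundary components of `X` -/
structure Bd (X G : Set P) : Prop where
  low : IsLowerSet G
  sub : G ⊆ Om X
  clo : ∀ x ∈ G, ∀ y ∈ Om X, x ≤ y → y ∈ G

/-- the boundary of `w` lies on `G` -/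
def On (X G : Set P) (w : P → P → ℤ) : Prop := Flat (Om X \ G) w

/-- `w` is the co-oriented frontier of `Z` in `G` -/
def Fro (G Z : Set P) (w : P → P → ℤ) : Prop := EqE G w (cb (ind Z)) ∨ EqE G w (-cb (ind Z))

/-- what is left of `X` when a neighbourhood of `N` is removed -/
def mvX (X N : Set P) : Set (Ch (Ch P)) := {c | t2 c ∈ X ∧ ∀ x ∈ c.bot.1, x ∉ N}

/-- the other side with `N` -/
def mvY (Y X' N : Set P) : Set (Ch (Ch P)) := {c | t2 c ∈ X' ∨ (t2 c ∈ Y ∧ ∀ x ∈ c.bot.1, x ∈ N)}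

/-- the closed neighbourhood of `N` -/
def mvS (X N : Set P) : Set (Ch (Ch P)) := {c | t2 c ∈ cl X ∧ ∃ x ∈ c.bot.1, x ∈ N}

/-- its frontier -/
def mvD (X N : Set P) : Set (Ch (Ch P)) := {c | c ∈ mvS X N ∧ ∃ x ∈ c.bot.1, x ∉ N}

/-- the part of the old surface that stays -/
def mvK (G N : Set P) : Set (Ch (Ch P)) := {c | t2 c ∈ G ∧ ∃ x ∈ c.bot.1, x ∉ N}

/-- the part of the old surface that goes (closed) -/
def mvH (G N : Set P) : Set (Ch (Ch P)) := {c | t2 c ∈ G ∧ ∃ x ∈ c.bot.1, x ∈ N}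

/-- the moved surface -/
def mvG (X G N : Set P) : Set (Ch (Ch P)) := mvK G N ∪ mvD X N

/-- `N` is relatively open in `cl X` and meets the boundary only in `G` -/
structure Opn (X G N : Set P) : Prop where
  sub : N ⊆ X ∪ G
  up : ∀ x ∈ N, ∀ y ∈ cl X, x ≤ y → y ∈ N

/-- `X` cut along the level set of `w` -/
def tcut (X : Set P) (w : P → P → ℤ) : Set (Ch (Ch (Ch P))) := mvX (Ch.top ⁻¹' X) (Cv (cl X) w)

/-- the closed slab -/
def slab (X : Set P) (w : P → P → ℤ) : Set (Ch (Ch (Ch P))) := mvS (Ch.top ⁻¹' X) (Cv (cl X) w)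

/-- the two scars, `b = 0` (below) and `b = 1` (above) -/
def scar (X : Set P) (w : P → P → ℤ) (b : ℤ) : Set (Ch (Ch (Ch P))) :=
  {c | c ∈ mvD (Ch.top ⁻¹' X) (Cv (cl X) w) ∧ w c.bot.top.bot c.bot.bot.top = b}

/-- the copy of `w` that runs inside the slab -/
def w3 (w : P → P → ℤ) : Ch (Ch (Ch P)) → Ch (Ch (Ch P)) → ℤ := pb (fun c => c.bot.bot.top) w

/-- classes mod 2 of `∂X` extend over the outside; classes of the outside that die on `∂Y` die on
`∂X` -/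
structure QQ (Y X : Set P) : Prop where
  q1 : ∀ a : P → P → ZMod 2, CocOn (Om X) a → ∃ b, CocOn (cl Y \ X) b ∧ ExOn (Om X) (b - a)
  q2 : ∀ b : P → P → ZMod 2, CocOn (cl Y \ X) b → ExOn (Om Y) b → ExOn (Om X) b

/-- skeleta: the carrier has at most `n` vertices -/
def Sk {Q : Type} (f : Q → Ch P) (n : ℕ) : Set Q := {x | (f x).1.card ≤ n}

/-- the closed surface under the level set of `z` -/
def HS (Y : Set P) (z : P → P → ℤ) : Set P := {x | ∃ y ∈ Y, x ≤ y ∧ 0 < z x y}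

/-- the outer format -/
abbrev Yo (A : Set P) : Set P := Sup43.Inn A

end basic

section fin

variable {P R : Type} [PartialOrder P] [Fintype P] [PartialOrder R]

/-- a disc -/
structure TD (X : Set P) (w : P → P → ℤ) : Prop extends S1 X w where
  conn : Conn (CA X w)
  chi : chi X w = 1
  ne : (Cv (Om X) w).Nonempty

/-- a sphere -/
structure SP (X : Set P) (w : P → P → ℤ) : Prop extends S1 X w where
  flat : Flat (Om X) w
  conn : Conn (CA X w)
  chi : chi X w = 2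

/-- the inside of a sphere -/
structure Bal (Y B : Set P) : Prop where
  up : IsUpperSet B
  sub : B ⊆ Y
  conn : Conn (mix B)
  eu : eu B = 1

/-- a region -/
structure Rg (X : Set P) : Prop where
  up : IsUpperSet X
  mf : Mf 3 X
  nice : Nice X

/-- a region without `H₂` -/
structure Amb (Y : Set P) : Prop extends Rg Y where
  bnd : Bnd ℤ Y
  bnd2 : Bnd (ZMod 2) Y
  esc : Esc Y Y

/-- a region of the ambient region -/
structure Sub (Y X : Set P) : Prop extends Rg X where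
  amb : Amb Y
  sub : X ⊆ Y

/-- `H` is a surface along `A` -/
def MfIn (H A : Set P) : Prop := Mf 2 (Subtype.val ⁻¹' A : Set H)

/-- the curve `w` bounds a disc of `G` inside `A` -/
def Bds (G A : Set P) (w : P → P → ℤ) : Prop := ∃ Z, Z ⊆ G ∧ Z ⊆ A ∧ Ctr Z ∧ Fro G Z w

/-- the curve `w` bounds a disc of `G` -/
def Ines (G : Set P) (w : P → P → ℤ) : Prop := ∃ Z, Z ⊆ G ∧ Ctr Z ∧ Fro G Z w

/-- `G` is incompressible in `X` -/
def INC (X G : Set P) : Prop := ∀ t f, Tw P t f → ∀ w, TD (f ⁻¹' X) w →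
  On (f ⁻¹' X) (f ⁻¹' G) w → Ines (f ⁻¹' G) w

/-- `G` lies in no ball -/
def NB (Y G : Set P) : Prop := ∀ t f, Tw P t f → ∀ B, Bal (f ⁻¹' Y) B → ¬ f ⁻¹' G ⊆ B

/-- `G` is transverse to all subcomplexes of the base, seen from `X` -/
def TV (car : P → R) (X G : Set P) : Prop :=
  ∀ T, IsLowerSet T → ∀ x ∈ G, car x ∈ T → Ctr {y | y ∈ X ∧ x ≤ y ∧ car y ∈ T}

/-- `G` cuts `Y` into `X` and `X'` (`G` may touch `Om Y`) -/
structure Two (car : P → R) (Y X G X' : Set P) : Prop where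
  mono : Monotone car
  up : IsUpperSet X
  up' : IsUpperSet X'
  sub : X ⊆ Y
  sub' : X' ⊆ Y
  cov : ∀ y ∈ Y, y ∈ X ∨ y ∈ G ∨ y ∈ X'
  dj : Disjoint X X'
  dg : Disjoint X' G
  bd : Bd X G
  tv : TV car X (G ∩ Y)
  tv' : TV car X' (G ∩ Y)

/-- a member of a Haken family: inside `U`, outside `V` -/
structure Mem (car : P → R) (Y U G V : Set P) : Prop where
  two : Two car Y U G V
  sub : G ⊆ Y
  conn : Conn G
  ne : G.Nonempty
  om : Om U ⊆ G
  inc : INC U G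
  inc' : INC V G
  nb : NB Y G

/-- not parallel -/
def NP (U G G' V' : Set P) : Prop := G' ⊆ U → ∃ ζ : P → P → ℤ,
  CocOn ((U ∪ G) ∩ (V' ∪ G')) ζ ∧ ¬ (ExOn G ζ ↔ ExOn G' ζ)

/-- a Haken family -/
structure Fm (car : P → R) (Y : Set P) (k : ℕ) (U G V : Fin k → Set P) : Prop where
  mem : ∀ i, Mem car Y (U i) (G i) (V i)
  dj : ∀ i j, i ≠ j → Disjoint (G i) (G j)
  np : ∀ i j, i ≠ j → NP (U i) (G i) (G j) (V j)

/-- the disc `w` is replaced by the disc `w'`; it is changed only near `A` -/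
structure Tr (X A : Set P) (w : P → P → ℤ) (t : St) (f : t.P → P) (w' : t.P → t.P → ℤ) :
    Prop where
  tw : Tw P t f
  td : TD (f ⁻¹' X) w'
  flat : ∀ K, IsLowerSet K → Disjoint K A → Flat (K ∩ cl X) w → Flat (f ⁻¹' (K ∩ cl X)) w'
  ines : ∀ G, Bd X G → On X G w → Ines (f ⁻¹' G) w' → Ines G w
  drv : ExOn (f ⁻¹' cl X) (w' - pb f w) ∨ ExOn (f ⁻¹' cl X) (w' + pb f w)

/-- an innermost disc of `H`, above its boundary curve -/
structure CapH (H A : Set P) (w : P → P → ℤ) (Z : Set P) : Prop where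
  sub : Z ⊆ H ∩ A
  ctr : Ctr Z
  flat : Flat Z w
  up : ∀ x ∈ Z, ∀ y ∈ H, x ≤ y → y ∈ Z
  one : ∀ y ∈ Z, ∀ x, x ≤ y → x ∉ Z → w x y = 1
  ne : ∃ y ∈ Z, ∃ x, x ≤ y ∧ x ∉ Z

/-- an innermost disc of `H`, below its boundary curve -/
structure CapL (H A : Set P) (w : P → P → ℤ) (Z : Set P) : Prop where
  sub : Z ⊆ H ∩ A
  ctr : Ctr Z
  flat : Flat Z w
  low : IsLowerSet Z
  one : ∀ x ∈ Z, ∀ y ∈ H, x ≤ y → y ∉ Z → w x y = 1
  ne : ∃ x ∈ Z, ∃ y ∈ H, x ≤ y ∧ y ∉ Z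

/-- no innermost disc -/
def NoCap (H A : Set P) (w : P → P → ℤ) : Prop := ∀ Z, ¬ CapH H A w Z ∧ ¬ CapL H A w Z

/-- an innermost disc `D` of the level set cut along `H` -/
structure Inn (H X : Set P) (w : P → P → ℤ) (D : Set (Ch P)) : Prop where
  cmp : IsCmp (CA X w \ Cv H w) D
  eu : eu D = 1
  int : ∀ c ∈ D, ∀ e, e ≤ c → 0 < w e.bot e.top → e.top ∈ X
  ne : ∃ c ∈ D, ∃ e ∈ Cv H w, e ≤ c
  fc : Conn {e | e ∈ Cv H w ∧ ∃ c ∈ D, e ≤ c}

/-- `H` is incompressible in `Y`, input form -/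
def IcP (H Y : Set P) : Prop := ∀ t f, Tw P t f → ∀ X w D, IsUpperSet X → X ⊆ f ⁻¹' Y → S1 X w →
  Inn (f ⁻¹' H) X w D → Bds (f ⁻¹' H) (f ⁻¹' Y) (pc w D)

/-- `H` is incompressible in `X`, output form -/
def IC (H X : Set P) : Prop := ∀ t f, Tw P t f → ∀ w, TD (f ⁻¹' X) w ∨ SP (f ⁻¹' X) w →
  Flat (f ⁻¹' (H ∩ Om X)) w → NoCap (f ⁻¹' H) (f ⁻¹' X) w → Flat (f ⁻¹' (H ∩ cl X)) w

/-- `N` is cut off `X` by a disc and meets `G` in a disc -/
structure Bl (X G N : Set P) : Prop extends Opn X G N where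
  ctr : Ctr (N ∩ G)
  td : TD X (cb (ind N))

/-- the frontier of `N` consists of discs -/
def Scr (X N : Set P) : Prop :=
  ∀ D, IsCmp (mvD X N) D → Ctr D ∧ Conn (D ∩ t2 ⁻¹' Om X)

/-- the class is dual to discs -/
def DD (X : Set P) (ζ : P → P → ℤ) : Prop := ∃ t f, Tw P t f ∧
  ∃ (k : ℕ) (w : Fin k → t.P → t.P → ℤ) (n : Fin k → ℤ), (∀ i, TD (f ⁻¹' X) (w i)) ∧
    ExOn (f ⁻¹' cl X) (pb f ζ - ∑ i, n i • w i)

/-- all classes are dual to discs -/
def ADD (X : Set P) : Prop := ∀ ζ, CocOn (cl X) ζ → DD X ζ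

/-- a complete system of disjoint discs -/
def HBY (Y : Set P) : Prop := ∃ t f, Tw P t f ∧ ∃ (k : ℕ) (w : Fin k → t.P → t.P → ℤ),
  (∀ i, TD (f ⁻¹' Y) (w i)) ∧
  (∀ i j, i ≠ j → ∀ x, ∀ y ∈ f ⁻¹' cl Y, x ≤ y → w i x y = 0 ∨ w j x y = 0) ∧
  ∀ ζ, CocOn (f ⁻¹' cl Y) ζ → ∃ n : Fin k → ℤ, ExOn (f ⁻¹' cl Y) (ζ - ∑ i, n i • w i)

/-- the state of the compression process -/
structure PR (car : P → R) (Y C : Set P) : Prop where
  amb : Amb C
  conn : Conn C
  ne : C.Nonempty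
  two : Two car Y C (Om C) (Y \ cl C)
  qq : QQ Y C

/-- normal in the tetrahedra -/
def N1 {Q : Type} [PartialOrder Q] (f : P → Ch Q) (F : Set P) : Prop :=
  ∀ τ : Ch Q, τ.1.card = 4 → ∀ D, IsCmp (F ∩ f ⁻¹' {τ}) D → Ctr D

/-- a region `ρ` of a triangle without vertex, bounded by one curve `α` -/
structure Leaf {Q : Type} [PartialOrder Q] (f : P → Ch Q) (F : Set P) (σ : Ch Q) (ρ α : Set P) :
    Prop where
  card : σ.1.card = 3
  reg : IsCmp ({x | f x ≤ σ} \ F) ρ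
  crv : IsCmp ({x | f x ≤ σ} ∩ F) α
  adj : ∀ y ∈ ρ, ∀ x ∈ F, x ≤ y → x ∈ α
  ne : ∃ y ∈ ρ, ∃ x ∈ α, x ≤ y
  nov : ∀ y ∈ ρ, 2 ≤ (f y).1.card

/-- normal in the triangles -/
def N2 {Q : Type} [PartialOrder Q] (f : P → Ch Q) (F : Set P) : Prop := ∀ σ ρ α, ¬ Leaf f F σ ρ α

/-- a disc along which the family can be simplified -/
structure Red (T : Set P) {k : ℕ} (G : Fin k → Set P) (i : Fin k) (X : Set P) (u : P → P → ℤ)
    (Z : Set P) : Prop where
  td : TD X u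
  on : On X (G i) u
  ft : Flat (T ∩ cl X) u
  fg : ∀ j, j ≠ i → Flat (G j ∩ cl X) u
  sub : Z ⊆ G i
  ctr : Ctr Z
  fro : Fro (G i) Z u
  ne : (Z ∩ T).Nonempty

/-- there is a family with `k` members on some level over `Ch P` -/
def HasFm (Y : Set P) (k : ℕ) : Prop := ∃ t f, Tw (Ch P) t f ∧
  ∃ U G V, Fm f (f ⁻¹' (Ch.top ⁻¹' Y)) k U G V

end fin

end Crest.Agent.X212.Hk
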