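import Crest.Agent.X212.Kh11.Br

/-!
# X212 / H: families of chains, dominated points, cell-like maps (helper11)
-/

set_option autoImplicit false
set_option linter.unusedSectionVars false

open Finset Classical

noncomputable section

namespace Crest.Agent.X212.Kh11

open Hp13 (Ch Cm CocOn ExOn Conn IsCmp eu pb)

variable {P Q R : Type} [PartialOrder P] [Fintype P] [PartialOrder Q] [Fintype Q]
  [PartialOrder R] [Fintype R]

/-- the members of `F` that lie in `X` -/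
def In (X : Set P) (F : Set (Ch P)) : Set (Ch P) := {c | (∀ x ∈ c.1, x ∈ X) ∧ c ∈ F}

/-- a dominated point can be removed -/
theorem beat1 {X : Set P} {z w : P} (hw : w ∈ X) (hne : w ≠ z)
    (dom : ∀ x ∈ X, Cm z x → Cm w x) {F : Set (Ch P)} (up : ∀ c ∈ F, ∀ d, c ≤ d → d ∈ F)
    (inv : ∀ c d : Ch P, w ∈ d.1 → c.1 = insert z d.1 → c ∈ F → d ∈ F) :
    WS (In (X \ {z}) F) (In X F) id := by
  have h1 : WS {c | c ∈ In X F ∧ (z ∈ c.1 → w ∈ c.1)} (In X F) id := by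
    refine WS.of_clo (r := fun c => if h : z ∈ c.1 ∧ ∀ x ∈ c.1, x ∈ X then
      c.ins w (fun x hx => dom x (h.2 x hx) (c.cm h.1 hx)) else c) (fun _ h => h.1) ?_ ?_
    · intro c hc
      by_cases hz : z ∈ c.1
      · rw [dif_pos ⟨hz, hc.1⟩]
        refine ⟨⟨⟨fun x hx => ?_, up c hc.2 _ (c.le_ins _ _)⟩, fun _ => mem_insert_self _ _⟩,
          c.le_ins _ _⟩
        rcases mem_insert.1 hx with e | e
        exacts [e ▸ hw, hc.1 x e]
      · rw [dif_neg (fun h => hz h.1)]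
        exact ⟨⟨hc, fun h => absurd h hz⟩, le_rfl⟩
    · intro c hc b hb hle
      by_cases hz : z ∈ c.1
      · rw [dif_pos ⟨hz, hc.1⟩]
        exact insert_subset (hb.2 (hle hz)) hle
      · rw [dif_neg (fun h => hz h.1)]
        exact hle
  have h2 : WS (In (X \ {z}) F) {c | c ∈ In X F ∧ (z ∈ c.1 → w ∈ c.1)} id := by
    refine WS.of_int (r := fun c => if h : w ∈ c.1 then
      c.sub (c.1.erase z) ⟨w, mem_erase.2 ⟨hne, h⟩⟩ (erase_subset _ _) else c) ?_ ?_ ?_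
    · exact fun c hc => ⟨⟨fun x hx => (hc.1 x hx).1, hc.2⟩, fun h => absurd rfl (hc.1 z h).2⟩
    · intro c hc
      by_cases h : w ∈ c.1
      · rw [dif_pos h]
        refine ⟨⟨fun x hx => ⟨hc.1.1 x (mem_erase.1 hx).2, (mem_erase.1 hx).1⟩, ?_⟩,
          erase_subset _ _⟩
        by_cases hz : z ∈ c.1
        · exact inv c _ (mem_erase.2 ⟨hne, h⟩) (insert_erase hz).symm hc.1.2
        · exact up c hc.1.2 _ (fun x hx => mem_erase.2 ⟨fun e => hz (e ▸ hx), hx⟩)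
      · rw [dif_neg h]
        exact ⟨⟨fun x hx => ⟨hc.1.1 x hx, fun e => h (hc.2 (e ▸ hx))⟩, hc.1.2⟩, le_rfl⟩
    · intro c _ b hb hle
      by_cases h : w ∈ c.1
      · rw [dif_pos h]
        exact fun x hx => mem_erase.2 ⟨(hb.1 x hx).2, hle hx⟩
      · rw [dif_neg h]
        exact hle
  exact h2.comp h1

/-- `z` may be replaced by `w` in the members of `F` -/
def Rpl (F : Set (Ch P)) (z w : P) : Prop :=
  ∀ c d : Ch P, w ∈ d.1 → c.1 = insert z d.1 → c ∈ F → d ∈ F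

/-- an interior operator on the carrier -/
theorem beat_int {D Z : Set P} {F : Set (Ch P)} (up : ∀ c ∈ F, ∀ d, c ≤ d → d ∈ F) (hD : D ⊆ Z)
    (h : ∀ z ∈ Z, ∃ w ∈ D, w ≤ z ∧ (∀ d ∈ D, d ≤ z → d ≤ w) ∧ Rpl F z w) :
    WS (In D F) (In Z F) id := by
  induction hn : (Z \ D).ncard generalizing Z with
  | zero =>
    rw [Set.ncard_eq_zero (Set.toFinite _), Set.sdiff_eq_empty] at hn
    rw [Set.Subset.antisymm hn hD]
    exact WS.refl _
  | succ n ih =>
    obtain ⟨z, hz⟩ := (Set.toFinite (Z \ D)).exists_minimal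
      (Set.nonempty_of_ncard_ne_zero (by omega))
    obtain ⟨w, hw, h1, h2, inv⟩ := h z hz.1.1
    have a := beat1 (X := Z) (hD hw) (fun e : w = z => hz.1.2 (e ▸ hw)) (fun x hx hc => by
      rcases hc with hc | hc
      · exact Or.inl (h1.trans hc)
      · by_cases hx' : x ∈ D
        · exact Or.inr (h2 x hx' hc)
        · exact Or.inl (h1.trans (hz.2 ⟨hx, hx'⟩ hc))) up inv
    refine (ih (Z := Z \ {z}) (fun x hx => ⟨hD hx, fun e => hz.1.2 (e ▸ hx)⟩)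
      (fun x hx => h x hx.1) ?_).comp a
    rw [Set.sdiff_sdiff_comm, Set.ncard_sdiff_singleton_of_mem hz.1, hn]; rfl

/-- a closure operator on the carrier -/
theorem beat_clo {D Z : Set P} {F : Set (Ch P)} (up : ∀ c ∈ F, ∀ d, c ≤ d → d ∈ F) (hD : D ⊆ Z)
    (h : ∀ z ∈ Z, ∃ w ∈ D, z ≤ w ∧ (∀ d ∈ D, z ≤ d → w ≤ d) ∧ Rpl F z w) :
    WS (In D F) (In Z F) id := by
  induction hn : (Z \ D).ncard generalizing Z with
  | zero =>
    rw [Set.ncard_eq_zero (Set.toFinite _), Set.sdiff_eq_empty] at hn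
    rw [Set.Subset.antisymm hn hD]
    exact WS.refl _
  | succ n ih =>
    obtain ⟨z, hz⟩ := (Set.toFinite (Z \ D)).exists_maximal
      (Set.nonempty_of_ncard_ne_zero (by omega))
    obtain ⟨w, hw, h1, h2, inv⟩ := h z hz.1.1
    have a := beat1 (X := Z) (hD hw) (fun e : w = z => hz.1.2 (e ▸ hw)) (fun x hx hc => by
      rcases hc with hc | hc
      · by_cases hx' : x ∈ D
        · exact Or.inl (h2 x hx' hc)
        · exact Or.inr ((hz.2 ⟨hx, hx'⟩ hc).trans h1)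
      · exact Or.inr (hc.trans h1)) up inv
    refine (ih (Z := Z \ {z}) (fun x hx => ⟨hD hx, fun e => hz.1.2 (e ▸ hx)⟩)
      (fun x hx => h x hx.1) ?_).comp a
    rw [Set.sdiff_sdiff_comm, Set.ncard_sdiff_singleton_of_mem hz.1, hn]; rfl

/-- a family inside a totally ordered carrier has a largest member -/
theorem ctr_in_chain (e : Ch P) {F : Set (Ch P)} (he : e ∈ F) : Hp13.Ctr (In (e.1 : Set P) F) :=
  sctr_max (m := e) ⟨fun _ h => h, he⟩ (fun _ hc _ hx => hc.1 _ hx)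

/-- `top` is a weak equivalence from the chains of `E` to `E` -/
theorem ws_top (E : Set P) : WS (In E Set.univ) E Ch.top := by
  refine WS.of_le (fun c hc => hc.1 _ c.top_mem) (fun _ _ _ _ h => Ch.top_mono h) (fun y hy => ?_)
  have h1 : WS {c : Ch P | (c ∈ In E Set.univ ∧ c.top ≤ y) ∧ y ∈ c.1}
      {c : Ch P | c ∈ In E Set.univ ∧ c.top ≤ y} id := by
    refine WS.of_clo (r := fun c => if h : c.top ≤ y then
      c.ins y (fun x hx => Or.inr ((Ch.le_top hx).trans h)) else c) (fun _ h => h.1) ?_ ?_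
    · intro c hc
      rw [dif_pos hc.2]
      refine ⟨⟨⟨⟨fun x hx => ?_, trivial⟩, ?_⟩, mem_insert_self _ _⟩, c.le_ins _ _⟩
      · rcases mem_insert.1 hx with e | e
        exacts [e ▸ hy, hc.1.1 x e]
      · rcases mem_insert.1 (Ch.top_mem (c.ins y _)) with e | e
        exacts [e.le, (Ch.le_top e).trans hc.2]
    · intro c hc b hb hle
      rw [dif_pos hc.2]
      exact insert_subset hb.2 hle
  refine h1.ctr_iff.1 (sctr_min (m := Ch.pt y) ⟨⟨⟨by simpa using hy, trivial⟩, by simp⟩, by simp⟩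
    (fun c hc => Ch.pt_le.2 hc.2))

/-- cell-like maps -/
structure CE (f : Q → P) : Prop where
  mono : Monotone f
  ctr : ∀ n e : Ch P, n ≤ e → Hp13.Ctr {d : Ch Q | n ≤ Ch.img f mono d ∧ Ch.img f mono d ≤ e}

namespace CE

variable {f : Q → P}

theorem upper (h : CE f) {e : Ch P} {F : Set (Ch P)} (he : e ∈ F)
    (up : ∀ c ∈ F, ∀ d, c ≤ d → d ≤ e → d ∈ F) :
    Hp13.Ctr {d : Ch Q | Ch.img f h.mono d ∈ F ∧ Ch.img f h.mono d ≤ e} := by
  have : WS {d : Ch Q | Ch.img f h.mono d ∈ F ∧ Ch.img f h.mono d ≤ e} {c | c ∈ F ∧ c ≤ e}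
      (Ch.img f h.mono) := by
    refine WS.of_ge (fun _ hd => hd) (fun _ _ _ _ hle => Ch.img_mono _ hle) (fun n hn => ?_)
    convert h.ctr n e hn.2 using 1
    ext d
    exact ⟨fun a => ⟨a.2, a.1.2⟩, fun a => ⟨⟨up n hn.1 _ a.1 a.2, a.2⟩, a.1⟩⟩
  exact this.ctr_iff.2 (sctr_max (m := e) ⟨he, le_rfl⟩ (fun _ hc => hc.2))

/-- on every order convex family of chains -/
theorem ws (h : CE f) {X : Set (Ch P)} (hX : X.OrdConnected) :
    WS (Ch.img f h.mono ⁻¹' X) X (Ch.img f h.mono) :=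
  WS.of_le (fun _ hd => hd) (fun _ _ _ _ hle => Ch.img_mono _ hle) (fun _ he =>
    h.upper he (fun _ hc _ h1 h2 => hX.out hc he ⟨h1, h2⟩))

theorem img_comp {g : R → Q} (hf : Monotone f) (hg : Monotone g) (d : Ch R) :
    Ch.img (f ∘ g) (hf.comp hg) d = Ch.img f hf (Ch.img g hg d) := by
  ext x
  simp only [Ch.mem_img, Function.comp]
  exact ⟨fun ⟨a, ha, e⟩ => ⟨_, ⟨a, ha, rfl⟩, e⟩, fun ⟨_, ⟨a, ha, rfl⟩, e⟩ => ⟨a, ha, e⟩⟩

theorem comp {g : R → Q} (h : CE f) (h' : CE g) : CE (f ∘ g) := by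
  refine ⟨h.mono.comp h'.mono, fun n e hne => ?_⟩
  have := h'.ws (X := {d : Ch Q | n ≤ Ch.img f h.mono d ∧ Ch.img f h.mono d ≤ e})
    ⟨fun _ a _ b _ c => ⟨a.1.trans (Ch.img_mono _ c.1), (Ch.img_mono _ c.2).trans b.2⟩⟩
  convert this.ctr_iff.2 (h.ctr n e hne) using 1
  ext d
  simp only [Set.mem_ofPred_eq, Set.mem_preimage, img_comp h.mono h'.mono]

theorem refl : CE (id : P → P) := by
  refine ⟨monotone_id, fun n e hne => ?_⟩
  have e1 : ∀ d : Ch P, Ch.img id monotone_id d = d := fun d => Ch.ext (image_id)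
  simp only [e1]
  exact sctr_max (m := e) ⟨hne, le_rfl⟩ (fun _ h => h.2)

/-- on every subset -/
theorem ws_pre (h : CE f) (E : Set P) : WS (f ⁻¹' E) E f := by
  have h1 := h.ws (X := In E Set.univ)
    ⟨fun _ _ _ b _ c => ⟨fun x hx => b.1 x (c.2 hx), trivial⟩⟩
  have e : Ch.img f h.mono ⁻¹' In E Set.univ = In (f ⁻¹' E) Set.univ := by
    ext d
    exact ⟨fun a => ⟨fun x hx => a.1 _ (Ch.mem_img.2 ⟨x, hx, rfl⟩), trivial⟩,
      fun a => ⟨fun x hx => let ⟨y, hy, k⟩ := Ch.mem_img.1 hx; k ▸ a.1 y hy, trivial⟩⟩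
  rw [e] at h1
  refine (ws_top (f ⁻¹' E)).cancel ((h1.comp (ws_top E)).congr ?_) (fun _ hx => hx)
    (fun _ _ _ _ hle => h.mono hle)
  intro d _
  exact (Ch.top_img h.mono d).symm

theorem acyc (h : CE f) : Hp13.Acyc f := fun e =>
  (h.ws_pre _).eu_eq.trans (sctr_max (m := e.top) e.top_mem (fun _ hx => Ch.le_top hx)).eu

/-- every chain is the image of a chain, compatibly with a given face -/
theorem lift (h : CE f) (e : Ch P) : ∃ d, Ch.img f h.mono d = e :=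
  let ⟨d, hd⟩ := (h.ctr e e le_rfl).ne; ⟨d, le_antisymm hd.2 hd.1⟩

theorem surj (h : CE f) : Function.Surjective f := fun x => by
  obtain ⟨d, hd⟩ := h.lift (Ch.pt x)
  exact ⟨d.top, by rw [← Ch.top_img h.mono, hd, Ch.top_pt]⟩

end CE

/-- the part of a chain below a point -/
def Ch.dn (e : Ch P) (x : P) (h : e.bot ≤ x) : Ch P :=
  e.sub (e.1.filter (· ≤ x)) ⟨e.bot, mem_filter.2 ⟨e.bot_mem, h⟩⟩ (filter_subset _ _)

/-- the part of a chain above a point -/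
def Ch.up (e : Ch P) (x : P) (h : x ≤ e.top) : Ch P :=
  e.sub (e.1.filter (x ≤ ·)) ⟨e.top, mem_filter.2 ⟨e.top_mem, h⟩⟩ (filter_subset _ _)

theorem ce_top : CE (Ch.top : Ch P → P) := by
  refine ⟨Ch.top_mono, fun n e hne => ?_⟩
  set F : Set (Ch (Ch P)) := {d | n ≤ Ch.img Ch.top Ch.top_mono d} with hF
  have up : ∀ c ∈ F, ∀ d, c ≤ d → d ∈ F := fun c hc d h => le_trans hc (Ch.img_mono _ h)
  have inv : ∀ z w : Ch P, w.top = z.top → Rpl F z w := by
    intro z w hw c d hd hc h x hx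
    obtain ⟨a, ha, k⟩ := Ch.mem_img.1 (h hx)
    rw [hc] at ha
    rcases mem_insert.1 ha with e1 | e1
    · exact Ch.mem_img.2 ⟨w, hd, by rw [hw, ← e1, k]⟩
    · exact Ch.mem_img.2 ⟨a, e1, k⟩
  have h1 : WS (In {c : Ch P | c ≤ e} F) (In {c : Ch P | c.top ∈ e.1} F) id :=
    beat_int up (fun c hc => hc c.top_mem) (fun z hz =>
      ⟨z.sub (z.1.filter (· ∈ e.1)) ⟨z.top, mem_filter.2 ⟨z.top_mem, hz⟩⟩ (filter_subset _ _),
        fun x hx => (mem_filter.1 hx).2, filter_subset _ _,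
        fun d hd hle x hx => mem_filter.2 ⟨hle hx, hd hx⟩,
        inv z _ (Ch.top_eq (mem_filter.2 ⟨z.top_mem, hz⟩)
          (fun x hx => Ch.le_top (mem_filter.1 hx).1))⟩)
  have hdn : ∀ x (hx : x ∈ e.1), (Ch.dn e x (Ch.bot_le hx)).top = x := fun x hx =>
    Ch.top_eq (mem_filter.2 ⟨hx, le_rfl⟩) (fun y hy => (mem_filter.1 hy).2)
  have h2 : WS (In {c : Ch P | ∃ x, ∃ hx : x ∈ e.1, c = Ch.dn e x (Ch.bot_le hx)} F)
      (In {c : Ch P | c ≤ e} F) id := by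
    refine beat_clo up (by rintro _ ⟨x, hx, rfl⟩; exact filter_subset _ _) (fun z hz =>
      ⟨_, ⟨_, hz z.top_mem, rfl⟩, fun x hx => mem_filter.2 ⟨hz hx, Ch.le_top hx⟩, ?_,
        inv z _ (hdn _ (hz z.top_mem))⟩)
    rintro _ ⟨x, hx, rfl⟩ hle y hy
    exact mem_filter.2 ⟨(mem_filter.1 hy).1,
      (mem_filter.1 hy).2.trans (mem_filter.1 (hle z.top_mem)).2⟩
  have h3 : Hp13.Ctr (In {c : Ch P | ∃ x, ∃ hx : x ∈ e.1, c = Ch.dn e x (Ch.bot_le hx)} F) := by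
    let fl : Ch (Ch P) := Ch.mk' (fs {c : Ch P | ∃ x, ∃ hx : x ∈ e.1, c = Ch.dn e x (Ch.bot_le hx)})
      ⟨_, mem_fs.2 ⟨_, e.top_mem, rfl⟩⟩ (by
        intro a ha b hb
        obtain ⟨x, hx, rfl⟩ := mem_fs.1 ha
        obtain ⟨y, hy, rfl⟩ := mem_fs.1 hb
        rcases e.total hx hy with h | h
        · exact Or.inl (fun t ht => mem_filter.2 ⟨(mem_filter.1 ht).1, (mem_filter.1 ht).2.trans h⟩)
        · exact Or.inr (fun t ht => mem_filter.2 ⟨(mem_filter.1 ht).1, (mem_filter.1 ht).2.trans h⟩))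
    refine sctr_max (m := fl) ⟨fun _ h => mem_fs.1 h, fun x hx => ?_⟩
      (fun c hc x hx => mem_fs.2 (hc.1 x hx))
    exact Ch.mem_img.2 ⟨_, mem_fs.2 ⟨x, hne hx, rfl⟩, hdn x (hne hx)⟩
  convert h1.ctr_iff.1 (h2.ctr_iff.1 h3) using 1
  ext d
  refine ⟨fun a => ⟨fun x hx => a.2 (Ch.mem_img.2 ⟨x, hx, rfl⟩), a.1⟩, fun a => ⟨a.2, fun x hx => ?_⟩⟩
  obtain ⟨y, hy, k⟩ := Ch.mem_img.1 hx
  exact k ▸ a.1 y hy

theorem _root_.Crest.Agent.X212.Hp13.Desc.ce {s t : Hp13.St} {f : t.P → s.P}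
    (h : Hp13.Desc s t f) : CE f := by
  induction h with
  | refl => exact CE.refl
  | step _ ih => exact ih.comp ce_top

end Crest.Agent.X212.Kh11
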