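import Crest.Agent.X212.Kh11.Fib3
import Crest.Agent.X212.Hp13.W

/-!
# X212 / H: weak equivalences for sets, in the names of `Hp13` (helper11)
-/

set_option autoImplicit false
set_option linter.unusedSectionVars false

open Finset Classical

noncomputable section

namespace Crest.Agent.X212.Kh11

open Hp13 (Ch Cm CocOn ExOn Conn IsCmp eu pb)

variable {P Q R : Type} [PartialOrder P] [Fintype P] [PartialOrder Q] [Fintype Q]
  [PartialOrder R] [Fintype R]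

/-- a set as a finset -/
def fs (E : Set P) : Finset P := univ.filter (· ∈ E)

@[simp] lemma mem_fs {E : Set P} {x : P} : x ∈ fs E ↔ x ∈ E := by simp [fs]

lemma fs_filter (E : Set P) (p : P → Prop) : (fs E).filter p = fs {x | x ∈ E ∧ p x} := by
  ext x; simp

lemma rch_fs {E : Set P} {x y : P} : Rch (fs E) x y ↔ Hp13.Rch E x y := by
  have : Stp (fs E) = fun x y => x ∈ E ∧ y ∈ E ∧ Cm x y := by
    funext a b; simp [Stp, Cm]
  unfold Rch Hp13.Rch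
  rw [this]

lemma cn_fs {E : Set P} : Cn (fs E) ↔ Conn E := by
  simp only [Cn, Conn, mem_fs, rch_fs]

lemma cmp_fs (E : Set P) (x : P) : cmp (fs E) x = fs (Hp13.cmp E x) := by
  ext y; simp [mem_cmp, Hp13.cmp, rch_fs]

lemma coc_fs {G : Type} [AddCommGroup G] {E : Set P} {z : P → P → G} :
    Coc (fs E) z ↔ CocOn E z := by simp only [Coc, CocOn, mem_fs]

lemma ex_fs {G : Type} [AddCommGroup G] {E : Set P} {z : P → P → G} :
    Ex (fs E) z ↔ ExOn E z := by simp only [Ex, ExOn, mem_fs]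

lemma chi_fs (E : Set P) : chi (fs E) = eu E := by
  unfold chi red eu
  rw [← add_sum_erase _ _ (empty_mem_chs (fs E))]
  simp only [card_empty, pow_zero, sub_add_cancel_left, neg_inj]
  symm
  refine sum_bij (fun c _ => c.1) ?_ ?_ ?_ ?_
  · intro c hc
    rw [mem_filter] at hc
    rw [mem_erase, mem_chs]
    exact ⟨c.2.1.ne_empty, fun x hx => mem_fs.2 (hc.2 x hx), c.2.2⟩
  · exact fun a _ b _ h => Ch.ext h
  · intro c hc
    rw [mem_erase, mem_chs] at hc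
    exact ⟨⟨c, nonempty_iff_ne_empty.2 hc.1, hc.2.2⟩,
      mem_filter.2 ⟨mem_univ _, fun x hx => mem_fs.1 (hc.2.1 hx)⟩, rfl⟩
  · exact fun _ _ => rfl

lemma ctr_fs {E : Set P} : Ctr (fs E) ↔ Hp13.Ctr E :=
  ⟨fun h => ⟨let ⟨x, hx⟩ := h.ne; ⟨x, mem_fs.1 hx⟩, cn_fs.1 h.cn,
      fun G _ z hz => ex_fs.1 (h.h1 G z (coc_fs.2 hz)), (chi_fs E).symm.trans h.chi⟩,
   fun h => ⟨let ⟨x, hx⟩ := h.ne; ⟨x, mem_fs.2 hx⟩, cn_fs.2 h.conn, (chi_fs E).trans h.eu,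
      fun G _ z hz => ex_fs.2 (h.ex G z (coc_fs.1 hz))⟩⟩

lemma sctr_cone {E : Set P} {m : P} (hm : m ∈ E) (h : ∀ x ∈ E, Cm x m) : Hp13.Ctr E :=
  ctr_fs.1 (ctr_cone (mem_fs.2 hm) (fun x hx => h x (mem_fs.1 hx)))

lemma sctr_max {E : Set P} {m : P} (hm : m ∈ E) (h : ∀ x ∈ E, x ≤ m) : Hp13.Ctr E :=
  sctr_cone hm (fun x hx => Or.inl (h x hx))

lemma sctr_min {E : Set P} {m : P} (hm : m ∈ E) (h : ∀ x ∈ E, m ≤ x) : Hp13.Ctr E :=
  sctr_cone hm (fun x hx => Or.inr (h x hx))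

/-- `C` is a union of components of `E` -/
def Clo (E C : Set P) : Prop := C ⊆ E ∧ ∀ x ∈ C, ∀ y ∈ E, Cm x y → y ∈ C

lemma Clo.low {E C : Set P} (h : Clo E C) : Low (fs E) (fs C) :=
  ⟨fun _ hx => mem_fs.2 (h.1 (mem_fs.1 hx)), fun x hx y hy hle =>
    mem_fs.2 (h.2 x (mem_fs.1 hx) y (mem_fs.1 hy) (Or.inr hle))⟩

lemma Clo.upp {E C : Set P} (h : Clo E C) : Upp (fs E) (fs C) :=
  ⟨fun _ hx => mem_fs.2 (h.1 (mem_fs.1 hx)), fun x hx y hy hle =>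
    mem_fs.2 (h.2 x (mem_fs.1 hx) y (mem_fs.1 hy) (Or.inl hle))⟩

lemma clo_cmp {E C : Set P} (h : IsCmp E C) : Clo E C :=
  ⟨h.sub, fun _ hx _ hy hc => h.clopen hx hy hc⟩

lemma clo_self (E : Set P) : Clo E E := ⟨subset_rfl, fun _ _ _ hy _ => hy⟩

/-- weak equivalence of subsets of finite posets -/
def WS (A : Set P) (B : Set Q) (f : P → Q) : Prop := WE (fs A) (fs B) f

namespace WS

variable {A : Set P} {B : Set Q} {f : P → Q}

lemma maps (h : WS A B f) {x : P} (hx : x ∈ A) : f x ∈ B := mem_fs.1 (WE.maps h x (mem_fs.2 hx))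

lemma mono (h : WS A B f) {x y : P} (hx : x ∈ A) (hy : y ∈ A) (hle : x ≤ y) : f x ≤ f y :=
  WE.mono h x (mem_fs.2 hx) y (mem_fs.2 hy) hle

lemma surj (h : WS A B f) {y : Q} (hy : y ∈ B) : ∃ x ∈ A, Hp13.Rch B (f x) y :=
  let ⟨x, hx, hr⟩ := WE.surj h y (mem_fs.2 hy); ⟨x, mem_fs.1 hx, rch_fs.1 hr⟩

lemma rch_iff (h : WS A B f) {x x' : P} (hx : x ∈ A) (hx' : x' ∈ A) :
    Hp13.Rch A x x' ↔ Hp13.Rch B (f x) (f x') := by
  rw [← rch_fs, ← rch_fs]; exact WE.rch_iff h (mem_fs.2 hx) (mem_fs.2 hx')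

lemma eu_eq (h : WS A B f) : eu A = eu B := by
  rw [← chi_fs, ← chi_fs]; exact WE.chi_eq h

lemma conn_iff (h : WS A B f) : Conn A ↔ Conn B := by
  rw [← cn_fs, ← cn_fs]; exact WE.cn_iff h

lemma ctr_iff (h : WS A B f) : Hp13.Ctr A ↔ Hp13.Ctr B := by
  rw [← ctr_fs, ← ctr_fs]; exact WE.ctr_iff h

lemma ne_iff (h : WS A B f) : A.Nonempty ↔ B.Nonempty :=
  ⟨fun ⟨_, hx⟩ => ⟨_, h.maps hx⟩, fun ⟨_, hy⟩ => let ⟨x, hx, _⟩ := h.surj hy; ⟨x, hx⟩⟩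

lemma ex (h : WS A B f) {G : Type} [AddCommGroup G] {z : Q → Q → G} (hz : CocOn B z)
    (he : ExOn A (pb f z)) : ExOn B z :=
  ex_fs.1 (WE.ex h G z (coc_fs.2 hz) (ex_fs.2 he))

lemma onto (h : WS A B f) {G : Type} [AddCommGroup G] {z : P → P → G} (hz : CocOn A z) :
    ∃ w : Q → Q → G, CocOn B w ∧ ExOn A (z - pb f w) :=
  let ⟨w, hw, he⟩ := WE.onto h G z (coc_fs.2 hz); ⟨w, coc_fs.1 hw, ex_fs.1 he⟩

lemma coc_pb (h : WS A B f) {G : Type} [AddCommGroup G] {z : Q → Q → G} (hz : CocOn B z) :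
    CocOn A (pb f z) := fun _ hx _ hy _ hw h1 h2 =>
  hz _ (h.maps hx) _ (h.maps hy) _ (h.maps hw) (h.mono hx hy h1) (h.mono hy hw h2)

lemma ex_pb (h : WS A B f) {G : Type} [AddCommGroup G] {z : Q → Q → G} (hz : ExOn B z) :
    ExOn A (pb f z) :=
  let ⟨g, hg⟩ := hz; ⟨g ∘ f, fun _ hx _ hy hle => hg _ (h.maps hx) _ (h.maps hy) (h.mono hx hy hle)⟩

theorem of_le (hm : ∀ x ∈ A, f x ∈ B) (hf : ∀ x ∈ A, ∀ y ∈ A, x ≤ y → f x ≤ f y)
    (h : ∀ y ∈ B, Hp13.Ctr {x | x ∈ A ∧ f x ≤ y}) : WS A B f := by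
  refine WE.of_le (by simpa using hm) (by simpa using hf) (fun y hy => ?_)
  have := ctr_fs.2 (h y (mem_fs.1 hy))
  convert this using 1
  ext x; simp

theorem of_ge (hm : ∀ x ∈ A, f x ∈ B) (hf : ∀ x ∈ A, ∀ y ∈ A, x ≤ y → f x ≤ f y)
    (h : ∀ y ∈ B, Hp13.Ctr {x | x ∈ A ∧ y ≤ f x}) : WS A B f := by
  refine WE.of_ge (by simpa using hm) (by simpa using hf) (fun y hy => ?_)
  have := ctr_fs.2 (h y (mem_fs.1 hy))
  convert this using 1
  ext x; simp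

theorem comp {C : Set R} {g : Q → R} (h : WS A B f) (h' : WS B C g) : WS A C (g ∘ f) :=
  WE.comp (f := f) (g := g) h h'

theorem congr {g : P → Q} (h : WS A B f) (e : ∀ x ∈ A, g x = f x) : WS A B g :=
  WE.congr h (by simpa using e)

theorem restr (h : WS A B f) {C : Set Q} (hC : Clo B C) : WS {x | x ∈ A ∧ f x ∈ C} C f := by
  have := WE.restr h hC.low hC.upp
  unfold WS
  convert this using 1
  ext x; simp

theorem cmp_eq (h : WS A B f) {x : P} (hx : x ∈ A) :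
    Hp13.cmp A x = {t | t ∈ A ∧ f t ∈ Hp13.cmp B (f x)} := by
  ext t
  exact ⟨fun a => ⟨a.1, h.maps a.1, (h.rch_iff hx a.1).1 a.2⟩,
    fun a => ⟨a.1, (h.rch_iff hx a.1).2 a.2.2⟩⟩

theorem cmp (h : WS A B f) {x : P} (hx : x ∈ A) : WS (Hp13.cmp A x) (Hp13.cmp B (f x)) f := by
  rw [h.cmp_eq hx]
  exact h.restr (clo_cmp (Hp13.isCmp_cmp (h.maps hx)))

/-- the components correspond -/
theorem isCmp_pre (h : WS A B f) {C : Set Q} (hC : IsCmp B C) :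
    IsCmp A {t | t ∈ A ∧ f t ∈ C} := by
  obtain ⟨y, hy, rfl⟩ := hC
  obtain ⟨x, hx, hr⟩ := h.surj hy
  exact ⟨x, hx, by rw [h.cmp_eq hx, Hp13.cmp_eq hr]⟩

theorem isCmp_ex (h : WS A B f) {C : Set P} (hC : IsCmp A C) :
    ∃ D, IsCmp B D ∧ C = {t | t ∈ A ∧ f t ∈ D} := by
  obtain ⟨x, hx, rfl⟩ := hC
  exact ⟨_, Hp13.isCmp_cmp (h.maps hx), h.cmp_eq hx⟩

/-- two out of three -/
theorem cancel {C : Set R} {g : Q → R} (h : WS A B f) (h' : WS A C (g ∘ f))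
    (hm : ∀ x ∈ B, g x ∈ C) (hg : ∀ x ∈ B, ∀ y ∈ B, x ≤ y → g x ≤ g y) : WS B C g := by
  have hm' : ∀ x ∈ fs B, g x ∈ fs C := by simpa using hm
  have hg' : ∀ x ∈ fs B, ∀ y ∈ fs B, x ≤ y → g x ≤ g y := by simpa using hg
  refine ⟨hm', hg', fun t ht => ?_, fun y hy y' hy' hr => ?_, fun D d1 d2 => ?_,
    fun G _ z hz he => WE.ex h' G z hz (he.comap (WE.maps h) (WE.mono h)), fun G _ z hz => ?_⟩
  · obtain ⟨x, hx, a⟩ := WE.surj h' t ht
    exact ⟨f x, WE.maps h x hx, a⟩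
  · obtain ⟨x, hx, a⟩ := WE.surj h y hy
    obtain ⟨x', hx', a'⟩ := WE.surj h y' hy'
    have := WE.inj h' x hx x' hx' (((a.map hm' hg').trans hr).trans (a'.map hm' hg').symm)
    exact (a.symm.trans (this.map (WE.maps h) (WE.mono h))).trans a'
  · have l1 : Low (fs B) ((fs B).filter (fun x => g x ∈ D)) :=
      ⟨filter_subset _ _, fun x hx y hy hle => mem_filter.2 ⟨hy, d1.2 _ (mem_filter.1 hx).2 _
        (hm' y hy) (hg' y hy x (mem_filter.1 hx).1 hle)⟩⟩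
    have l2 : Upp (fs B) ((fs B).filter (fun x => g x ∈ D)) :=
      ⟨filter_subset _ _, fun x hx y hy hle => mem_filter.2 ⟨hy, d2.2 _ (mem_filter.1 hx).2 _
        (hm' y hy) (hg' x (mem_filter.1 hx).1 y hy hle)⟩⟩
    rw [← WE.chi h' D d1 d2, ← WE.chi h _ l1 l2]
    congr 1
    ext x
    simp only [mem_filter]
    exact ⟨fun a => ⟨a.1, a.2.2⟩, fun a => ⟨a.1, WE.maps h x a.1, a.2⟩⟩
  · obtain ⟨w, hw, he⟩ := WE.onto h' G _ (hz.comap (WE.maps h) (WE.mono h))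
    refine ⟨w, hw, WE.ex h G _ ?_ he⟩
    intro x hx y hy t ht h1 h2
    simp only
    rw [hz x hx y hy t ht h1 h2, hw _ (hm' x hx) _ (hm' y hy) _ (hm' t ht) (hg' x hx y hy h1)
      (hg' y hy t ht h2)]
    abel

/-- the other two out of three -/
theorem cancel' {C : Set R} {g : Q → R} (h : WS B C g) (h' : WS A C (g ∘ f))
    (hm : ∀ x ∈ A, f x ∈ B) (hf : ∀ x ∈ A, ∀ y ∈ A, x ≤ y → f x ≤ f y) : WS A B f := by
  have hm' : ∀ x ∈ fs A, f x ∈ fs B := by simpa using hm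
  have hf' : ∀ x ∈ fs A, ∀ y ∈ fs A, x ≤ y → f x ≤ f y := by simpa using hf
  refine ⟨hm', hf', fun y hy => ?_, fun x hx x' hx' hr =>
    WE.inj h' x hx x' hx' (hr.map (WE.maps h) (WE.mono h)), fun D d1 d2 => ?_,
    fun G _ z hz he => ?_, fun G _ z hz => ?_⟩
  · obtain ⟨x, hx, a⟩ := WE.surj h' _ (WE.maps h y hy)
    exact ⟨x, hx, WE.inj h _ (hm' x hx) y hy a⟩
  · set D' := (fs C).filter (fun t => ∃ y ∈ D, Rch (fs C) (g y) t) with hD'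
    have e : ∀ y ∈ fs B, g y ∈ D' ↔ y ∈ D := by
      intro y hy
      rw [hD', mem_filter]
      refine ⟨fun ⟨_, y', hy', hr⟩ => ?_, fun a => ⟨WE.maps h y hy, y, a, Rch.rfl⟩⟩
      exact (Rch.in_clopen d1 d2 hy' (WE.inj h y' (d1.1 hy') y hy hr)).mem hy'
    have l1 : Low (fs C) D' := ⟨filter_subset _ _, fun x hx y hy hle => by
      obtain ⟨a, t, ht, hr⟩ := mem_filter.1 hx
      exact mem_filter.2 ⟨hy, t, ht, hr.trans (Rch.of_ge a hy hle)⟩⟩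
    have l2 : Upp (fs C) D' := ⟨filter_subset _ _, fun x hx y hy hle => by
      obtain ⟨a, t, ht, hr⟩ := mem_filter.1 hx
      exact mem_filter.2 ⟨hy, t, ht, hr.trans (Rch.of_le a hy hle)⟩⟩
    have a1 := WE.chi h' D' l1 l2
    have a2 := WE.chi h D' l1 l2
    have e1 : (fs B).filter (fun x => g x ∈ D') = D := by
      ext y
      rw [mem_filter]
      exact ⟨fun a => (e y a.1).1 a.2, fun a => ⟨d1.1 a, (e y (d1.1 a)).2 a⟩⟩
    rw [e1] at a2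
    rw [a2, ← a1]
    congr 1
    exact filter_congr (fun x hx => (e _ (hm' x hx)).symm)
  · obtain ⟨w, hw, hew⟩ := WE.onto h G z hz
    have h1 : Ex (fs A) (fun x y => w (g (f x)) (g (f y))) := by
      obtain ⟨a, ha⟩ := he
      obtain ⟨b, hb⟩ := hew.comap hm' hf'
      refine ⟨fun x => a x - b x, fun x hx y hy hle => ?_⟩
      have e1 := ha x hx y hy hle
      have e2 := hb x hx y hy hle
      simp only at e1 e2 ⊢
      rw [e1, sub_eq_iff_eq_add] at e2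
      rw [← sub_eq_zero] at e2 ⊢
      rw [← neg_eq_zero, ← e2]; abel
    have h2 := (WE.ex h' G w hw h1).comap (WE.maps h) (WE.mono h)
    refine (hew.add h2).congr ?_
    intro x _ y _ _
    abel
  · obtain ⟨w, hw, he⟩ := WE.onto h' G z hz
    exact ⟨_, hw.comap (WE.maps h) (WE.mono h), he⟩

theorem of_int {D A : Set P} {r : P → P} (hD : D ⊆ A) (h1 : ∀ x ∈ A, r x ∈ D ∧ r x ≤ x)
    (h2 : ∀ x ∈ A, ∀ b ∈ D, b ≤ x → b ≤ r x) : WS D A id :=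
  we_incl_of_int (r := r) (fun _ hx => mem_fs.2 (hD (mem_fs.1 hx))) (by simpa using h1)
    (by simpa using h2)

theorem of_clo {D A : Set P} {r : P → P} (hD : D ⊆ A) (h1 : ∀ x ∈ A, r x ∈ D ∧ x ≤ r x)
    (h2 : ∀ x ∈ A, ∀ b ∈ D, x ≤ b → r x ≤ b) : WS D A id :=
  we_incl_of_clo (r := r) (fun _ hx => mem_fs.2 (hD (mem_fs.1 hx))) (by simpa using h1)
    (by simpa using h2)

theorem of_int' {D A : Set P} (hD : D ⊆ A)
    (h : ∀ x ∈ A, ∃ w ∈ D, w ≤ x ∧ ∀ b ∈ D, b ≤ x → b ≤ w) : WS D A id :=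
  of_le (fun _ hx => hD hx) (fun _ _ _ _ h => h) (fun y hy =>
    let ⟨w, hw, h1, h2⟩ := h y hy; sctr_max (m := w) ⟨hw, h1⟩ (fun x hx => h2 x hx.1 hx.2))

theorem of_clo' {D A : Set P} (hD : D ⊆ A)
    (h : ∀ x ∈ A, ∃ w ∈ D, x ≤ w ∧ ∀ b ∈ D, x ≤ b → w ≤ b) : WS D A id :=
  of_ge (fun _ hx => hD hx) (fun _ _ _ _ h => h) (fun y hy =>
    let ⟨w, hw, h1, h2⟩ := h y hy; sctr_min (m := w) ⟨hw, h1⟩ (fun x hx => h2 x hx.1 hx.2))

/-- an order isomorphism of subsets -/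
theorem of_iso (hm : ∀ x ∈ A, f x ∈ B) (hs : ∀ y ∈ B, ∃ x ∈ A, f x = y)
    (h : ∀ x ∈ A, ∀ y ∈ A, f x ≤ f y ↔ x ≤ y) : WS A B f := by
  refine of_ge hm (fun x hx y hy hle => (h x hx y hy).2 hle) (fun y hy => ?_)
  obtain ⟨x, hx, rfl⟩ := hs y hy
  exact sctr_min (m := x) ⟨hx, le_rfl⟩ (fun t ht => (h x hx t ht.1).1 ht.2)

theorem refl (A : Set P) : WS A A id :=
  of_iso (fun _ h => h) (fun y hy => ⟨y, hy, rfl⟩) (fun _ _ _ _ => Iff.rfl)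

end WS

end Crest.Agent.X212.Kh11
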