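import Mathlib

/-!
# X212 / H: fibre lemmas for finite posets (helper11)

`chi A`: Euler characteristic of the order complex of the finite set `A` of a partial order,
`Rch A`: joined in the comparability graph, `Coc`/`Ex`: 1-cocycles / coboundaries.
A monotone map with contractible fibres keeps components, `chi` of lower sets and `H^1`.
-/

set_option autoImplicit false

open Finset

namespace Crest.Agent.X212.Kh11

variable {α β : Type*} [PartialOrder α] [PartialOrder β]

open Classical in
/-- all chains (the empty one included) inside `A` -/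
noncomputable def chs (A : Finset α) : Finset (Finset α) :=
  A.powerset.filter (fun c => IsChain (· ≤ ·) (c : Set α))

lemma mem_chs {A c : Finset α} : c ∈ chs A ↔ c ⊆ A ∧ IsChain (· ≤ ·) (c : Set α) := by
  classical
  simp [chs]

/-- minus the reduced Euler characteristic -/
noncomputable def red (A : Finset α) : ℤ := ∑ c ∈ chs A, (-1) ^ c.card

/-- Euler characteristic of the order complex -/
noncomputable def chi (A : Finset α) : ℤ := 1 - red A

lemma empty_mem_chs (A : Finset α) : ∅ ∈ chs A := by
  rw [mem_chs]; exact ⟨empty_subset _, by simp [IsChain]⟩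

lemma red_empty : red (∅ : Finset α) = 1 := by
  have : chs (∅ : Finset α) = {∅} := by
    ext c
    rw [mem_chs, mem_singleton, subset_empty]
    exact ⟨fun h => h.1, fun h => ⟨h, by subst h; simp [IsChain]⟩⟩
  simp [red, this]

lemma chi_empty : chi (∅ : Finset α) = 0 := by simp [chi, red_empty]

/-- a cone point kills `red` -/
lemma red_cone {A : Finset α} {m : α} (hm : m ∈ A) (h : ∀ x ∈ A, x ≤ m ∨ m ≤ x) : red A = 0 := by
  classical
  unfold red
  refine sum_involution (fun c _ => if m ∈ c then c.erase m else insert m c) ?_ ?_ ?_ ?_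
  · intro c _
    by_cases hc : m ∈ c
    · simp only [hc, if_true]
      have := card_erase_add_one hc
      rw [← this, pow_succ]; ring
    · simp only [hc, if_false]
      rw [card_insert_of_notMem hc, pow_succ]; ring
  · intro c _ _
    by_cases hc : m ∈ c
    · simp only [hc, if_true]
      intro e
      have : m ∈ c.erase m := by rw [e]; exact hc
      simp at this
    · simp only [hc, if_false]
      intro e
      exact hc (by rw [← e]; exact mem_insert_self _ _)
  · intro c hc
    rw [mem_chs] at hc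
    by_cases hmc : m ∈ c
    · simp only [hmc, if_true]
      rw [mem_chs]
      exact ⟨(erase_subset _ _).trans hc.1, hc.2.mono (by simp)⟩
    · simp only [hmc, if_false]
      rw [mem_chs]
      refine ⟨insert_subset hm hc.1, ?_⟩
      rw [coe_insert]
      refine hc.2.insert ?_
      intro b hb _
      exact (h b (hc.1 hb)).symm
  · intro c _
    by_cases hc : m ∈ c
    · simp [hc]
    · simp [hc, erase_insert hc]

lemma chi_cone {A : Finset α} {m : α} (hm : m ∈ A) (h : ∀ x ∈ A, x ≤ m ∨ m ≤ x) : chi A = 1 := by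
  simp [chi, red_cone hm h]

lemma exists_top {c : Finset α} (hc : IsChain (· ≤ ·) (c : Set α)) (hn : c.Nonempty) :
    ∃ m ∈ c, ∀ x ∈ c, x ≤ m := by
  obtain ⟨m, hm⟩ := c.exists_maximal hn
  refine ⟨m, hm.1, fun x hx => ?_⟩
  rcases hc.total hx hm.1 with h | h
  · exact h
  · exact hm.2 hx h

open Classical in
/-- the Moebius weight of `x` in `A` -/
noncomputable def wt (A : Finset α) (x : α) : ℤ := red (A.filter (· < x))

lemma chi_eq_sum (A : Finset α) : chi A = ∑ x ∈ A, wt A x := by
  classical
  have h1 : red A = 1 + ∑ c ∈ (chs A).erase ∅, (-1 : ℤ) ^ c.card := by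
    unfold red
    rw [← add_sum_erase _ _ (empty_mem_chs A)]; simp
  have h2 : ∑ x ∈ A, wt A x = ∑ c ∈ (chs A).erase ∅, -(-1 : ℤ) ^ c.card := by
    unfold wt red
    rw [sum_sigma']
    refine sum_bij (fun p _ => insert p.1 p.2) ?_ ?_ ?_ ?_
    · rintro ⟨x, c⟩ hp
      simp only [mem_sigma, mem_chs] at hp
      obtain ⟨hx, hc, hch⟩ := hp
      rw [mem_erase, mem_chs]
      refine ⟨(insert_nonempty _ _).ne_empty, insert_subset hx (hc.trans (filter_subset _ _)), ?_⟩
      rw [coe_insert]
      refine hch.insert ?_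
      intro b hb _
      exact Or.inr (mem_filter.1 (hc hb)).2.le
    · rintro ⟨x, c⟩ hp ⟨y, d⟩ hq e
      simp only [mem_sigma, mem_chs] at hp hq
      simp only at e
      have hx : x ∉ c := fun h => lt_irrefl _ (mem_filter.1 (hp.2.1 h)).2
      have hy : y ∉ d := fun h => lt_irrefl _ (mem_filter.1 (hq.2.1 h)).2
      have hxy : x = y := by
        have a1 : x ∈ insert y d := by rw [← e]; exact mem_insert_self _ _
        have a2 : y ∈ insert x c := by rw [e]; exact mem_insert_self _ _
        rcases mem_insert.1 a1 with h | h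
        · exact h
        · rcases mem_insert.1 a2 with h' | h'
          · exact h'.symm
          · exact absurd ((mem_filter.1 (hq.2.1 h)).2.trans (mem_filter.1 (hp.2.1 h')).2)
              (lt_irrefl _)
      subst hxy
      have : c = d := by rw [← erase_insert hx, e, erase_insert hy]
      subst this; rfl
    · intro c hc
      rw [mem_erase, mem_chs] at hc
      obtain ⟨m, hm, hmax⟩ := exists_top hc.2.2 (nonempty_iff_ne_empty.2 hc.1)
      refine ⟨⟨m, c.erase m⟩, ?_, by simp [insert_erase hm]⟩
      simp only [mem_sigma, mem_chs]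
      refine ⟨hc.2.1 hm, ?_, hc.2.2.mono (by simp)⟩
      intro x hx
      rw [mem_erase] at hx
      exact mem_filter.2 ⟨hc.2.1 hx.2, lt_of_le_of_ne (hmax x hx.2) hx.1⟩
    · rintro ⟨x, c⟩ hp
      simp only [mem_sigma, mem_chs] at hp
      have hx : x ∉ c := fun h => lt_irrefl _ (mem_filter.1 (hp.2.1 h)).2
      simp only
      rw [card_insert_of_notMem hx, pow_succ]; ring
  rw [h2, chi, h1, sum_neg_distrib]; ring

/-- `C` is a lower part of `A` -/
def Low (A C : Finset α) : Prop := C ⊆ A ∧ ∀ x ∈ C, ∀ y ∈ A, y ≤ x → y ∈ C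

/-- `C` is an upper part of `A` -/
def Upp (A C : Finset α) : Prop := C ⊆ A ∧ ∀ x ∈ C, ∀ y ∈ A, x ≤ y → y ∈ C

lemma wt_low {A C : Finset α} (h : Low A C) {x : α} (hx : x ∈ C) : wt C x = wt A x := by
  classical
  unfold wt
  congr 1
  ext y
  simp only [mem_filter]
  exact ⟨fun hy => ⟨h.1 hy.1, hy.2⟩, fun hy => ⟨h.2 x hx y hy.1 hy.2.le, hy.2⟩⟩

lemma chi_low {A C : Finset α} (h : Low A C) : chi C = ∑ x ∈ C, wt A x := by
  rw [chi_eq_sum]
  exact sum_congr rfl (fun x hx => wt_low h hx)

open Classical in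
lemma sum_wt_le {A : Finset α} {x : α} (hx : x ∈ A) :
    ∑ y ∈ A.filter (· ≤ x), wt A y = 1 := by
  rw [← chi_low (A := A) (C := A.filter (· ≤ x))]
  · exact chi_cone (m := x) (by simp [hx]) (fun y hy => Or.inl (mem_filter.1 hy).2)
  · exact ⟨filter_subset _ _, fun a ha y hy hle => mem_filter.2 ⟨hy, hle.trans (mem_filter.1 ha).2⟩⟩

open Classical in
/-- the weight is the only function with all lower sums `1` -/
lemma wt_unique {A : Finset α} {g : α → ℤ}
    (hg : ∀ x ∈ A, ∑ y ∈ A.filter (· ≤ x), g y = 1) : ∀ x ∈ A, g x = wt A x := by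
  have key : ∀ n : ℕ, ∀ x ∈ A, (A.filter (· < x)).card = n → g x = wt A x := by
    intro n
    induction n using Nat.strong_induction_on with
    | _ n ih =>
      intro x hx hn
      have e : A.filter (· ≤ x) = insert x (A.filter (· < x)) := by
        ext y
        simp only [mem_filter, mem_insert]
        constructor
        · rintro ⟨h1, h2⟩
          rcases h2.eq_or_lt with h | h
          · exact Or.inl h
          · exact Or.inr ⟨h1, h⟩
        · rintro (h | h)
          · subst h; exact ⟨hx, le_rfl⟩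
          · exact ⟨h.1, h.2.le⟩
      have hnx : x ∉ A.filter (· < x) := by simp
      have a1 := hg x hx
      have a2 := sum_wt_le hx
      rw [e, sum_insert hnx] at a1 a2
      have a3 : ∑ y ∈ A.filter (· < x), g y = ∑ y ∈ A.filter (· < x), wt A y := by
        refine sum_congr rfl (fun y hy => ?_)
        rw [mem_filter] at hy
        refine ih _ ?_ y hy.1 rfl
        rw [← hn]
        refine card_lt_card ⟨fun t ht => ?_, fun hs => ?_⟩
        · rw [mem_filter] at ht ⊢
          exact ⟨ht.1, ht.2.trans hy.2⟩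
        · have := hs (mem_filter.2 hy)
          simp at this
      omega
  exact fun x hx => key _ x hx rfl

open Classical in
/-- cell count: a function with all lower sums `1` computes `chi` of every lower part -/
lemma chi_eq_cells {A C : Finset α} {g : α → ℤ}
    (hg : ∀ x ∈ A, ∑ y ∈ A.filter (· ≤ x), g y = 1) (h : Low A C) : chi C = ∑ x ∈ C, g x := by
  rw [chi_low h]
  exact sum_congr rfl (fun x hx => (wt_unique hg x (h.1 hx)).symm)

open Classical in
/-- fibre lemma for `chi` -/
theorem chi_fib {A : Finset α} {B C : Finset β} {f : α → β} (hm : ∀ x ∈ A, f x ∈ B)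
    (hf : ∀ x ∈ A, ∀ y ∈ A, x ≤ y → f x ≤ f y)
    (h1 : ∀ y ∈ B, chi (A.filter (fun x => f x ≤ y)) = 1) (hC : Low B C) :
    chi (A.filter (fun x => f x ∈ C)) = chi C := by
  have hlow : ∀ D : Finset β, Low B D → Low A (A.filter (fun x => f x ∈ D)) := by
    intro D hD
    refine ⟨filter_subset _ _, fun x hx y hy hle => mem_filter.2 ⟨hy, ?_⟩⟩
    rw [mem_filter] at hx
    exact hD.2 _ hx.2 _ (hm y hy) (hf y hy x hx.1 hle)
  have hsum : ∀ D : Finset β, Low B D → chi (A.filter (fun x => f x ∈ D)) =
      ∑ y ∈ D, ∑ x ∈ A.filter (fun x => f x = y), wt A x := by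
    intro D hD
    rw [chi_low (hlow D hD), ← sum_fiberwise_of_maps_to (g := f) (t := D)
      (fun x hx => (mem_filter.1 hx).2)]
    refine sum_congr rfl (fun y hy => sum_congr ?_ (fun _ _ => rfl))
    ext x
    simp only [mem_filter]
    exact ⟨fun h => ⟨h.1.1, h.2⟩, fun h => ⟨⟨h.1, h.2 ▸ hy⟩, h.2⟩⟩
  rw [hsum C hC]
  symm
  refine chi_eq_cells (A := B) (fun y hy => ?_) hC
  rw [← hsum _ ⟨filter_subset _ _, fun a ha t ht hle =>
    mem_filter.2 ⟨ht, hle.trans (mem_filter.1 ha).2⟩⟩, ← h1 y hy]
  congr 1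
  ext x
  simp only [mem_filter]
  exact ⟨fun h => ⟨h.1, h.2.2⟩, fun h => ⟨h.1, hm x h.1, h.2⟩⟩

lemma red_dual (A : Finset α) : red (α := αᵒᵈ) A = red A := by
  unfold red
  refine sum_congr ?_ (fun _ _ => rfl)
  ext c
  exact (mem_chs (α := αᵒᵈ)).trans
    ((and_congr Iff.rfl ⟨fun h => h.symm, fun h => h.symm⟩).trans (mem_chs (α := α)).symm)

lemma chi_dual (A : Finset α) : chi (α := αᵒᵈ) A = chi A := by
  unfold chi; rw [red_dual]

open Classical in
/-- fibre lemma for `chi`, upper form -/
theorem chi_fib' {A : Finset α} {B C : Finset β} {f : α → β} (hm : ∀ x ∈ A, f x ∈ B)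
    (hf : ∀ x ∈ A, ∀ y ∈ A, x ≤ y → f x ≤ f y)
    (h1 : ∀ y ∈ B, chi (A.filter (fun x => y ≤ f x)) = 1) (hC : Upp B C) :
    chi (A.filter (fun x => f x ∈ C)) = chi C := by
  have := chi_fib (α := αᵒᵈ) (β := βᵒᵈ) (A := A) (B := B) (C := C) (f := f) hm
    (fun x hx y hy h => hf y hy x hx h) (fun y hy => (chi_dual (α := α) _).trans (h1 y hy)) hC
  exact ((chi_dual (α := α) _).symm.trans this).trans (chi_dual C)

open Classical in
/-- `chi` is additive on two lower parts -/
lemma chi_union_inter {A C D : Finset α} (hC : Low A C) (hD : Low A D) :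
    chi (C ∪ D) + chi (C ∩ D) = chi C + chi D := by
  have h1 : Low A (C ∪ D) := ⟨union_subset hC.1 hD.1, fun x hx y hy h => by
    rcases mem_union.1 hx with a | a
    · exact mem_union_left _ (hC.2 x a y hy h)
    · exact mem_union_right _ (hD.2 x a y hy h)⟩
  have h2 : Low A (C ∩ D) := ⟨inter_subset_left.trans hC.1, fun x hx y hy h =>
    mem_inter.2 ⟨hC.2 x (mem_inter.1 hx).1 y hy h, hD.2 x (mem_inter.1 hx).2 y hy h⟩⟩
  rw [chi_low h1, chi_low h2, chi_low hC, chi_low hD, sum_union_inter]

end Crest.Agent.X212.Kh11
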