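import Crest.Agent.X212.Kh11.Fib

/-!
# X212 / H: fibre lemmas, part 2: components and cocycles (helper11)
-/

set_option autoImplicit false

open Finset

namespace Crest.Agent.X212.Kh11

variable {α β : Type*} [PartialOrder α] [PartialOrder β]

/-- one step in the comparability graph of `A` -/
def Stp (A : Finset α) (x y : α) : Prop := x ∈ A ∧ y ∈ A ∧ (x ≤ y ∨ y ≤ x)

/-- joined inside `A` -/
def Rch (A : Finset α) : α → α → Prop := Relation.ReflTransGen (Stp A)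

/-- connected (possibly empty) -/
def Cn (A : Finset α) : Prop := ∀ x ∈ A, ∀ y ∈ A, Rch A x y

lemma Rch.rfl {A : Finset α} {x : α} : Rch A x x := Relation.ReflTransGen.refl

lemma Rch.trans {A : Finset α} {x y t : α} (h : Rch A x y) (h' : Rch A y t) : Rch A x t :=
  Relation.ReflTransGen.trans h h'

lemma Rch.of_le {A : Finset α} {x y : α} (hx : x ∈ A) (hy : y ∈ A) (h : x ≤ y) : Rch A x y :=
  Relation.ReflTransGen.single ⟨hx, hy, Or.inl h⟩

lemma Rch.of_ge {A : Finset α} {x y : α} (hx : x ∈ A) (hy : y ∈ A) (h : y ≤ x) : Rch A x y :=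
  Relation.ReflTransGen.single ⟨hx, hy, Or.inr h⟩

lemma Rch.symm {A : Finset α} {x y : α} (h : Rch A x y) : Rch A y x := by
  induction h with
  | refl => exact Rch.rfl
  | tail _ h2 ih =>
    exact Rch.trans (Relation.ReflTransGen.single ⟨h2.2.1, h2.1, h2.2.2.symm⟩) ih

lemma Rch.mono {A B : Finset α} (hAB : A ⊆ B) {x y : α} (h : Rch A x y) : Rch B x y := by
  induction h with
  | refl => exact Rch.rfl
  | tail _ h2 ih => exact Relation.ReflTransGen.tail ih ⟨hAB h2.1, hAB h2.2.1, h2.2.2⟩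

lemma Rch.mem {A : Finset α} {x y : α} (h : Rch A x y) (hx : x ∈ A) : y ∈ A := by
  induction h with
  | refl => exact hx
  | tail _ h2 _ => exact h2.2.1

/-- a property kept along order relations of `A` (both ways) is kept along paths -/
lemma Rch.ind {A : Finset α} {x y : α} (h : Rch A x y) {p : α → Prop} (hx : p x)
    (hp : ∀ a ∈ A, ∀ b ∈ A, a ≤ b → (p a ↔ p b)) : p y := by
  induction h with
  | refl => exact hx
  | tail _ h2 ih =>
    rcases h2.2.2 with h | h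
    · exact (hp _ h2.1 _ h2.2.1 h).1 ih
    · exact (hp _ h2.2.1 _ h2.1 h).2 ih

lemma Rch.eq {γ : Type*} {A : Finset α} {x y : α} (h : Rch A x y) {g : α → γ}
    (hg : ∀ a ∈ A, ∀ b ∈ A, a ≤ b → g a = g b) : g x = g y :=
  h.ind (p := fun t => g x = g t) (Eq.refl _) (fun a ha b hb hab => by rw [hg a ha b hb hab])

lemma Rch.map {A : Finset α} {B : Finset β} {f : α → β} (hm : ∀ x ∈ A, f x ∈ B)
    (hf : ∀ x ∈ A, ∀ y ∈ A, x ≤ y → f x ≤ f y) {x y : α} (h : Rch A x y) :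
    Rch B (f x) (f y) :=
  h.ind (p := fun t => Rch B (f x) (f t)) Rch.rfl (fun a ha b hb hab =>
    ⟨fun h => h.trans (Rch.of_le (hm a ha) (hm b hb) (hf a ha b hb hab)),
     fun h => h.trans (Rch.of_ge (hm b hb) (hm a ha) (hf a ha b hb hab))⟩)

lemma cn_cone {A : Finset α} {m : α} (hm : m ∈ A) (h : ∀ x ∈ A, x ≤ m ∨ m ≤ x) : Cn A :=
  fun x hx y hy => Rch.trans (Relation.ReflTransGen.single ⟨hx, hm, h x hx⟩)
    (Relation.ReflTransGen.single ⟨hm, hy, (h y hy).symm⟩)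

lemma rch_dual {A : Finset α} {x y : α} : Rch (α := αᵒᵈ) A x y ↔ Rch A x y := by
  have : Stp (α := αᵒᵈ) A = Stp (α := α) A := by
    funext a b
    exact propext ⟨fun h => ⟨h.1, h.2.1, h.2.2.symm⟩, fun h => ⟨h.1, h.2.1, h.2.2.symm⟩⟩
  unfold Rch
  rw [this]
  exact Iff.rfl

lemma cn_dual {A : Finset α} : Cn (α := αᵒᵈ) A ↔ Cn A :=
  ⟨fun h x hx y hy => rch_dual.1 (h x hx y hy), fun h x hx y hy => rch_dual.2 (h x hx y hy)⟩

open Classical in
/-- the component of `x` in `A` -/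
noncomputable def cmp (A : Finset α) (x : α) : Finset α := A.filter (Rch A x)

lemma mem_cmp {A : Finset α} {x y : α} : y ∈ cmp A x ↔ y ∈ A ∧ Rch A x y := by
  classical
  simp [cmp]

lemma cmp_low (A : Finset α) (x : α) : Low A (cmp A x) :=
  ⟨fun _ h => (mem_cmp.1 h).1, fun _ ha _ hb h =>
    mem_cmp.2 ⟨hb, (mem_cmp.1 ha).2.trans (Rch.of_ge (mem_cmp.1 ha).1 hb h)⟩⟩

lemma cmp_upp (A : Finset α) (x : α) : Upp A (cmp A x) :=
  ⟨fun _ h => (mem_cmp.1 h).1, fun _ ha _ hb h =>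
    mem_cmp.2 ⟨hb, (mem_cmp.1 ha).2.trans (Rch.of_le (mem_cmp.1 ha).1 hb h)⟩⟩

lemma Rch.in_clopen {A C : Finset α} (h1 : Low A C) (h2 : Upp A C) {x y : α} (hx : x ∈ C)
    (h : Rch A x y) : Rch C x y := by
  have : y ∈ C ∧ Rch C x y := by
    refine h.ind (p := fun t => t ∈ C ∧ Rch C x t) ⟨hx, Rch.rfl⟩ ?_
    intro a ha b hb hab
    constructor
    · rintro ⟨c1, c2⟩
      have := h2.2 a c1 b hb hab
      exact ⟨this, c2.trans (Rch.of_le c1 this hab)⟩
    · rintro ⟨c1, c2⟩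
      have := h1.2 b c1 a ha hab
      exact ⟨this, c2.trans (Rch.of_ge c1 this hab)⟩
  exact this.2

lemma cn_cmp (A : Finset α) (x : α) : Cn (cmp A x) := fun _ ha _ hb =>
  Rch.in_clopen (cmp_low A x) (cmp_upp A x) ha ((mem_cmp.1 ha).2.symm.trans (mem_cmp.1 hb).2)

lemma cmp_eq {A : Finset α} {x y : α} (h : Rch A x y) : cmp A x = cmp A y := by
  ext t
  simp only [mem_cmp]
  exact ⟨fun a => ⟨a.1, h.symm.trans a.2⟩, fun a => ⟨a.1, h.trans a.2⟩⟩

section Fib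

variable {A : Finset α} {B : Finset β} {f : α → β}

open Classical in
/-- fibre lemma for components -/
theorem rch_fib (h0 : ∀ y ∈ B, ∃ x ∈ A, f x ≤ y)
    (h1 : ∀ y ∈ B, Cn (A.filter (fun x => f x ≤ y))) {y y' : β} (hy : y ∈ B) (h : Rch B y y')
    {x x' : α} (hx : x ∈ A) (hx' : x' ∈ A) (a : f x ≤ y) (a' : f x' ≤ y') : Rch A x x' := by
  have key : ∀ t ∈ A, f t ≤ y' → Rch A x t := by
    refine h.ind (p := fun s => ∀ t ∈ A, f t ≤ s → Rch A x t) ?_ ?_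
    · intro t ht hle
      exact (h1 y hy x (mem_filter.2 ⟨hx, a⟩) t (mem_filter.2 ⟨ht, hle⟩)).mono (filter_subset _ _)
    · intro s hs s' hs' hss
      refine ⟨fun H t ht hle => ?_, fun H t ht hle => H t ht (hle.trans hss)⟩
      obtain ⟨r, hr, hrs⟩ := h0 s hs
      exact (H r hr hrs).trans ((h1 s' hs' r (mem_filter.2 ⟨hr, hrs.trans hss⟩) t
        (mem_filter.2 ⟨ht, hle⟩)).mono (filter_subset _ _))
  exact key x' hx' a'

open Classical in
theorem cmp_fib (hm : ∀ x ∈ A, f x ∈ B) (hf : ∀ x ∈ A, ∀ y ∈ A, x ≤ y → f x ≤ f y)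
    (h0 : ∀ y ∈ B, ∃ x ∈ A, f x ≤ y) (h1 : ∀ y ∈ B, Cn (A.filter (fun x => f x ≤ y)))
    {x : α} (hx : x ∈ A) : cmp A x = A.filter (fun t => f t ∈ cmp B (f x)) := by
  ext t
  simp only [mem_cmp, mem_filter]
  exact ⟨fun h => ⟨h.1, hm t h.1, h.2.map hm hf⟩,
    fun h => ⟨h.1, rch_fib h0 h1 (hm x hx) h.2.2 hx h.1 le_rfl le_rfl⟩⟩

variable {G : Type*} [AddCommGroup G]

/-- 1-cocycle on the order complex of `A` -/
def Coc (A : Finset α) (z : α → α → G) : Prop :=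
  ∀ x ∈ A, ∀ y ∈ A, ∀ t ∈ A, x ≤ y → y ≤ t → z x t = z x y + z y t

/-- coboundary on `A` -/
def Ex (A : Finset α) (z : α → α → G) : Prop :=
  ∃ a : α → G, ∀ x ∈ A, ∀ y ∈ A, x ≤ y → z x y = a y - a x

lemma Coc.self {z : α → α → G} (h : Coc A z) {x : α} (hx : x ∈ A) : z x x = 0 := by
  have := h x hx x hx x hx le_rfl le_rfl
  simpa using this

lemma Coc.mono {C : Finset α} {z : α → α → G} (h : Coc A z) (hC : C ⊆ A) : Coc C z :=
  fun x hx y hy t ht => h x (hC hx) y (hC hy) t (hC ht)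

lemma Ex.mono {C : Finset α} {z : α → α → G} (h : Ex A z) (hC : C ⊆ A) : Ex C z := by
  obtain ⟨a, ha⟩ := h
  exact ⟨a, fun x hx y hy => ha x (hC hx) y (hC hy)⟩

lemma Ex.coc {z : α → α → G} (h : Ex A z) : Coc A z := by
  obtain ⟨a, ha⟩ := h
  intro x hx y hy t ht h1 h2
  rw [ha x hx t ht (h1.trans h2), ha x hx y hy h1, ha y hy t ht h2]; abel

lemma Coc.comap {z : β → β → G} (h : Coc B z) (hm : ∀ x ∈ A, f x ∈ B)
    (hf : ∀ x ∈ A, ∀ y ∈ A, x ≤ y → f x ≤ f y) : Coc A (fun x y => z (f x) (f y)) :=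
  fun x hx y hy t ht h1 h2 => h _ (hm x hx) _ (hm y hy) _ (hm t ht) (hf x hx y hy h1) (hf y hy t ht h2)

lemma Ex.comap {z : β → β → G} (h : Ex B z) (hm : ∀ x ∈ A, f x ∈ B)
    (hf : ∀ x ∈ A, ∀ y ∈ A, x ≤ y → f x ≤ f y) : Ex A (fun x y => z (f x) (f y)) := by
  obtain ⟨a, ha⟩ := h
  exact ⟨fun x => a (f x), fun x hx y hy h => ha _ (hm x hx) _ (hm y hy) (hf x hx y hy h)⟩

lemma ex_cone {m : α} (hm : m ∈ A) (h : ∀ x ∈ A, x ≤ m ∨ m ≤ x) {z : α → α → G}
    (hz : Coc A z) : Ex A z := by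
  classical
  refine ⟨fun x => if x ≤ m then -z x m else z m x, fun x hx y hy hxy => ?_⟩
  by_cases h1 : y ≤ m
  · simp only [h1, hxy.trans h1, if_true]
    rw [hz x hx y hy m hm hxy h1]; abel
  · have h2 : m ≤ y := (h y hy).resolve_left h1
    by_cases h3 : x ≤ m
    · simp only [h1, h3, if_true, if_false]
      rw [hz x hx m hm y hy h3 h2]; abel
    · simp only [h1, h3, if_false]
      rw [hz m hm x hx y hy ((h x hx).resolve_left h3) hxy]; abel

open Classical in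
/-- `f^*` is injective on `H^1` -/
theorem ex_of_comap (hm : ∀ x ∈ A, f x ∈ B) (hf : ∀ x ∈ A, ∀ y ∈ A, x ≤ y → f x ≤ f y)
    (h0 : ∀ y ∈ B, ∃ x ∈ A, f x ≤ y) (h1 : ∀ y ∈ B, Cn (A.filter (fun x => f x ≤ y)))
    {z : β → β → G} (hz : Coc B z) (h : Ex A (fun x y => z (f x) (f y))) : Ex B z := by
  obtain ⟨a, ha⟩ := h
  rcases B.eq_empty_or_nonempty with hB | ⟨y0, hy0⟩
  · subst hB; exact ⟨fun _ => 0, by simp⟩
  have : Nonempty α := ⟨(h0 y0 hy0).choose⟩
  choose! s hs hsy using h0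
  have key : ∀ y ∈ B, ∀ x ∈ A, f x ≤ y → a x + z (f x) y = a (s y) + z (f (s y)) y := by
    intro y hy x hx hle
    refine (h1 y hy x (mem_filter.2 ⟨hx, hle⟩) (s y) (mem_filter.2 ⟨hs y hy, hsy y hy⟩)).eq
      (g := fun t => a t + z (f t) y) ?_
    intro p hp q hq hpq
    rw [mem_filter] at hp hq
    have e1 := ha p hp.1 q hq.1 hpq
    simp only at e1 ⊢
    rw [hz _ (hm p hp.1) _ (hm q hq.1) y hy (hf p hp.1 q hq.1 hpq) hq.2, e1]; abel
  refine ⟨fun y => a (s y) + z (f (s y)) y, fun y hy y' hy' hle => ?_⟩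
  simp only
  rw [← key y' hy' (s y) (hs y hy) ((hsy y hy).trans hle),
    hz _ (hm _ (hs y hy)) y hy y' hy' (hsy y hy) hle]; abel

open Classical in
/-- `f^*` is onto on `H^1` -/
theorem exists_comap (hm : ∀ x ∈ A, f x ∈ B) (hf : ∀ x ∈ A, ∀ y ∈ A, x ≤ y → f x ≤ f y)
    (h0 : ∀ y ∈ B, ∃ x ∈ A, f x ≤ y) (h1 : ∀ y ∈ B, Cn (A.filter (fun x => f x ≤ y)))
    {z : α → α → G} (hz : ∀ y ∈ B, Ex (A.filter (fun x => f x ≤ y)) z) :
    ∃ w : β → β → G, Coc B w ∧ Ex A (fun x y => z x y - w (f x) (f y)) := by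
  rcases A.eq_empty_or_nonempty with hA | ⟨x0, -⟩
  · subst hA; exact ⟨fun _ _ => 0, fun _ _ _ _ _ _ _ _ => by simp, fun _ => 0, by simp⟩
  have : Nonempty α := ⟨x0⟩
  choose! s hs hsy using h0
  choose! a ha using hz
  have key : ∀ y ∈ B, ∀ y' ∈ B, y ≤ y' → ∀ x ∈ A, f x ≤ y →
      a y x - a y' x = a y (s y) - a y' (s y) := by
    intro y hy y' hy' hle x hx hxy
    refine (h1 y hy x (mem_filter.2 ⟨hx, hxy⟩) (s y) (mem_filter.2 ⟨hs y hy, hsy y hy⟩)).eq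
      (g := fun t => a y t - a y' t) ?_
    intro p hp q hq hpq
    have e1 := ha y hy p hp q hq hpq
    rw [mem_filter] at hp hq
    have e2 := ha y' hy' p (mem_filter.2 ⟨hp.1, hp.2.trans hle⟩) q
      (mem_filter.2 ⟨hq.1, hq.2.trans hle⟩) hpq
    have : a y q - a y p = a y' q - a y' p := e1.symm.trans e2
    rw [sub_eq_sub_iff_add_eq_add] at this ⊢
    rw [add_comm, ← this, add_comm]
  refine ⟨fun y y' => a y (s y) - a y' (s y), ?_, fun x => a (f x) x, ?_⟩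
  · intro y hy y' hy' y'' hy'' h2 h3
    simp only
    rw [← key y' hy' y'' hy'' h3 (s y) (hs y hy) ((hsy y hy).trans h2)]; abel
  · intro x hx x' hx' hle
    have h2 := hf x hx x' hx' hle
    simp only
    rw [← key _ (hm x hx) _ (hm x' hx') h2 x hx le_rfl,
      ha _ (hm x' hx') x (mem_filter.2 ⟨hx, h2⟩) x' (mem_filter.2 ⟨hx', le_rfl⟩) hle]; abel

lemma Ex.add {z w : α → α → G} (h : Ex A z) (h' : Ex A w) : Ex A (fun x y => z x y + w x y) := by
  obtain ⟨a, ha⟩ := h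
  obtain ⟨b, hb⟩ := h'
  refine ⟨fun x => a x + b x, fun x hx y hy hle => ?_⟩
  simp only
  rw [ha x hx y hy hle, hb x hx y hy hle]; abel

lemma Ex.congr {z w : α → α → G} (h : Ex A z) (e : ∀ x ∈ A, ∀ y ∈ A, x ≤ y → w x y = z x y) :
    Ex A w := by
  obtain ⟨a, ha⟩ := h
  exact ⟨a, fun x hx y hy hle => (e x hx y hy hle).trans (ha x hx y hy hle)⟩

lemma coc_dual {z : α → α → G} : Coc (α := αᵒᵈ) A (fun x y => -z y x) ↔ Coc A z := by
  constructor
  · intro h x hx y hy t ht h1 h2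
    have := h t ht y hy x hx h2 h1
    simp only at this
    rw [← neg_add, neg_inj] at this
    rw [this, add_comm]
  · intro h x hx y hy t ht h1 h2
    simp only
    rw [h t ht y hy x hx h2 h1]; abel

lemma ex_dual {z : α → α → G} : Ex (α := αᵒᵈ) A (fun x y => -z y x) ↔ Ex A z := by
  constructor
  · rintro ⟨a, ha⟩
    refine ⟨a, fun x hx y hy h => ?_⟩
    have := ha y hy x hx h
    simp only at this
    rw [← neg_inj, this]; abel
  · rintro ⟨a, ha⟩
    refine ⟨a, fun x hx y hy h => ?_⟩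
    simp only
    rw [ha y hy x hx h]; abel

end Fib

end Crest.Agent.X212.Kh11
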